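import Mathlib

/-!
# Row 215: numeric bounds for `arctan`
-/

set_option autoImplicit false

open Real Set

namespace Crest.Agent.R215

/-- tangent line bound for `arctan` on `[0, ∞)` -/
lemma arctan_le_tangent {y y0 : ℝ} (hy : 0 ≤ y) (hy0 : 0 ≤ y0) :
    arctan y ≤ arctan y0 + (y - y0) / (1 + y0 ^ 2) := by
  set K : ℝ → ℝ := fun y => arctan y0 + (y - y0) / (1 + y0 ^ 2) - arctan y with hK
  have hd : ∀ x, HasDerivAt K (1 / (1 + y0 ^ 2) - 1 / (1 + x ^ 2)) x := by
    intro x
    have h1 : HasDerivAt (fun y => arctan y0 + (y - y0) / (1 + y0 ^ 2)) (1 / (1 + y0 ^ 2)) x :=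
      (((hasDerivAt_id x).sub_const y0).div_const (1 + y0 ^ 2)).const_add (arctan y0)
    exact h1.sub (hasDerivAt_arctan x)
  have hc : Continuous K := continuous_iff_continuousAt.2 fun x => (hd x).continuousAt
  have h0 : K y0 = 0 := by simp [hK]
  rcases le_total y0 y with h | h
  · have : MonotoneOn K (Icc y0 y) := by
      refine monotoneOn_of_deriv_nonneg (convex_Icc _ _) hc.continuousOn
        (fun x _ => (hd x).differentiableAt.differentiableWithinAt) ?_
      intro x hx
      rw [interior_Icc] at hx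
      rw [(hd x).deriv, sub_nonneg]
      have : y0 ^ 2 ≤ x ^ 2 := by nlinarith [hx.1]
      gcongr
    have h3 := this (left_mem_Icc.2 h) (right_mem_Icc.2 h) h
    rw [h0] at h3
    simp only [hK] at h3
    linarith
  · have : AntitoneOn K (Icc y y0) := by
      refine antitoneOn_of_deriv_nonpos (convex_Icc _ _) hc.continuousOn
        (fun x _ => (hd x).differentiableAt.differentiableWithinAt) ?_
      intro x hx
      rw [interior_Icc] at hx
      rw [(hd x).deriv, sub_nonpos]
      have : x ^ 2 ≤ y0 ^ 2 := by nlinarith [hx.1, hx.2]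
      gcongr
    have h3 := this (left_mem_Icc.2 h) (right_mem_Icc.2 h) h
    rw [h0] at h3
    simp only [hK] at h3
    linarith

lemma arctan_le_self' {y : ℝ} (hy : 0 ≤ y) : arctan y ≤ y := by
  have := arctan_le_tangent hy le_rfl
  simpa using this

lemma sub_cube_le_arctan {x : ℝ} (hx : 0 ≤ x) : x - x ^ 3 / 3 ≤ arctan x := by
  set K : ℝ → ℝ := fun x => arctan x - (x - x ^ 3 / 3) with hK
  have hd : ∀ x, HasDerivAt K (1 / (1 + x ^ 2) - (1 - x ^ 2)) x := by
    intro x
    refine (hasDerivAt_arctan x).fun_sub ?_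
    refine ((hasDerivAt_id x).fun_sub ((hasDerivAt_pow 3 x).div_const 3)).congr_deriv ?_
    norm_num
  have hc : Continuous K := continuous_iff_continuousAt.2 fun x => (hd x).continuousAt
  have : MonotoneOn K (Ici 0) := by
    refine monotoneOn_of_deriv_nonneg (convex_Ici 0) hc.continuousOn
      (fun x _ => (hd x).differentiableAt.differentiableWithinAt) ?_
    intro x _
    rw [(hd x).deriv, sub_nonneg, le_div_iff₀ (by positivity)]
    nlinarith [sq_nonneg (x ^ 2)]
  have h3 := this (mem_Ici.2 le_rfl) (mem_Ici.2 hx) hx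
  simp only [hK] at h3
  norm_num at h3
  linarith

lemma arctan_le_quintic {x : ℝ} (hx : 0 ≤ x) : arctan x ≤ x - x ^ 3 / 3 + x ^ 5 / 5 := by
  set K : ℝ → ℝ := fun x => x - x ^ 3 / 3 + x ^ 5 / 5 - arctan x with hK
  have hd : ∀ x, HasDerivAt K ((1 - x ^ 2 + x ^ 4) - 1 / (1 + x ^ 2)) x := by
    intro x
    refine HasDerivAt.fun_sub ?_ (hasDerivAt_arctan x)
    refine (((hasDerivAt_id x).fun_sub ((hasDerivAt_pow 3 x).div_const 3)).fun_add
      ((hasDerivAt_pow 5 x).div_const 5)).congr_deriv ?_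
    norm_num
  have hc : Continuous K := continuous_iff_continuousAt.2 fun x => (hd x).continuousAt
  have : MonotoneOn K (Ici 0) := by
    refine monotoneOn_of_deriv_nonneg (convex_Ici 0) hc.continuousOn
      (fun x _ => (hd x).differentiableAt.differentiableWithinAt) ?_
    intro x _
    rw [(hd x).deriv, sub_nonneg, div_le_iff₀ (by positivity)]
    nlinarith [sq_nonneg (x ^ 3)]
  have h3 := this (mem_Ici.2 le_rfl) (mem_Ici.2 hx) hx
  simp only [hK] at h3
  norm_num at h3
  linarith

/-- `arctan y0 ≤ π/4 - (x - x³/3)` for `x = (1 - y0)/(1 + y0)` -/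
lemma arctan_hi_lt_one {y x : ℝ} (hx : 0 ≤ x) (hxy : x * y < 1)
    (h : y + x = 1 - y * x) : arctan y ≤ π / 4 - (x - x ^ 3 / 3) := by
  have h1 := arctan_add (x := y) (y := x) (by linarith [mul_comm x y])
  have h2 : (y + x) / (1 - y * x) = 1 := by
    rw [h]
    exact div_self (by nlinarith)
  rw [h2, arctan_one] at h1
  have := sub_cube_le_arctan hx
  linarith

lemma arctan_hi_gt_one {y x : ℝ} (hx : 0 ≤ x) (hx1 : x < 1)
    (h : (1 + x) / (1 - x) = y) : arctan y ≤ π / 4 + x := by
  have h1 := arctan_add (x := 1) (y := x) (by linarith)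
  rw [one_mul, h, arctan_one] at h1
  have := arctan_le_self' hx
  linarith

lemma arctan_0_2 : arctan 0.2 ≤ 0.1974 := by
  have := arctan_le_quintic (x := 0.2) (by norm_num)
  norm_num at *
  linarith

lemma arctan_0_5 : arctan 0.5 ≤ 0.46442 := by
  have := arctan_hi_lt_one (y := 0.5) (x := 1 / 3) (by norm_num) (by norm_num) (by norm_num)
  have := Real.pi_lt_d6
  norm_num at *
  linarith

lemma arctan_0_8 : arctan 0.8 ≤ 0.67475 := by
  have := arctan_hi_lt_one (y := 0.8) (x := 1 / 9) (by norm_num) (by norm_num) (by norm_num)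
  have := Real.pi_lt_d6
  norm_num at *
  linarith

lemma arctan_1_1 : arctan 1.1 ≤ 0.83302 := by
  have := arctan_hi_gt_one (y := 1.1) (x := 1 / 21) (by norm_num) (by norm_num) (by norm_num)
  have := Real.pi_lt_d6
  norm_num at *
  linarith

lemma arctan_1_3 : arctan 1.3 ≤ 0.91584 := by
  have := arctan_hi_gt_one (y := 1.3) (x := 3 / 23) (by norm_num) (by norm_num) (by norm_num)
  have := Real.pi_lt_d6
  norm_num at *
  linarith

/-- change of the scale -/
lemma arctan_div_le {a u w : ℝ} (ha : 0 ≤ a) (hu : 0 < u) (huw : u ≤ w) :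
    arctan (a / u) ≤ arctan (a / w) + (w - u) / (2 * u) := by
  have hw : 0 < w := hu.trans_le huw
  have h1 := arctan_le_tangent (y := a / u) (y0 := a / w) (by positivity) (by positivity)
  refine h1.trans (add_le_add le_rfl ?_)
  have e : (a / u - a / w) / (1 + (a / w) ^ 2) = (w - u) / u * (a * w / (w ^ 2 + a ^ 2)) := by
    field_simp
  have e2 : (w - u) / (2 * u) = (w - u) / u * (1 / 2) := by
    field_simp
  rw [e, e2]
  have h3 : 0 ≤ (w - u) / u := div_nonneg (by linarith) hu.le
  refine mul_le_mul_of_nonneg_left ?_ h3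
  rw [div_le_div_iff₀ (by positivity) (by norm_num)]
  nlinarith [sq_nonneg (w - a)]

/-- `arcsin t ≤ c t` for small `t` -/
lemma arcsin_le_mul {t c t0 : ℝ} (ht : 0 ≤ t) (htt : t ≤ t0) (hc : 1 ≤ c) (hc1 : c * t0 ≤ 1)
    (h : c ^ 3 * t0 ^ 2 ≤ 6 * (c - 1)) : arcsin t ≤ c * t := by
  have hct : c * t ≤ 1 := (mul_le_mul_of_nonneg_left htt (by linarith)).trans hc1
  have hct0 : 0 ≤ c * t := by positivity
  rw [arcsin_le_iff_le_sin']
  · have key : ∀ x : ℝ, 0 ≤ x → x - x ^ 3 / 6 ≤ sin x := by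
      intro x hx
      set K : ℝ → ℝ := fun x => sin x - (x - x ^ 3 / 6) with hK
      have hd : ∀ x, HasDerivAt K (cos x - (1 - x ^ 2 / 2)) x := by
        intro x
        refine (hasDerivAt_sin x).fun_sub ?_
        refine ((hasDerivAt_id x).fun_sub ((hasDerivAt_pow 3 x).div_const 6)).congr_deriv ?_
        norm_num
        ring
      have hcn : Continuous K := continuous_iff_continuousAt.2 fun x => (hd x).continuousAt
      have : MonotoneOn K (Ici 0) := by
        refine monotoneOn_of_deriv_nonneg (convex_Ici 0) hcn.continuousOn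
          (fun x _ => (hd x).differentiableAt.differentiableWithinAt) ?_
        intro x _
        rw [(hd x).deriv, sub_nonneg]
        exact one_sub_sq_div_two_le_cos
      have h3 := this (mem_Ici.2 le_rfl) (mem_Ici.2 hx) hx
      simp only [hK] at h3
      norm_num at h3
      linarith
    have h1 := key (c * t) hct0
    have h2 : c ^ 3 * t ^ 2 ≤ 6 * (c - 1) := by
      refine le_trans ?_ h
      have : t ^ 2 ≤ t0 ^ 2 := by gcongr
      gcongr
    nlinarith [mul_le_mul_of_nonneg_right h2 ht]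
  · constructor
    · have := Real.pi_pos
      linarith
    · have := Real.pi_gt_three
      linarith

/-- the last angle in the tie inequality -/
lemma arctan_sigma_le {σ u c t0 : ℝ} (hσ : 0 ≤ σ) (hu : 0 < u) (ht : 2 * σ ≤ t0 * (√3 * u))
    (ht0 : t0 < 1) (hc : 1 ≤ c) (hc1 : c * t0 ≤ 1)
    (h : c ^ 3 * t0 ^ 2 ≤ 6 * (c - 1)) :
    arctan (2 * σ / √(3 * u ^ 2 - 4 * σ ^ 2)) ≤ c * (2 * σ / (√3 * u)) := by
  have h3 : (0:ℝ) < √3 := by positivity
  have h33 : √3 ^ 2 = 3 := Real.sq_sqrt (by norm_num)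
  set t : ℝ := 2 * σ / (√3 * u) with htdef
  have hv : 0 < √3 * u := by positivity
  have htt : t ≤ t0 := by rw [htdef, div_le_iff₀ hv]; exact ht
  have ht00 : 0 ≤ t := by positivity
  have ht1 : t < 1 := lt_of_le_of_lt htt ht0
  have e : 2 * σ / √(3 * u ^ 2 - 4 * σ ^ 2) = t / √(1 - t ^ 2) := by
    have e1 : 2 * σ = t * (√3 * u) := by rw [htdef]; field_simp
    have e2 : 3 * u ^ 2 - 4 * σ ^ 2 = (√3 * u) ^ 2 * (1 - t ^ 2) := by
      have : 4 * σ ^ 2 = (2 * σ) ^ 2 := by ring
      rw [this, e1]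
      have : 3 * u ^ 2 = (√3 * u) ^ 2 := by rw [mul_pow, h33]
      rw [this]
      ring
    rw [e2, Real.sqrt_mul (by positivity), Real.sqrt_sq hv.le, e1]
    have h5 : 0 < √(1 - t ^ 2) := Real.sqrt_pos.2 (by nlinarith)
    field_simp
  rw [e, ← arcsin_eq_arctan ⟨by linarith, ht1⟩]
  exact arcsin_le_mul ht00 htt hc hc1 h

end Crest.Agent.R215
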