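import Crest.Agent.R215.Base

/-!
# Row 215: assembly
-/

set_option autoImplicit false

open MeasureTheory ProbabilityTheory Set

namespace Crest.Agent.R215

universe u v

/-- the frozen statement from the emptiness of `Crit E (Fin k)` for `k = 4` and `k ≥ 5` -/
theorem assemble (E : Type u) [NormedAddCommGroup E] [InnerProductSpace ℝ E]
    [FiniteDimensional ℝ E] [MeasurableSpace E] [BorelSpace E]
    (h4 : IsEmpty (Crit E (Fin 4))) (h5 : ∀ k : ℕ, 5 ≤ k → IsEmpty (Crit E (Fin k)))
    (ι : Type v) [Fintype ι] (A : ι → Set E)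
    (hA : ∀ i, MeasurableSet (A i))
    (hdisj : Pairwise fun i j => Disjoint (A i) (A j))
    (hcov : ⋃ i, A i = Set.univ) :
    ∑ i, ‖∫ x in A i, x ∂stdGaussian E‖ ^ 2 ≤ 9 / (8 * Real.pi) := by
  have h : ∀ k : ℕ, 4 ≤ k → IsEmpty (Crit E (Fin k)) := by
    intro k hk
    rcases Nat.lt_or_ge k 5 with h | h
    · obtain rfl : k = 4 := by omega
      exact h4
    · exact h5 k h
  exact good_all h ι A ⟨hA, hdisj, hcov⟩

end Crest.Agent.R215
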