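import Crest.Agent.R215.TieArctan

/-!
# Row 215: geometry step of the big-big tie inequality
-/

set_option autoImplicit false
set_option linter.unusedSectionVars false

open MeasureTheory ProbabilityTheory Set Filter Topology
open scoped RealInnerProductSpace

namespace Crest.Agent.R215.BBGeo

open Crest.Agent.R215 Crest.Agent.R215.Tie

variable {E : Type*} [NormedAddCommGroup E] [InnerProductSpace ℝ E] [FiniteDimensional ℝ E]
  [MeasurableSpace E] [BorelSpace E]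
variable {ι : Type*} [Fintype ι] [DecidableEq ι] (c : Crit E ι)

/-- row sum inequality -/
lemma two_le_norm_sq {i a b : ι} (hia : i ≠ a) (hib : i ≠ b) (hab : a ≠ b) :
    -⟪c.z i, c.z a⟫ - ⟪c.z i, c.z b⟫ ≤ ‖c.z i‖ ^ 2 := by
  have h0 : ⟪c.z i, ∑ t, c.z t⟫ = 0 := by rw [c.sum_z, inner_zero_right]
  rw [inner_sum, ← Finset.add_sum_erase _ _ (Finset.mem_univ i),
    ← Finset.add_sum_erase _ _ (show a ∈ Finset.univ.erase i by simp [hia.symm]),
    ← Finset.add_sum_erase _ _ (show b ∈ (Finset.univ.erase i).erase a by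
      simp [hib.symm, hab.symm]), real_inner_self_eq_norm_sq] at h0
  have h1 : ∑ t ∈ ((Finset.univ.erase i).erase a).erase b, ⟪c.z i, c.z t⟫ ≤ 0 := by
    refine Finset.sum_nonpos fun t ht => ?_
    simp only [Finset.mem_erase] at ht
    exact (c.inner_lt (Ne.symm ht.2.2.1)).le
  linarith

/-- the sum over a set of indices is not longer than in the orthogonal case -/
lemma norm_sum_sq_le (S : Finset ι) : ‖∑ i ∈ S, c.z i‖ ^ 2 ≤ ∑ i ∈ S, ‖c.z i‖ ^ 2 := by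
  induction S using Finset.induction_on with
  | empty => simp
  | insert a S ha ih =>
    rw [Finset.sum_insert ha, Finset.sum_insert ha, norm_add_sq_real, inner_sum]
    have h1 : ∑ t ∈ S, ⟪c.z a, c.z t⟫ ≤ 0 := by
      refine Finset.sum_nonpos fun t ht => ?_
      exact (c.inner_lt (by rintro rfl; exact ha ht)).le
    linarith

/-- core: the pair `(j, l)` has the smallest `-⟪z, z⟫` -/
lemma bb_geo_core {j l m : ι} (hjl : j ≠ l) (hmj : m ≠ j) (hml : m ≠ l) {e σ : ℝ}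
    (he : e = ‖c.z j‖ ^ 2 + ‖c.z l‖ ^ 2 + ‖c.z m‖ ^ 2)
    (h1 : ⟪c.z j, c.z m⟫ ≤ ⟪c.z j, c.z l⟫) (h2 : ⟪c.z l, c.z m⟫ ≤ ⟪c.z j, c.z l⟫)
    (h3 : ‖c.z j‖ ^ 2 ≤ 4 * ‖c.z l‖ ^ 2) (h4 : ‖c.z l‖ ^ 2 ≤ 4 * ‖c.z j‖ ^ 2)
    (hσ : σ = ∑ i ∈ ((Finset.univ.erase j).erase l).erase m, ‖c.z i‖ ^ 2)
    (h5 : 4 * σ < 3 * (3 / 2 * (e - ‖c.z m‖ ^ 2))) (h6 : 4 * σ < 3 * e) :
    ∃ u : ℝ, 0 < u ∧ u ^ 2 = min e (3 / 2 * (e - ‖c.z m‖ ^ 2)) ∧
      Real.pi ≤ ∑ i ∈ ((Finset.univ.erase j).erase l).erase m,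
          Real.arctan (√12 * ‖c.z i‖ / u)
        + Real.arctan (2 * ‖∑ i ∈ ((Finset.univ.erase j).erase l).erase m, c.z i‖ /
            √(3 * u ^ 2 - 4 * ‖∑ i ∈ ((Finset.univ.erase j).erase l).erase m, c.z i‖ ^ 2))
        + 2 * Real.pi * √(2 * Real.pi) / Fintype.card ι * u := by
  set S := ((Finset.univ.erase j).erase l).erase m with hS
  set s := ∑ i ∈ S, c.z i with hs
  have hσ0 : 0 ≤ σ := by rw [hσ]; positivity
  have hsσ : ‖s‖ ^ 2 ≤ σ := by rw [hσ]; exact norm_sum_sq_le c S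
  set cc : ℝ := -⟪c.z j, c.z l⟫ with hcc
  have hccpos : 0 < cc := by have := c.inner_lt hjl; rw [hcc]; linarith
  have g1 := two_le_norm_sq c hjl hmj.symm hml.symm
  have g2 := two_le_norm_sq c (Ne.symm hjl) hml.symm hmj.symm
  have g3 := two_le_norm_sq c hmj hml hjl
  rw [real_inner_comm] at g2
  rw [real_inner_comm, real_inner_comm (c.z l)] at g3
  set x := ‖c.z j‖ ^ 2 with hx
  set y := ‖c.z l‖ ^ 2 with hy
  set w := ‖c.z m‖ ^ 2 with hw
  have k1 : 2 * cc ≤ x := by rw [hcc]; linarith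
  have k2 : 2 * cc ≤ y := by rw [hcc]; linarith
  have k3 : 2 * cc ≤ w := by rw [hcc]; linarith
  have hd2 : ‖c.z j - c.z l‖ ^ 2 = x + y + 2 * cc := by
    rw [norm_sub_sq_real, ← hx, ← hy, hcc]; ring
  have hf := norm_foot_sq c hjl
  rw [hd2, ← hx, ← hy] at hf
  have hcc2 : ⟪c.z j, c.z l⟫ ^ 2 = cc ^ 2 := by rw [hcc]; ring
  rw [hcc2] at hf
  -- foot bound
  have hdpos : 0 < x + y + 2 * cc := by linarith
  have hfoot : (x + y) / 8 ≤ ‖foot c.z j l‖ ^ 2 := by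
    have hmul : (x + y) / 8 * (x + y + 2 * cc) ≤ ‖foot c.z j l‖ ^ 2 * (x + y + 2 * cc) := by
      rw [hf]
      rcases le_total x y with hxy | hxy
      · -- y is the max, x the min
        have a1 : (x + y) / 8 * (x + y + 2 * cc) ≤ (x + y) / 8 * (y + 2 * x) := by
          apply mul_le_mul_of_nonneg_left _ (by linarith); linarith
        have a2 : x * y - cc ^ 2 ≥ x * y - x ^ 2 / 4 := by nlinarith
        nlinarith [mul_nonneg (sub_nonneg.2 hxy) (show (0 : ℝ) ≤ 4 * x - y by linarith)]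
      · have a1 : (x + y) / 8 * (x + y + 2 * cc) ≤ (x + y) / 8 * (x + 2 * y) := by
          apply mul_le_mul_of_nonneg_left _ (by linarith); linarith
        have a2 : x * y - cc ^ 2 ≥ x * y - y ^ 2 / 4 := by nlinarith
        nlinarith [mul_nonneg (sub_nonneg.2 hxy) (show (0 : ℝ) ≤ 4 * y - x by linarith)]
    exact le_of_mul_le_mul_right hmul hdpos
  have hem : e - w = x + y := by rw [he]; ring
  set U : ℝ := min e (3 / 2 * (e - w)) with hU
  have hUpos : 0 < U := by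
    rw [hU]
    refine lt_min ?_ ?_
    · linarith
    · rw [hem]; linarith
  have hσU : 4 * σ < 3 * U := by
    rw [hU]
    rcases min_choice e (3 / 2 * (e - w)) with h | h <;> rw [h]
    · exact h6
    · exact h5
  refine ⟨√U, Real.sqrt_pos.2 hUpos, Real.sq_sqrt hUpos.le, ?_⟩
  set u := √U with hu
  have hu0 : 0 < u := Real.sqrt_pos.2 hUpos
  have hu2 : u ^ 2 = U := Real.sq_sqrt hUpos.le
  -- `d ≤ u`
  have hdu : ‖c.z j - c.z l‖ ≤ u := by
    rw [hu]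
    refine Real.le_sqrt_of_sq_le ?_
    rw [hd2, hU]
    refine le_min ?_ ?_
    · rw [he]; linarith
    · rw [hem]; linarith
  -- foot ≥ u / √12
  have hfu : U / 12 ≤ ‖foot c.z j l‖ ^ 2 := by
    refine le_trans ?_ hfoot
    have : U ≤ 3 / 2 * (x + y) := by rw [hU, hem]; exact min_le_right _ _
    linarith
  have hf0 : 0 < ‖foot c.z j l‖ := norm_pos_iff.2 (foot_ne_zero c hjl ⟨m, hmj, hml⟩)
  have h12 : (0 : ℝ) < √12 := by positivity
  have h12s : √(12 : ℝ) ^ 2 = 12 := Real.sq_sqrt (by norm_num)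
  have hfu' : u / √12 ≤ ‖foot c.z j l‖ := by
    refine le_of_sq_le_sq ?_ hf0.le
    rw [div_pow, hu2, h12s]
    exact hfu
  have hsU : 4 * ‖s‖ ^ 2 < 3 * U := by linarith
  have hsn : ‖s‖ < 3 * ‖foot c.z j l‖ := by
    refine lt_of_pow_lt_pow_left₀ 2 (by positivity) ?_
    nlinarith
  have key := bb_tie_arctan c hjl hmj hml hsn
  rw [← hS, ← hs, le_div_iff₀ (by positivity)] at key
  have t1 : ∑ i ∈ S, Real.arctan (‖c.z i‖ / ‖foot c.z j l‖) ≤
      ∑ i ∈ S, Real.arctan (√12 * ‖c.z i‖ / u) := by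
    refine Finset.sum_le_sum fun i _ => Real.arctan_strictMono.monotone ?_
    have : √12 * ‖c.z i‖ / u = ‖c.z i‖ / (u / √12) := by field_simp
    rw [this]
    exact div_le_div_of_nonneg_left (norm_nonneg _) (by positivity) hfu'
  have t2 : Real.arctan (‖s‖ / √(9 * ‖foot c.z j l‖ ^ 2 - ‖s‖ ^ 2)) ≤
      Real.arctan (2 * ‖s‖ / √(3 * u ^ 2 - 4 * ‖s‖ ^ 2)) := by
    refine Real.arctan_strictMono.monotone ?_
    have hpos : 0 < 3 * u ^ 2 - 4 * ‖s‖ ^ 2 := by rw [hu2]; linarith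
    have hle : √(3 * u ^ 2 - 4 * ‖s‖ ^ 2) / 2 ≤ √(9 * ‖foot c.z j l‖ ^ 2 - ‖s‖ ^ 2) := by
      refine Real.le_sqrt_of_sq_le ?_
      rw [div_pow, Real.sq_sqrt hpos.le, hu2]
      linarith
    have hsq : 0 < √(3 * u ^ 2 - 4 * ‖s‖ ^ 2) := Real.sqrt_pos.2 hpos
    have : 2 * ‖s‖ / √(3 * u ^ 2 - 4 * ‖s‖ ^ 2) = ‖s‖ / (√(3 * u ^ 2 - 4 * ‖s‖ ^ 2) / 2) := by
      field_simp
    rw [this]
    exact div_le_div_of_nonneg_left (norm_nonneg _) (by positivity) hle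
  have hcard : (0 : ℝ) < Fintype.card ι := by
    have : 0 < Fintype.card ι := Fintype.card_pos_iff.2 ⟨j⟩
    exact_mod_cast this
  have t3 : √(2 * Real.pi) * ‖c.z j - c.z l‖ / Fintype.card ι * (2 * Real.pi) ≤
      2 * Real.pi * √(2 * Real.pi) / Fintype.card ι * u := by
    have : 2 * Real.pi * √(2 * Real.pi) / Fintype.card ι * u =
        √(2 * Real.pi) * u / Fintype.card ι * (2 * Real.pi) := by ring
    rw [this]
    gcongr
  have hkey2 : (1 / 2 - √(2 * Real.pi) * ‖c.z j - c.z l‖ / Fintype.card ι) * (2 * Real.pi) =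
      Real.pi - √(2 * Real.pi) * ‖c.z j - c.z l‖ / Fintype.card ι * (2 * Real.pi) := by ring
  rw [hkey2] at key
  linarith

/-- **Clean geometry lemma** for the tie between two of the three big cells. -/
theorem bb_geo {j l m : ι} (hjl : j ≠ l) (hmj : m ≠ j) (hml : m ≠ l) {e σ : ℝ}
    (he : e = ‖c.z j‖ ^ 2 + ‖c.z l‖ ^ 2 + ‖c.z m‖ ^ 2)
    (h4 : ∀ a ∈ ({j, l, m} : Finset ι), ∀ b ∈ ({j, l, m} : Finset ι),
      ‖c.z a‖ ^ 2 ≤ 4 * ‖c.z b‖ ^ 2)
    {S : Finset ι} (hS : S = ((Finset.univ.erase j).erase l).erase m)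
    (hσ : σ = ∑ i ∈ S, ‖c.z i‖ ^ 2)
    (h5 : ∀ a ∈ ({j, l, m} : Finset ι), 4 * σ < 3 * (3 / 2 * (e - ‖c.z a‖ ^ 2)))
    (h6 : 4 * σ < 3 * e) :
    ∃ a ∈ ({j, l, m} : Finset ι), ∃ u : ℝ, 0 < u ∧
      u ^ 2 = min e (3 / 2 * (e - ‖c.z a‖ ^ 2)) ∧
      Real.pi ≤ ∑ i ∈ S, Real.arctan (√12 * ‖c.z i‖ / u)
        + Real.arctan (2 * ‖∑ i ∈ S, c.z i‖ / √(3 * u ^ 2 - 4 * ‖∑ i ∈ S, c.z i‖ ^ 2))
        + 2 * Real.pi * √(2 * Real.pi) / Fintype.card ι * u := by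
  have hS1 : S = ((Finset.univ.erase j).erase m).erase l := by
    rw [hS]; exact Finset.erase_right_comm
  have hS2 : S = ((Finset.univ.erase l).erase m).erase j := by
    rw [hS, Finset.erase_right_comm (a := j) (b := l), Finset.erase_right_comm (a := j) (b := m)]
  have hj : j ∈ ({j, l, m} : Finset ι) := by simp
  have hl : l ∈ ({j, l, m} : Finset ι) := by simp
  have hm : m ∈ ({j, l, m} : Finset ι) := by simp
  -- the pair with the largest inner product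
  by_cases c1 : ⟪c.z j, c.z m⟫ ≤ ⟪c.z j, c.z l⟫ ∧ ⟪c.z l, c.z m⟫ ≤ ⟪c.z j, c.z l⟫
  · refine ⟨m, hm, ?_⟩
    have := bb_geo_core c hjl hmj hml he c1.1 c1.2 (h4 _ hj _ hl) (h4 _ hl _ hj)
      (hσ.trans (by rw [hS])) (h5 _ hm) h6
    rw [← hS] at this
    exact this
  by_cases c2 : ⟪c.z j, c.z l⟫ ≤ ⟪c.z j, c.z m⟫ ∧ ⟪c.z m, c.z l⟫ ≤ ⟪c.z j, c.z m⟫
  · refine ⟨l, hl, ?_⟩
    have := bb_geo_core c hmj.symm hjl.symm hml.symm (he.trans (by ring)) c2.1 c2.2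
      (h4 _ hj _ hm) (h4 _ hm _ hj) (hσ.trans (by rw [hS1])) (h5 _ hl) h6
    rw [← hS1] at this
    exact this
  · refine ⟨j, hj, ?_⟩
    have c3 : ⟪c.z l, c.z j⟫ ≤ ⟪c.z l, c.z m⟫ ∧ ⟪c.z m, c.z j⟫ ≤ ⟪c.z l, c.z m⟫ := by
      rw [not_and_or, not_le, not_le] at c1 c2
      rw [real_inner_comm (c.z j) (c.z l), real_inner_comm (c.z j) (c.z m)]
      rw [real_inner_comm (c.z l) (c.z m)] at c2
      constructor
      · rcases c1 with h | h
        · rcases c2 with g | g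
          · linarith
          · linarith
        · exact h.le
      · rcases c2 with h | h
        · rcases c1 with g | g
          · linarith
          · linarith
        · exact h.le
    have := bb_geo_core c hml.symm hjl hmj.symm (he.trans (by ring)) c3.1 c3.2
      (h4 _ hl _ hm) (h4 _ hm _ hl) (hσ.trans (by rw [hS2])) (h5 _ hj) h6
    rw [← hS2] at this
    exact this

end Crest.Agent.R215.BBGeo
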