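import Crest.Agent.R215.Struct

/-!
# Row 215: base case (three cells) and assembly
-/

set_option autoImplicit false
set_option linter.unusedSectionVars false
set_option linter.style.haveILetI false

open MeasureTheory ProbabilityTheory Set Filter Topology
open scoped RealInnerProductSpace

namespace Crest.Agent.R215

variable {E : Type*} [NormedAddCommGroup E] [InnerProductSpace ℝ E] [FiniteDimensional ℝ E]
  [MeasurableSpace E] [BorelSpace E]

lemma integral_abs_std : ∫ x, |x| ∂gaussianReal 0 1 = √(2 / Real.pi) := by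
  rw [integral_gaussianReal_eq_integral_smul (by norm_num)]
  simp only [gaussianPDFReal, NNReal.coe_one, mul_one, sub_zero, smul_eq_mul]
  have h1 : ∀ x : ℝ, (√(2 * Real.pi))⁻¹ * Real.exp (-x ^ 2 / 2) * |x|
      = (fun y : ℝ => (√(2 * Real.pi))⁻¹ * (y ^ (1:ℝ) * Real.exp (-(1/2) * y ^ (2:ℝ)))) |x| := by
    intro x
    simp only [Real.rpow_one, Real.rpow_two, sq_abs]
    rw [show -x ^ 2 / 2 = -(1/2) * x ^ 2 by ring]
    ring
  simp_rw [h1]
  rw [integral_comp_abs (f := fun y : ℝ => (√(2 * Real.pi))⁻¹ *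
    (y ^ (1:ℝ) * Real.exp (-(1/2) * y ^ (2:ℝ)))), integral_const_mul,
    _root_.integral_rpow_mul_exp_neg_mul_rpow (by norm_num) (by norm_num) (by norm_num)]
  norm_num
  have h2 : √2 * √2 = 2 := Real.mul_self_sqrt (by norm_num)
  have hpi : 0 < √Real.pi := Real.sqrt_pos.2 Real.pi_pos
  have h3 : 0 < √2 := by positivity
  field_simp
  nlinarith

lemma integral_abs_inner (w : E) : ∫ x, |⟪w, x⟫| ∂stdGaussian E = √(2 / Real.pi) * ‖w‖ := by
  have h1 : ∫ x, |⟪w, x⟫| ∂stdGaussian E = ∫ y, |y| ∂((stdGaussian E).map (fun x => ⟪w, x⟫)) := by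
    rw [integral_map (by fun_prop) (by fun_prop)]
  rw [h1, map_inner]
  have h2 : gaussianReal 0 (‖w‖₊ ^ 2) = (gaussianReal 0 1).map (fun y => ‖w‖ * y) := by
    rw [gaussianReal_map_const_mul]
    congr 1
    · simp
    · ext; simp
  rw [h2, integral_map (by fun_prop) (by fun_prop)]
  simp_rw [abs_mul, abs_of_nonneg (norm_nonneg w)]
  rw [integral_const_mul, integral_abs_std, mul_comm]

lemma integral_comp_neg' {G : Type*} [NormedAddCommGroup G] [NormedSpace ℝ G] (f : E → G) :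
    ∫ x, f (-x) ∂stdGaussian E = ∫ x, f x ∂stdGaussian E := by
  have h := stdGaussian_map (LinearIsometryEquiv.neg ℝ (E := E))
  conv_rhs => rw [← h]
  have hm : MeasurableEmbedding (LinearIsometryEquiv.neg ℝ (E := E)) :=
    (LinearIsometryEquiv.neg ℝ (E := E)).toHomeomorph.measurableEmbedding
  rw [hm.integral_map]
  rfl

/-- `2 F = E (max - min)`. -/
lemma two_mul_F {ι : Type*} [Finite ι] (z : ι → E) :
    2 * F z = ∫ x, (supI z x + supI z (-x)) ∂stdGaussian E := by
  rw [integral_add (integrable_supI z)]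
  · rw [integral_comp_neg' (fun x => supI z x)]
    unfold F; ring
  · have h := stdGaussian_map (LinearIsometryEquiv.neg ℝ (E := E))
    have hm : MeasurableEmbedding (LinearIsometryEquiv.neg ℝ (E := E)) :=
      (LinearIsometryEquiv.neg ℝ (E := E)).toHomeomorph.measurableEmbedding
    have h2 := integrable_supI z
    rw [← h, hm.integrable_map_iff] at h2
    exact h2

lemma supI_fin3 (z : Fin 3 → E) (x : E) :
    supI z x = max (max ⟪z 0, x⟫ ⟪z 1, x⟫) ⟪z 2, x⟫ := by
  apply le_antisymm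
  · refine supI_le z x fun i => ?_
    fin_cases i
    · exact le_max_of_le_left (le_max_left _ _)
    · exact le_max_of_le_left (le_max_right _ _)
    · exact le_max_right _ _
  · exact max_le (max_le (le_supI z x 0) (le_supI z x 1)) (le_supI z x 2)

lemma max3_add_max3_neg (a b c : ℝ) :
    max (max a b) c + max (max (-a) (-b)) (-c) = (|a - b| + |b - c| + |a - c|) / 2 := by
  grind

lemma F_fin3 (z : Fin 3 → E) :
    F z = √(2 / Real.pi) * (‖z 0 - z 1‖ + ‖z 1 - z 2‖ + ‖z 0 - z 2‖) / 4 := by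
  have h := two_mul_F z
  have h1 : ∀ x, supI z x + supI z (-x)
      = (|⟪z 0 - z 1, x⟫| + |⟪z 1 - z 2, x⟫| + |⟪z 0 - z 2, x⟫|) / 2 := by
    intro x
    rw [supI_fin3, supI_fin3]
    simp only [inner_neg_right, inner_sub_left]
    exact max3_add_max3_neg _ _ _
  simp_rw [h1] at h
  rw [integral_div, integral_add, integral_add, integral_abs_inner, integral_abs_inner,
    integral_abs_inner] at h
  · linarith
  · exact (integrable_inner _).abs
  · exact (integrable_inner _).abs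
  · exact ((integrable_inner _).abs).add (integrable_inner _).abs
  · exact (integrable_inner _).abs

theorem good_three : Good E (Fin 3) := by
  apply DualGood.good
  intro z
  rw [F_fin3]
  set a := ‖z 0 - z 1‖
  set b := ‖z 1 - z 2‖
  set d := ‖z 0 - z 2‖
  have hs : a ^ 2 + b ^ 2 + d ^ 2 ≤ 3 * ∑ i, ‖z i‖ ^ 2 := by
    have e1 : a ^ 2 = ‖z 0‖ ^ 2 - 2 * ⟪z 0, z 1⟫ + ‖z 1‖ ^ 2 := norm_sub_sq_real _ _
    have e2 : b ^ 2 = ‖z 1‖ ^ 2 - 2 * ⟪z 1, z 2⟫ + ‖z 2‖ ^ 2 := norm_sub_sq_real _ _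
    have e3 : d ^ 2 = ‖z 0‖ ^ 2 - 2 * ⟪z 0, z 2⟫ + ‖z 2‖ ^ 2 := norm_sub_sq_real _ _
    have e4 : ‖z 0 + z 1 + z 2‖ ^ 2 = ‖z 0‖ ^ 2 + ‖z 1‖ ^ 2 + ‖z 2‖ ^ 2 + 2 * ⟪z 0, z 1⟫
        + 2 * ⟪z 0, z 2⟫ + 2 * ⟪z 1, z 2⟫ := by
      rw [norm_add_sq_real, norm_add_sq_real, inner_add_left]; ring
    have e5 : 0 ≤ ‖z 0 + z 1 + z 2‖ ^ 2 := by positivity
    rw [Fin.sum_univ_three]
    linarith
  have hsum : (a + b + d) ^ 2 ≤ 9 * ∑ i, ‖z i‖ ^ 2 := by
    nlinarith [sq_nonneg (a - b), sq_nonneg (b - d), sq_nonneg (a - d)]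
  have habd : a + b + d ≤ 3 * √(∑ i, ‖z i‖ ^ 2) := by
    have h0 : (0:ℝ) ≤ ∑ i, ‖z i‖ ^ 2 := Finset.sum_nonneg fun i _ => by positivity
    have h1 := Real.abs_le_sqrt hsum
    rw [show (9:ℝ) * ∑ i, ‖z i‖ ^ 2 = 3 ^ 2 * ∑ i, ‖z i‖ ^ 2 by norm_num,
      Real.sqrt_mul (by norm_num), Real.sqrt_sq (by norm_num)] at h1
    exact (le_abs_self _).trans h1
  have hc : √cC = √(2 / Real.pi) * 3 / 4 := by
    have h1 : cC = (√(2 / Real.pi) * 3 / 4) ^ 2 := by
      rw [div_pow, mul_pow, Real.sq_sqrt (by positivity)]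
      unfold cC
      have := Real.pi_pos
      field_simp
      norm_num
    rw [h1, Real.sqrt_sq (by positivity)]
  rw [hc]
  have h0 : 0 ≤ √(2 / Real.pi) := Real.sqrt_nonneg _
  calc √(2 / Real.pi) * (a + b + d) / 4 ≤ √(2 / Real.pi) * (3 * √(∑ i, ‖z i‖ ^ 2)) / 4 := by
        gcongr
    _ = _ := by ring

/-- Assembly: it suffices to exclude critical configurations with at least four cells. -/
theorem good_of_no_crit (h : ∀ k : ℕ, 4 ≤ k → IsEmpty (Crit E (Fin k))) :
    ∀ k : ℕ, Good E (Fin k) := by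
  have h3 : ∀ k, 3 ≤ k → Good E (Fin k) := by
    intro k hk
    induction k, hk using Nat.le_induction with
    | base => exact good_three
    | succ n hn ih =>
      by_contra hbad
      have hsmall : ∀ j : Fin (n + 1), Good E {l // l ≠ j} := by
        intro j
        refine ih.congr (Fintype.equivOfCardEq ?_)
        simp [Fintype.card_subtype_compl]
      obtain ⟨c⟩ := exists_crit hsmall hbad
      exact (h (n + 1) (by omega)).false c
  intro k
  by_cases hk : 3 ≤ k
  · exact h3 k hk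
  · exact good_three.of_injective (Fin.castLE (by omega)) (Fin.castLE_injective _)

theorem good_all (h : ∀ k, 4 ≤ k → IsEmpty (Crit E (Fin k))) (ι : Type*) [Fintype ι] :
    Good E ι :=
  (good_of_no_crit h (Fintype.card ι)).congr (Fintype.equivFin ι).symm

end Crest.Agent.R215
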