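import Mathlib

/-!
# Row 215 (propeller conjecture): basic objects

* `supI z x = ⨆ i, ⟪z i, x⟫`, `F z = E supI z` for the standard Gaussian measure.
* `IsPart A`, `Good E ι`, `Dual E ι`.
-/

set_option autoImplicit false
set_option linter.unusedSectionVars false
set_option linter.style.haveILetI false

open MeasureTheory ProbabilityTheory Set Filter Topology
open scoped RealInnerProductSpace

namespace Crest.Agent.R215

/-- the constant `9 / (8 π)` -/
noncomputable def cC : ℝ := 9 / (8 * Real.pi)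

lemma cC_pos : 0 < cC := by unfold cC; positivity

section defs

variable {E : Type*} [NormedAddCommGroup E] [InnerProductSpace ℝ E] [FiniteDimensional ℝ E]
  [MeasurableSpace E] [BorelSpace E]

/-- support function of a finite family of vectors -/
noncomputable def supI {ι : Type*} (z : ι → E) (x : E) : ℝ := ⨆ i, ⟪z i, x⟫

/-- Gaussian mean of the support function. -/
noncomputable def F {ι : Type*} (z : ι → E) : ℝ := ∫ x, supI z x ∂stdGaussian E

/-- measurable partition -/
structure IsPart {ι : Type*} (A : ι → Set E) : Prop where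
  meas : ∀ i, MeasurableSet (A i)
  disj : Pairwise fun i j => Disjoint (A i) (A j)
  cov : ⋃ i, A i = Set.univ

/-- Gaussian first moment of a set -/
noncomputable def mom (A : Set E) : E := ∫ x in A, x ∂stdGaussian E

/-- `A` is an argmax partition for `z` -/
def IsArgmax {ι : Type*} (z : ι → E) (A : ι → Set E) : Prop :=
  ∀ i, ∀ x ∈ A i, ∀ j, ⟪z j, x⟫ ≤ ⟪z i, x⟫

end defs

variable (E : Type*) [NormedAddCommGroup E] [InnerProductSpace ℝ E] [FiniteDimensional ℝ E]
  [MeasurableSpace E] [BorelSpace E]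

/-- the partition form of the inequality -/
def Good (ι : Type*) [Fintype ι] : Prop :=
  ∀ A : ι → Set E, IsPart A → ∑ i, ‖mom (A i)‖ ^ 2 ≤ cC

/-- the dual form of the inequality -/
def DualGood (ι : Type*) [Fintype ι] : Prop :=
  ∀ z : ι → E, F z ≤ √cC * √(∑ i, ‖z i‖ ^ 2)

variable {E}

lemma integrable_id' : Integrable (fun x : E => x) (stdGaussian E) :=
  IsGaussian.integrable_id

lemma integrable_inner (w : E) : Integrable (fun x : E => ⟪w, x⟫) (stdGaussian E) :=
  integrable_id'.const_inner w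

lemma integrable_norm : Integrable (fun x : E => ‖x‖) (stdGaussian E) :=
  integrable_id'.norm

lemma integral_inner_eq_zero (w : E) : ∫ x, ⟪w, x⟫ ∂stdGaussian E = 0 := by
  rw [_root_.integral_inner integrable_id', integral_id_stdGaussian, inner_zero_right]

lemma inner_mom (w : E) (A : Set E) : ⟪w, mom A⟫ = ∫ x in A, ⟪w, x⟫ ∂stdGaussian E := by
  rw [mom, _root_.integral_inner integrable_id'.integrableOn]

section supI

variable {ι : Type*}

lemma le_supI [Finite ι] (z : ι → E) (x : E) (i : ι) : ⟪z i, x⟫ ≤ supI z x :=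
  le_ciSup (f := fun i => ⟪z i, x⟫) (Set.finite_range _).bddAbove i

lemma supI_le [Nonempty ι] (z : ι → E) (x : E) {b : ℝ} (h : ∀ i, ⟪z i, x⟫ ≤ b) : supI z x ≤ b :=
  ciSup_le h

lemma exists_eq_supI [Finite ι] [Nonempty ι] (z : ι → E) (x : E) : ∃ i, ⟪z i, x⟫ = supI z x :=
  exists_eq_ciSup_of_finite (f := fun i => ⟪z i, x⟫)

lemma measurable_supI [Countable ι] (z : ι → E) : Measurable (supI z) :=
  Measurable.iSup fun i => by fun_prop

lemma abs_supI_sub_le [Finite ι] [Nonempty ι] (z z' : ι → E) (x : E) {r : ℝ}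
    (h : ∀ i, ‖z i - z' i‖ ≤ r) : |supI z x - supI z' x| ≤ r * ‖x‖ := by
  have key : ∀ z z' : ι → E, (∀ i, ‖z i - z' i‖ ≤ r) → supI z x ≤ supI z' x + r * ‖x‖ := by
    intro z z' h
    refine supI_le z x fun i => ?_
    have h1 : ⟪z i, x⟫ = ⟪z' i, x⟫ + ⟪z i - z' i, x⟫ := by rw [inner_sub_left]; ring
    have h2 : ⟪z i - z' i, x⟫ ≤ r * ‖x‖ :=
      (real_inner_le_norm _ _).trans (by gcongr; exact h i)
    have h3 := le_supI z' x i
    linarith
  rw [abs_le]
  have h1 := key z z' h
  have h2 := key z' z (fun i => by rw [norm_sub_rev]; exact h i)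
  constructor <;> linarith

lemma abs_supI_le [Fintype ι] [Nonempty ι] (z : ι → E) (x : E) :
    |supI z x| ≤ (∑ i, ‖z i‖) * ‖x‖ := by
  have h := abs_supI_sub_le z (fun _ => (0:E)) x (r := ∑ i, ‖z i‖) (fun i => by
    simpa using Finset.single_le_sum (f := fun i => ‖z i‖) (fun j _ => norm_nonneg _)
      (Finset.mem_univ i))
  have h0 : supI (fun _ : ι => (0:E)) x = 0 := by simp [supI]
  rwa [h0, sub_zero] at h

lemma integrable_supI [Finite ι] (z : ι → E) : Integrable (supI z) (stdGaussian E) := by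
  cases nonempty_fintype ι
  rcases isEmpty_or_nonempty ι with h | h
  · have : supI z = fun _ => (0:ℝ) := by
      funext x; simp [supI]
    rw [this]
    exact integrable_zero _ _ _
  · refine Integrable.mono' (g := fun x => (∑ i, ‖z i‖) * ‖x‖) (integrable_norm.const_mul _)
      (measurable_supI z).aestronglyMeasurable ?_
    exact Eventually.of_forall fun x => by
      rw [Real.norm_eq_abs]; exact abs_supI_le z x

lemma abs_F_sub_le [Finite ι] [Nonempty ι] (z z' : ι → E) {r : ℝ} (h : ∀ i, ‖z i - z' i‖ ≤ r) :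
    |F z - F z'| ≤ r * ∫ x, ‖x‖ ∂stdGaussian E := by
  rw [F, F, ← integral_sub (integrable_supI z) (integrable_supI z')]
  calc |∫ x, (supI z x - supI z' x) ∂stdGaussian E|
      ≤ ∫ x, |supI z x - supI z' x| ∂stdGaussian E := abs_integral_le_integral_abs
    _ ≤ ∫ x, r * ‖x‖ ∂stdGaussian E := by
        refine integral_mono ?_ (integrable_norm.const_mul _) fun x => abs_supI_sub_le z z' x h
        exact ((integrable_supI z).sub (integrable_supI z')).abs
    _ = r * ∫ x, ‖x‖ ∂stdGaussian E := integral_const_mul _ _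

lemma continuous_F [Fintype ι] [Nonempty ι] : Continuous (F : (ι → E) → ℝ) := by
  have hl : LipschitzWith (Real.toNNReal (∫ x, ‖x‖ ∂stdGaussian E)) (F : (ι → E) → ℝ) := by
    refine LipschitzWith.of_dist_le_mul fun z z' => ?_
    rw [Real.dist_eq, Real.coe_toNNReal _ (integral_nonneg fun x => norm_nonneg x), mul_comm]
    refine abs_F_sub_le z z' fun i => ?_
    rw [← dist_eq_norm]
    exact dist_le_pi_dist z z' i
  exact hl.continuous

lemma supI_smul [Finite ι] (z : ι → E) (x : E) {c : ℝ} (hc : 0 ≤ c) :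
    supI (fun i => c • z i) x = c * supI z x := by
  simp only [supI, real_inner_smul_left]
  rw [Real.mul_iSup_of_nonneg hc]

lemma F_smul [Finite ι] (z : ι → E) {c : ℝ} (hc : 0 ≤ c) :
    F (fun i => c • z i) = c * F z := by
  simp only [F, supI_smul z _ hc]
  exact integral_const_mul _ _

lemma supI_add_const [Finite ι] [Nonempty ι] (z : ι → E) (c x : E) :
    supI (fun i => z i + c) x = supI z x + ⟪c, x⟫ := by
  simp only [supI, inner_add_left]
  rw [ciSup_add (Set.finite_range _).bddAbove]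

lemma F_add_const [Finite ι] [Nonempty ι] (z : ι → E) (c : E) :
    F (fun i => z i + c) = F z := by
  simp only [F, supI_add_const z c]
  rw [integral_add (integrable_supI z) (integrable_inner c), integral_inner_eq_zero, add_zero]

end supI

section part

variable {ι : Type*} [Fintype ι]

lemma IsPart.sum_setIntegral {A : ι → Set E} (hA : IsPart A) {G : Type*} [NormedAddCommGroup G]
    [NormedSpace ℝ G] {f : E → G} (hf : Integrable f (stdGaussian E)) :
    ∑ i, ∫ x in A i, f x ∂stdGaussian E = ∫ x, f x ∂stdGaussian E := by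
  rw [← integral_iUnion_fintype hA.meas hA.disj (fun i => hf.integrableOn), hA.cov,
    setIntegral_univ]

lemma IsPart.sum_mom {A : ι → Set E} (hA : IsPart A) : ∑ i, mom (A i) = 0 := by
  unfold mom
  rw [hA.sum_setIntegral integrable_id', integral_id_stdGaussian]

/-- `Σ ⟪w i, mom (A i)⟫ ≤ F w` for every partition. -/
lemma IsPart.sum_inner_mom_le {A : ι → Set E} (hA : IsPart A) (w : ι → E) :
    ∑ i, ⟪w i, mom (A i)⟫ ≤ F w := by
  rw [F, ← hA.sum_setIntegral (integrable_supI w)]
  refine Finset.sum_le_sum fun i _ => ?_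
  rw [inner_mom]
  exact setIntegral_mono (integrable_inner _).integrableOn (integrable_supI w).integrableOn
    fun x => le_supI w x i

lemma IsPart.F_eq {A : ι → Set E} (hA : IsPart A) {z : ι → E} (hz : IsArgmax z A) :
    F z = ∑ i, ⟪z i, mom (A i)⟫ := by
  rw [F, ← hA.sum_setIntegral (integrable_supI z)]
  refine Finset.sum_congr rfl fun i _ => ?_
  rw [inner_mom]
  refine setIntegral_congr_fun (hA.meas i) fun x hx => ?_
  haveI : Nonempty ι := ⟨i⟩
  exact le_antisymm (supI_le z x fun j => hz i x hx j) (le_supI z x i)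

lemma exists_argmax [Nonempty ι] (z : ι → E) : ∃ A : ι → Set E, IsPart A ∧ IsArgmax z A := by
  classical
  let e := Fintype.equivFin ι
  let A : ι → Set E := fun i => {x | (∀ j, ⟪z j, x⟫ ≤ ⟪z i, x⟫) ∧ ∀ j, e j < e i → ⟪z j, x⟫ < ⟪z i, x⟫}
  refine ⟨A, ⟨fun i => ?_, fun i j hij => ?_, ?_⟩, fun i x hx j => hx.1 j⟩
  · have h1 : MeasurableSet {x : E | ∀ j, ⟪z j, x⟫ ≤ ⟪z i, x⟫} := by
      rw [Set.ofPred_forall]
      exact MeasurableSet.iInter fun j => measurableSet_le (by fun_prop) (by fun_prop)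
    have h2 : MeasurableSet {x : E | ∀ j, e j < e i → ⟪z j, x⟫ < ⟪z i, x⟫} := by
      rw [Set.ofPred_forall]
      refine MeasurableSet.iInter fun j => ?_
      by_cases h : e j < e i
      · simp only [h, forall_const]
        exact measurableSet_lt (by fun_prop) (by fun_prop)
      · simp [h]
    exact h1.inter h2
  · show Disjoint (A i) (A j)
    rw [Set.disjoint_left]
    rintro x ⟨hi1, hi2⟩ ⟨hj1, hj2⟩
    have hne : e i ≠ e j := fun h => hij (e.injective h)
    rcases lt_or_gt_of_ne hne with h | h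
    · exact absurd (hj2 i h) (not_lt.2 (hi1 j))
    · exact absurd (hi2 j h) (not_lt.2 (hj1 i))
  · rw [Set.eq_univ_iff_forall]
    intro x
    let s : Finset ι := Finset.univ.filter fun i => ∀ j, ⟪z j, x⟫ ≤ ⟪z i, x⟫
    have hs : s.Nonempty := by
      obtain ⟨i, hi⟩ := exists_eq_supI z x
      exact ⟨i, by simp only [s, Finset.mem_filter, Finset.mem_univ, true_and]
                   intro j; rw [hi]; exact le_supI z x j⟩
    obtain ⟨i, hi, him⟩ := s.exists_min_image e hs
    have hi' : ∀ j, ⟪z j, x⟫ ≤ ⟪z i, x⟫ := by simpa [s] using hi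
    refine Set.mem_iUnion.2 ⟨i, hi', fun j hj => ?_⟩
    refine lt_of_le_of_ne (hi' j) fun h => ?_
    have hjs : j ∈ s := by
      simp only [s, Finset.mem_filter, Finset.mem_univ, true_and]
      intro l; rw [h]; exact hi' l
    exact absurd (him j hjs) (not_le.2 hj)

lemma sum_inner_le_sqrt_mul_sqrt (w m : ι → E) :
    ∑ i, ⟪w i, m i⟫ ≤ √(∑ i, ‖w i‖ ^ 2) * √(∑ i, ‖m i‖ ^ 2) := by
  calc ∑ i, ⟪w i, m i⟫ ≤ ∑ i, ‖w i‖ * ‖m i‖ := Finset.sum_le_sum fun i _ => real_inner_le_norm _ _
    _ ≤ _ := Real.sum_mul_le_sqrt_mul_sqrt _ _ _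

lemma Good.dual [Nonempty ι] (h : Good E ι) : DualGood E ι := by
  intro z
  obtain ⟨A, hA, hz⟩ := exists_argmax z
  rw [hA.F_eq hz]
  refine (sum_inner_le_sqrt_mul_sqrt z _).trans ?_
  rw [mul_comm]
  gcongr
  exact h A hA

lemma DualGood.good (h : DualGood E ι) : Good E ι := by
  intro A hA
  have h1 := hA.sum_inner_mom_le (fun i => mom (A i))
  have h2 := h (fun i => mom (A i))
  simp only [real_inner_self_eq_norm_sq] at h1
  set s := ∑ i, ‖mom (A i)‖ ^ 2
  have hs : 0 ≤ s := Finset.sum_nonneg fun i _ => by positivity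
  have h3 : s ≤ √cC * √s := h1.trans h2
  have h4 : √s * √s = s := Real.mul_self_sqrt hs
  have h5 : √cC * √cC = cC := Real.mul_self_sqrt cC_pos.le
  have h6 : √s ≤ √cC := by
    by_contra hcon
    push Not at hcon
    have : 0 ≤ √cC := Real.sqrt_nonneg _
    nlinarith
  calc s = √s * √s := h4.symm
    _ ≤ √cC * √cC := by gcongr
    _ = cC := h5

end part

end Crest.Agent.R215
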