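import Crest.Agent.Lib.Ehrhard.Gain

/-!
Cameron–Martin formula for the standard Gaussian measure, the derivative of the measure of a
translate, and the half-space bound for the Gaussian moment of a set.
-/

set_option autoImplicit false
open MeasureTheory ProbabilityTheory Set Filter Topology
open scoped NNReal ENNReal RealInnerProductSpace

namespace Crest.Agent.R215.CM

open Crest.Agent.Lib.Ehrhard

variable {E : Type*} [NormedAddCommGroup E] [InnerProductSpace ℝ E] [FiniteDimensional ℝ E]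
  [MeasurableSpace E] [BorelSpace E]

/-- law of a linear form -/
lemma map_inner (v : E) : (stdGaussian E).map (fun x => ⟪v, x⟫) = gaussianReal 0 (Real.toNNReal (‖v‖ ^ 2)) := by
  have h := IsGaussian.map_eq_gaussianReal (μ := stdGaussian E) (innerSL ℝ v)
  rw [integral_strongDual_stdGaussian, variance_dual_stdGaussian, innerSL_apply_norm] at h
  exact h

lemma map_inner_unit {v : E} (hv : ‖v‖ = 1) : (stdGaussian E).map (fun x => ⟪v, x⟫) = γ := by
  rw [map_inner, hv]; simp

lemma integrable_exp_inner (v : E) : Integrable (fun x => Real.exp ⟪v, x⟫) (stdGaussian E) := by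
  have h1 : Integrable (fun y : ℝ => Real.exp (1 * y)) ((stdGaussian E).map (fun x => ⟪v, x⟫)) := by
    rw [map_inner]; exact integrable_exp_mul_gaussianReal 1
  have h2 := h1.comp_aemeasurable (by fun_prop : AEMeasurable (fun x : E => ⟪v, x⟫) (stdGaussian E))
  refine h2.congr (Eventually.of_forall fun x => ?_)
  simp

lemma integrable_dens (v : E) :
    Integrable (fun x => Real.exp (⟪v, x⟫ - ‖v‖ ^ 2 / 2)) (stdGaussian E) := by
  refine ((integrable_exp_inner v).mul_const (Real.exp (-(‖v‖ ^ 2 / 2)))).congr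
    (Eventually.of_forall fun x => ?_)
  simp only
  rw [← Real.exp_add, ← sub_eq_add_neg]

instance (v : E) : IsFiniteMeasure ((stdGaussian E).withDensity
    (fun x => ENNReal.ofReal (Real.exp (⟪v, x⟫ - ‖v‖ ^ 2 / 2)))) :=
  isFiniteMeasure_withDensity_ofReal (integrable_dens v).2

/-- **Cameron–Martin formula** -/
theorem cm (v : E) : (stdGaussian E).map (fun x => x + v) = (stdGaussian E).withDensity
    (fun x => ENNReal.ofReal (Real.exp (⟪v, x⟫ - ‖v‖ ^ 2 / 2))) := by
  refine Measure.ext_of_charFun ?_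
  ext t
  rw [charFun_map_add_const, charFun_stdGaussian, charFun_apply,
    integral_withDensity_eq_integral_toReal_smul₀ (by fun_prop)
      (Eventually.of_forall fun x => ENNReal.ofReal_lt_top)]
  have e1 : ∀ x : E, (ENNReal.ofReal (Real.exp (⟪v, x⟫ - ‖v‖ ^ 2 / 2))).toReal • Complex.exp (⟪x, t⟫ * Complex.I)
      = Complex.exp (⟪x, v⟫ + ⟪x, t⟫ * Complex.I) * Complex.exp (-(‖v‖ ^ 2 / 2)) := by
    intro x
    rw [ENNReal.toReal_ofReal (Real.exp_pos _).le, Complex.real_smul, Complex.ofReal_exp,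
      ← Complex.exp_add, ← Complex.exp_add, real_inner_comm]
    congr 1
    push_cast
    ring
  simp_rw [e1]
  rw [integral_mul_const]
  set b := stdOrthonormalBasis ℝ E with hb
  have e2 : ∫ x : E, Complex.exp (⟪x, v⟫ + ⟪x, t⟫ * Complex.I) ∂stdGaussian E
      = ∏ i, Complex.exp ((⟪b i, v⟫ + ⟪b i, t⟫ * Complex.I) ^ 2 / 2) := by
    rw [stdGaussian, integral_map (Measurable.aemeasurable (by fun_prop))
      (Measurable.aestronglyMeasurable (by fun_prop))]
    have e3 : ∀ x : Fin (Module.finrank ℝ E) → ℝ,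
        Complex.exp (⟪∑ i, x i • b i, v⟫ + ⟪∑ i, x i • b i, t⟫ * Complex.I)
        = ∏ i, Complex.exp ((⟪b i, v⟫ + ⟪b i, t⟫ * Complex.I) * x i) := by
      intro x
      rw [← Complex.exp_sum, sum_inner, sum_inner]
      congr 1
      push_cast
      rw [Finset.sum_mul, ← Finset.sum_add_distrib]
      refine Finset.sum_congr rfl fun i _ => ?_
      rw [real_inner_smul_left, real_inner_smul_left]
      push_cast
      ring
    refine (integral_congr_ae (Eventually.of_forall fun x => e3 x)).trans ?_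
    rw [integral_fintype_prod_eq_prod
      (f := fun i (y : ℝ) => Complex.exp ((⟪b i, v⟫ + ⟪b i, t⟫ * Complex.I) * y))]
    refine Finset.prod_congr rfl fun i _ => ?_
    have := complexMGF_id_gaussianReal (μ := 0) (v := 1) (⟪b i, v⟫ + ⟪b i, t⟫ * Complex.I)
    simp only [complexMGF, id] at this
    rw [this]
    simp
  rw [e2, ← Complex.exp_sum, ← Complex.exp_add, ← Complex.exp_add]
  congr 1
  have s1 : ∑ i, (⟪b i, v⟫) ^ 2 = ‖v‖ ^ 2 := b.sum_sq_inner_right v
  have s2 : ∑ i, (⟪b i, t⟫) ^ 2 = ‖t‖ ^ 2 := b.sum_sq_inner_right t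
  have s3 : ∑ i, ⟪b i, v⟫ * ⟪b i, t⟫ = ⟪v, t⟫ := by
    rw [← b.sum_inner_mul_inner v t]
    refine Finset.sum_congr rfl fun i _ => ?_
    rw [real_inner_comm]
  have e4 : ∀ i, ((⟪b i, v⟫ : ℂ) + ⟪b i, t⟫ * Complex.I) ^ 2 / 2
      = ((((⟪b i, v⟫) ^ 2 - (⟪b i, t⟫) ^ 2 : ℝ) : ℂ)) / 2 + ((⟪b i, v⟫ * ⟪b i, t⟫ : ℝ) : ℂ) * Complex.I := by
    intro i
    push_cast
    have : Complex.I ^ 2 = -1 := Complex.I_sq
    linear_combination (⟪b i, t⟫ : ℂ) ^ 2 / 2 * this
  rw [Finset.sum_congr rfl fun i _ => e4 i, Finset.sum_add_distrib, ← Finset.sum_div, ← Finset.sum_mul,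
    ← Complex.ofReal_sum, ← Complex.ofReal_sum, Finset.sum_sub_distrib, s1, s2, s3]
  push_cast
  ring

/-- real version of Cameron–Martin -/
theorem cm_real (v : E) {A : Set E} (hA : MeasurableSet A) :
    (stdGaussian E).real {x | x + v ∈ A} = ∫ x in A, Real.exp (⟪v, x⟫ - ‖v‖ ^ 2 / 2) ∂stdGaussian E := by
  have h1 : (stdGaussian E) {x | x + v ∈ A} = ((stdGaussian E).map (fun x => x + v)) A := by
    rw [Measure.map_apply (by fun_prop) hA]; rfl
  rw [measureReal_def, h1, cm, withDensity_apply _ hA,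
    integral_eq_lintegral_of_nonneg_ae (Eventually.of_forall fun x => (Real.exp_pos _).le) (by fun_prop)]

lemma abs_le_exp (x : ℝ) : |x| ≤ Real.exp |x| := (by linarith [Real.add_one_le_exp |x|])

/-- derivative of the Gaussian measure of translates -/
theorem hasDerivAt_translate (v : E) {A : Set E} (hA : MeasurableSet A) :
    HasDerivAt (fun t : ℝ => (stdGaussian E).real {x | x + t • v ∈ A})
      (∫ x in A, ⟪v, x⟫ ∂stdGaussian E) 0 := by
  have e1 : (fun t : ℝ => (stdGaussian E).real {x | x + t • v ∈ A})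
      = fun t : ℝ => ∫ x in A, Real.exp (t * ⟪v, x⟫ - t ^ 2 * ‖v‖ ^ 2 / 2) ∂stdGaussian E := by
    ext t
    rw [cm_real (t • v) hA]
    refine integral_congr_ae (Eventually.of_forall fun x => ?_)
    simp only [real_inner_smul_left, norm_smul, Real.norm_eq_abs, mul_pow, sq_abs]
  rw [e1]
  have key := hasDerivAt_integral_of_dominated_loc_of_deriv_le (s := Metric.ball (0:ℝ) 1)
    (μ := (stdGaussian E).restrict A) (x₀ := (0:ℝ))
    (F := fun (t : ℝ) (x : E) => Real.exp (t * ⟪v, x⟫ - t ^ 2 * ‖v‖ ^ 2 / 2))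
    (F' := fun (t : ℝ) (x : E) => (⟪v, x⟫ - t * ‖v‖ ^ 2) * Real.exp (t * ⟪v, x⟫ - t ^ 2 * ‖v‖ ^ 2 / 2))
    (bound := fun x => (1 + ‖v‖ ^ 2) * (Real.exp ⟪(2:ℝ) • v, x⟫ + Real.exp ⟪(-2:ℝ) • v, x⟫))
    (Metric.ball_mem_nhds _ one_pos) ?_ ?_ ?_ ?_ ?_ ?_
  · refine key.2.congr_deriv ?_
    simp
  · exact Eventually.of_forall fun t => by fun_prop
  · simp
  · fun_prop
  · refine Eventually.of_forall fun x t ht => ?_
    rw [Metric.mem_ball, dist_zero_right, Real.norm_eq_abs] at ht
    rw [norm_mul, Real.norm_eq_abs, Real.norm_of_nonneg (Real.exp_pos _).le]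
    set y := ⟪v, x⟫ with hy
    have b1 : |y - t * ‖v‖ ^ 2| ≤ (1 + ‖v‖ ^ 2) * Real.exp |y| := by
      have h1 : |y - t * ‖v‖ ^ 2| ≤ |y| + |t| * ‖v‖ ^ 2 := by
        refine (abs_sub _ _).trans ?_
        rw [abs_mul, abs_of_nonneg (sq_nonneg ‖v‖)]
      have h2 : |t| * ‖v‖ ^ 2 ≤ ‖v‖ ^ 2 * Real.exp |y| := by
        have h3 : 1 ≤ Real.exp |y| := Real.one_le_exp (abs_nonneg y)
        calc |t| * ‖v‖ ^ 2 ≤ 1 * ‖v‖ ^ 2 := mul_le_mul_of_nonneg_right ht.le (sq_nonneg _)
          _ = ‖v‖ ^ 2 * 1 := by ring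
          _ ≤ _ := mul_le_mul_of_nonneg_left h3 (sq_nonneg _)
      have h4 := abs_le_exp y
      linarith
    have b2 : Real.exp (t * y - t ^ 2 * ‖v‖ ^ 2 / 2) ≤ Real.exp |y| := by
      apply Real.exp_le_exp.2
      have h1 : t * y ≤ |t| * |y| := by rw [← abs_mul]; exact le_abs_self _
      have h2 : |t| * |y| ≤ 1 * |y| := mul_le_mul_of_nonneg_right ht.le (abs_nonneg y)
      have h3 : 0 ≤ t ^ 2 * ‖v‖ ^ 2 / 2 := by positivity
      linarith
    have b3 : Real.exp |y| * Real.exp |y| ≤ Real.exp ⟪(2:ℝ) • v, x⟫ + Real.exp ⟪(-2:ℝ) • v, x⟫ := by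
      rw [← Real.exp_add, real_inner_smul_left, real_inner_smul_left, ← hy]
      rcases abs_cases y with ⟨h, _⟩ | ⟨h, _⟩
      · rw [h, ← two_mul]
        linarith [Real.exp_pos (-2 * y)]
      · rw [h]
        have : -y + -y = -2 * y := by ring
        rw [this]
        linarith [Real.exp_pos (2 * y)]
    calc |y - t * ‖v‖ ^ 2| * Real.exp (t * y - t ^ 2 * ‖v‖ ^ 2 / 2)
        ≤ ((1 + ‖v‖ ^ 2) * Real.exp |y|) * Real.exp |y| :=
          mul_le_mul b1 b2 (Real.exp_pos _).le (by positivity)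
      _ = (1 + ‖v‖ ^ 2) * (Real.exp |y| * Real.exp |y|) := by ring
      _ ≤ _ := mul_le_mul_of_nonneg_left b3 (by positivity)
  · exact (((integrable_exp_inner _).add (integrable_exp_inner _)).const_mul _).restrict
  · refine Eventually.of_forall fun x t _ => ?_
    have d1 : HasDerivAt (fun t : ℝ => t * ⟪v, x⟫ - t ^ 2 * ‖v‖ ^ 2 / 2) (⟪v, x⟫ - t * ‖v‖ ^ 2) t := by
      refine (((hasDerivAt_id t).mul_const ⟪v, x⟫).fun_sub
        (((hasDerivAt_pow 2 t).mul_const (‖v‖ ^ 2)).div_const 2)).congr_deriv ?_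
      simp
      ring
    exact d1.exp.congr_deriv (by ring)

/-- `E (G + b)_+ = b Phi b + phi b`. -/
lemma integral_posPart (b : ℝ) : ∫ x, max (x + b) 0 ∂γ = b * Phi b + phi b := by
  have e : ∀ F : ℝ → ℝ, ∫ x, F x ∂γ = ∫ x, phi x * F x := by
    intro F
    rw [integral_gaussianReal_eq_integral_smul (by norm_num : (1:ℝ≥0) ≠ 0), ← phi_eq]
    rfl
  rw [e]
  have h1 : ∀ x, phi x * max (x + b) 0 = (Ioi (-b)).indicator (fun x => x * phi x + b * phi x) x := by
    intro x
    by_cases hx : x ∈ Ioi (-b)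
    · rw [indicator_of_mem hx, max_eq_left (by simp only [mem_Ioi] at hx; linarith)]; ring
    · rw [indicator_of_notMem hx, max_eq_right (by simp only [mem_Ioi, not_lt] at hx; linarith)]; ring
  simp_rw [h1]
  rw [integral_indicator measurableSet_Ioi, integral_add integrable_mul_phi.integrableOn
    (integrable_phi.const_mul b).integrableOn, integral_const_mul]
  have h2 : ∫ x in Ioi (-b), phi x = Phi b := by
    have := Phi_add_compl (-b)
    rw [Phi_neg] at this
    linarith
  have tend : Tendsto (fun x => - phi x) atTop (𝓝 (-0)) := by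
    have h := (tendsto_phi_atBot.comp tendsto_neg_atTop_atBot).neg
    refine h.congr fun x => ?_
    simp [phi_neg]
  have h3 : ∫ x in Ioi (-b), x * phi x = -0 - (- phi (-b)) := by
    refine integral_Ioi_of_hasDerivAt_of_tendsto' (fun x _ => ?_) integrable_mul_phi.integrableOn tend
    exact (hasDerivAt_phi x).fun_neg.congr_deriv (by ring)
  rw [h2, h3, phi_neg]
  ring

/-- half-space bound, for a unit vector and arbitrary threshold -/
lemma inner_moment_le {u : E} (hu : ‖u‖ = 1) (A : Set E) (b : ℝ) :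
    ∫ x in A, ⟪u, x⟫ ∂stdGaussian E ≤ (b * Phi b + phi b) - b * (stdGaussian E).real A := by
  have i0 : Integrable (fun x : E => ⟪u, x⟫) (stdGaussian E) :=
    (IsGaussian.integrable_id (μ := stdGaussian E)).const_inner u
  have i1 : Integrable (fun x : E => ⟪u, x⟫ + b) (stdGaussian E) := i0.add (integrable_const b)
  have i2 : Integrable (fun x : E => max (⟪u, x⟫ + b) 0) (stdGaussian E) := i1.pos_part
  have h1 : ∫ x in A, (⟪u, x⟫ + b) ∂stdGaussian E ≤ ∫ x, max (⟪u, x⟫ + b) 0 ∂stdGaussian E :=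
    calc ∫ x in A, (⟪u, x⟫ + b) ∂stdGaussian E ≤ ∫ x in A, max (⟪u, x⟫ + b) 0 ∂stdGaussian E :=
          integral_mono i1.restrict i2.restrict (fun x => le_max_left _ _)
      _ ≤ _ := setIntegral_le_integral i2 (Eventually.of_forall fun x => le_max_right _ _)
  have h2 : ∫ x, max (⟪u, x⟫ + b) 0 ∂stdGaussian E = b * Phi b + phi b := by
    rw [← integral_posPart b, ← map_inner_unit hu, integral_map (by fun_prop) (by fun_prop)]
  rw [integral_add i0.restrict (integrable_const b)] at h1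
  simp only [integral_const, smul_eq_mul, measureReal_restrict_apply_univ] at h1
  rw [h2] at h1
  linarith

/-- threshold form of the half-space bound (valid for every `b`) -/
theorem norm_moment_le_aux (A : Set E) (b : ℝ)
    (hb : 0 ≤ (b * Phi b + phi b) - b * (stdGaussian E).real A) :
    ‖∫ x in A, x ∂stdGaussian E‖ ≤ (b * Phi b + phi b) - b * (stdGaussian E).real A := by
  set m := ∫ x in A, x ∂stdGaussian E with hm
  rcases eq_or_ne m 0 with h | h
  · rw [h, norm_zero]; exact hb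
  · have hn : ‖m‖ ≠ 0 := norm_ne_zero_iff.2 h
    have hu : ‖(‖m‖⁻¹ • m)‖ = 1 := by
      rw [norm_smul, norm_inv, norm_norm, inv_mul_cancel₀ hn]
    have h1 := inner_moment_le hu A b
    have i0 : Integrable (fun x : E => x) ((stdGaussian E).restrict A) :=
      (IsGaussian.integrable_id (μ := stdGaussian E)).restrict
    rw [integral_inner i0, ← hm, real_inner_smul_left, real_inner_self_eq_norm_sq] at h1
    have h2 : ‖m‖⁻¹ * ‖m‖ ^ 2 = ‖m‖ := by field_simp
    rwa [h2] at h1

/-- **half-space bound**: `|∫_A x| ≤ I(γ A)`. -/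
theorem norm_moment_le {A : Set E} (h0 : 0 < (stdGaussian E).real A)
    (h1 : (stdGaussian E).real A < 1) :
    ‖∫ x in A, x ∂stdGaussian E‖ ≤ phi (Psi ((stdGaussian E).real A)) := by
  set b := Psi ((stdGaussian E).real A) with hb
  have hP : Phi b = (stdGaussian E).real A := Phi_Psi h0 h1
  have e : (b * Phi b + phi b) - b * (stdGaussian E).real A = phi b := by rw [hP]; ring
  have := norm_moment_le_aux A b (by rw [e]; exact phi_nonneg b)
  rwa [e] at this

end Crest.Agent.R215.CM
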