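import Crest.Agent.R215.Num

/-!
# Row 215: the function `chi (Phi b) = φ(b)(b Φ(b) + φ(b))`

* `chi_Phi`, `sig`, `hasDerivAt_chib`, `chi_chord` (chord upper bound, `b ≤ 0`), `chi_mono`,
  `chi_le_sq` (`chi p ≤ p²`), `phi_sq_le_tangent`.
-/

set_option autoImplicit false

open MeasureTheory ProbabilityTheory Set Filter Topology
open Crest.Agent.Lib.Ehrhard

namespace Crest.Agent.R215

lemma chi_Phi (b : ℝ) : chi (Phi b) = phi b * (b * Phi b + phi b) := by
  unfold chi; rw [Psi_Phi]

/-- derivative of `chi` with respect to `p` in terms of `b` -/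
noncomputable def sig (b : ℝ) : ℝ := Phi b - b * (b * Phi b + phi b)

lemma hasDerivAt_W (b : ℝ) : HasDerivAt (fun b => b * Phi b + phi b) (Phi b) b :=
  hasDerivAt_xPhi b

lemma hasDerivAt_chib (b : ℝ) :
    HasDerivAt (fun b => phi b * (b * Phi b + phi b)) (phi b * sig b) b := by
  refine ((hasDerivAt_phi b).fun_mul (hasDerivAt_W b)).congr_deriv ?_
  unfold sig; ring

lemma hasDerivAt_sig (b : ℝ) : HasDerivAt sig (-2 * b * Phi b) b := by
  have h := (hasDerivAt_Phi b).fun_sub ((hasDerivAt_id b).fun_mul (hasDerivAt_W b))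
  refine h.congr_deriv ?_
  simp only [id]; ring

lemma sig_mono {a b : ℝ} (hab : a ≤ b) (hb : b ≤ 0) : sig a ≤ sig b := by
  have hc : Continuous sig := continuous_iff_continuousAt.2 fun x => (hasDerivAt_sig x).continuousAt
  have : MonotoneOn sig (Iic 0) := by
    refine monotoneOn_of_deriv_nonneg (convex_Iic 0) hc.continuousOn
      (fun x _ => (hasDerivAt_sig x).differentiableAt.differentiableWithinAt) ?_
    intro x hx
    rw [interior_Iic] at hx
    rw [(hasDerivAt_sig x).deriv]
    have h1 := Phi_nonneg x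
    simp only [mem_Iio] at hx
    nlinarith
  exact this (mem_Iic.2 (hab.trans hb)) (mem_Iic.2 hb) hab

/-- **chord bound**: an affine function of `p` above `chi` at two points of `(0, 1/2]` is above `chi`
between them. -/
theorem chi_chord {b1 b2 m k : ℝ} (h2 : b2 ≤ 0)
    (e1 : phi b1 * (b1 * Phi b1 + phi b1) ≤ m * Phi b1 + k)
    (e2 : phi b2 * (b2 * Phi b2 + phi b2) ≤ m * Phi b2 + k) {b : ℝ} (hb1 : b1 ≤ b) (hb2 : b ≤ b2) :
    phi b * (b * Phi b + phi b) ≤ m * Phi b + k := by
  set K : ℝ → ℝ := fun b => m * Phi b + k - phi b * (b * Phi b + phi b) with hK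
  have hd : ∀ x, HasDerivAt K (phi x * (m - sig x)) x := by
    intro x
    refine ((((hasDerivAt_Phi x).const_mul m).add_const k).fun_sub (hasDerivAt_chib x)).congr_deriv ?_
    ring
  have hc : Continuous K := continuous_iff_continuousAt.2 fun x => (hd x).continuousAt
  rcases le_or_gt (sig b) m with h | h
  · have : MonotoneOn K (Icc b1 b) := by
      refine monotoneOn_of_deriv_nonneg (convex_Icc b1 b) hc.continuousOn
        (fun x _ => (hd x).differentiableAt.differentiableWithinAt) ?_
      intro x hx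
      rw [interior_Icc] at hx
      rw [(hd x).deriv]
      have := sig_mono hx.2.le (hb2.trans h2)
      exact mul_nonneg (phi_nonneg x) (by linarith)
    have h3 := this (left_mem_Icc.2 hb1) (right_mem_Icc.2 hb1) hb1
    simp only [hK] at h3
    linarith
  · have : AntitoneOn K (Icc b b2) := by
      refine antitoneOn_of_deriv_nonpos (convex_Icc b b2) hc.continuousOn
        (fun x _ => (hd x).differentiableAt.differentiableWithinAt) ?_
      intro x hx
      rw [interior_Icc] at hx
      rw [(hd x).deriv]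
      have := sig_mono hx.1.le (hx.2.le.trans h2)
      exact mul_nonpos_of_nonneg_of_nonpos (phi_nonneg x) (by linarith)
    have h3 := this (left_mem_Icc.2 hb2) (right_mem_Icc.2 hb2) hb2
    simp only [hK] at h3
    linarith

/-- chord bound in terms of `p` -/
theorem chi_le_of_chord {b1 b2 m k : ℝ} (h2 : b2 ≤ 0)
    (e1 : phi b1 * (b1 * Phi b1 + phi b1) ≤ m * Phi b1 + k)
    (e2 : phi b2 * (b2 * Phi b2 + phi b2) ≤ m * Phi b2 + k) {p : ℝ}
    (hp1 : Phi b1 ≤ p) (hp2 : p ≤ Phi b2) : chi p ≤ m * p + k := by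
  have h0 : 0 < p := (Phi_pos b1).trans_le hp1
  have h1 : p < 1 := hp2.trans_lt (Phi_lt_one b2)
  have e : Phi (Psi p) = p := Phi_Psi h0 h1
  have hb1 : b1 ≤ Psi p := (le_Psi_iff h0 h1).2 hp1
  have hb2 : Psi p ≤ b2 := (Psi_le_iff h0 h1).2 hp2
  have := chi_chord h2 e1 e2 hb1 hb2
  rw [e] at this
  exact this

/-- `Φ(b)(1 + b²) + b φ(b) ≥ 0`. -/
lemma tendsto_sq_mul_Phi : Tendsto (fun b : ℝ => b * phi b) atBot (𝓝 0) := by
  have h1 : Tendsto (fun x : ℝ => x ^ 2 * Real.exp (-(x ^ 2 / 2))) atBot (𝓝 0) := by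
    have h2 := Real.tendsto_pow_mul_exp_neg_atTop_nhds_zero 1
    have h3 : Tendsto (fun x : ℝ => x ^ 2 / 2) atBot atTop := by
      have : Tendsto (fun x : ℝ => x ^ 2) atBot atTop := by
        have := (tendsto_pow_atTop (two_ne_zero)).comp (tendsto_neg_atBot_atTop (G := ℝ))
        refine this.congr fun x => ?_
        simp
      exact this.atTop_div_const (by norm_num)
    have h4 := (h2.comp h3).const_mul 2
    rw [mul_zero] at h4
    refine h4.congr fun x => ?_
    simp only [Function.comp, pow_one]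
    ring
  have h5 : ∀ᶠ x : ℝ in atBot, |x * phi x| ≤ x ^ 2 * Real.exp (-(x ^ 2 / 2)) := by
    filter_upwards [eventually_le_atBot (-1 : ℝ)] with x hx
    have h6 : phi x ≤ Real.exp (-(x ^ 2 / 2)) := by
      unfold phi
      rw [neg_div]
      calc _ ≤ 1 * Real.exp (-(x ^ 2 / 2)) := by
            gcongr
            exact c_le_one
        _ = _ := one_mul _
    rw [abs_mul, abs_of_nonneg (phi_nonneg x), abs_of_nonpos (by linarith)]
    have h7 : 0 ≤ phi x := phi_nonneg x
    have h8 : -x ≤ x ^ 2 := by nlinarith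
    calc -x * phi x ≤ x ^ 2 * phi x := mul_le_mul_of_nonneg_right h8 h7
      _ ≤ _ := mul_le_mul_of_nonneg_left h6 (by positivity)
  exact squeeze_zero_norm' h5 h1

lemma mills_lower (b : ℝ) : 0 ≤ Phi b * (1 + b ^ 2) + b * phi b := by
  set L : ℝ → ℝ := fun b => Phi b * (1 + b ^ 2) + b * phi b with hL
  have hd : ∀ x, HasDerivAt L (2 * (x * Phi x + phi x)) x := by
    intro x
    have h1 : HasDerivAt (fun b : ℝ => 1 + b ^ 2) (2 * x) x := by
      simpa using (hasDerivAt_pow 2 x).const_add 1
    refine (((hasDerivAt_Phi x).fun_mul h1).fun_add ((hasDerivAt_id x).fun_mul (hasDerivAt_phi x))).congr_deriv ?_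
    simp only [id]; ring
  have hc : Continuous L := continuous_iff_continuousAt.2 fun x => (hd x).continuousAt
  have hmono : Monotone L := by
    refine monotone_of_deriv_nonneg (fun x => (hd x).differentiableAt) fun x => ?_
    rw [(hd x).deriv]
    have := W_nonneg x
    linarith
  have hlim : Tendsto L atBot (𝓝 0) := by
    have h1 : Tendsto (fun b : ℝ => b * phi b) atBot (𝓝 0) := tendsto_sq_mul_Phi
    have h2 : Tendsto (fun b : ℝ => Phi b * b ^ 2) atBot (𝓝 0) := by
      have h3 := h1.neg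
      rw [neg_zero] at h3
      refine squeeze_zero' (Eventually.of_forall fun x => by have := Phi_nonneg x; positivity) ?_ h3
      filter_upwards [eventually_le_atBot (0 : ℝ)] with x hx
      have h4 := mills hx
      nlinarith
    have h5 : Tendsto (fun b : ℝ => Phi b + Phi b * b ^ 2 + b * phi b) atBot (𝓝 (0 + 0 + 0)) :=
      (tendsto_Phi_atBot.add h2).add h1
    rw [add_zero, add_zero] at h5
    refine h5.congr fun x => ?_
    simp only [hL]; ring
  exact hmono.le_of_tendsto hlim b

/-- `chi ≤ p²` -/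
lemma chib_le_sq (b : ℝ) : phi b * (b * Phi b + phi b) ≤ Phi b ^ 2 := by
  set K : ℝ → ℝ := fun b => Phi b ^ 2 - phi b * (b * Phi b + phi b) with hK
  have hd : ∀ x, HasDerivAt K (phi x * (Phi x * (1 + x ^ 2) + x * phi x)) x := by
    intro x
    refine (((hasDerivAt_Phi x).fun_pow 2).fun_sub (hasDerivAt_chib x)).congr_deriv ?_
    unfold sig; simp only [Nat.cast_ofNat]; ring
  have hmono : Monotone K := by
    refine monotone_of_deriv_nonneg (fun x => (hd x).differentiableAt) fun x => ?_
    rw [(hd x).deriv]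
    exact mul_nonneg (phi_nonneg x) (mills_lower x)
  have hlim : Tendsto K atBot (𝓝 0) := by
    have h1 : Tendsto (fun b : ℝ => Phi b ^ 2) atBot (𝓝 0) := by
      simpa using tendsto_Phi_atBot.pow 2
    have h2 := tendsto_phi_atBot.mul tendsto_W_atBot
    have := h1.sub h2
    simpa using this
  have := hmono.le_of_tendsto hlim b
  simp only [hK] at this
  linarith

lemma chi_le_sq {p : ℝ} (h0 : 0 < p) (h1 : p < 1) : chi p ≤ p ^ 2 := by
  have := chib_le_sq (Psi p)
  rw [Phi_Psi h0 h1] at this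
  exact this

lemma chi_nonneg (p : ℝ) (h0 : 0 < p) (h1 : p < 1) : 0 ≤ chi p := by
  have := W_nonneg (Psi p)
  rw [Phi_Psi h0 h1] at this
  exact mul_nonneg (phi_nonneg _) this

/-- `sig ≥ 0` for `b ≤ 0`, hence `chi` is increasing on `(0, 1/2]`. -/
lemma sig_nonneg {b : ℝ} (hb : b ≤ 0) : 0 ≤ sig b := by
  unfold sig
  have h1 := W_nonneg b
  have h2 := Phi_nonneg b
  nlinarith

lemma chib_mono {a b : ℝ} (hab : a ≤ b) (hb : b ≤ 0) :
    phi a * (a * Phi a + phi a) ≤ phi b * (b * Phi b + phi b) := by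
  have hc : Continuous (fun b => phi b * (b * Phi b + phi b)) :=
    continuous_iff_continuousAt.2 fun x => (hasDerivAt_chib x).continuousAt
  have : MonotoneOn (fun b => phi b * (b * Phi b + phi b)) (Iic 0) := by
    refine monotoneOn_of_deriv_nonneg (convex_Iic 0) hc.continuousOn
      (fun x _ => (hasDerivAt_chib x).differentiableAt.differentiableWithinAt) ?_
    intro x hx
    rw [interior_Iic] at hx
    rw [(hasDerivAt_chib x).deriv]
    exact mul_nonneg (phi_nonneg x) (sig_nonneg (le_of_lt hx))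
  exact this (mem_Iic.2 (hab.trans hb)) (mem_Iic.2 hb) hab

lemma chi_mono {p q : ℝ} (h0 : 0 < p) (hpq : p ≤ q) (hq : q ≤ 1 / 2) : chi p ≤ chi q := by
  have h1 : q < 1 := by linarith
  have hq0 : 0 < q := h0.trans_le hpq
  have e1 : Psi p ≤ Psi q := by
    rw [Psi_le_iff h0 (hpq.trans_lt h1), Phi_Psi hq0 h1]
    exact hpq
  have e2 : Psi q ≤ 0 := by
    rw [Psi_le_iff hq0 h1, Num.Phi_zero]; exact hq
  have := chib_mono e1 e2
  rw [Phi_Psi h0 (hpq.trans_lt h1), Phi_Psi hq0 h1] at this
  exact this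

/-- tangent bound for `I²` on `b ∈ [-1, 0]` -/
lemma phi_sq_le_tangent {b b0 : ℝ} (hb : -1 ≤ b) (hb' : b ≤ 1) (hb0 : -1 ≤ b0) (hb0' : b0 ≤ 1) :
    phi b ^ 2 ≤ phi b0 ^ 2 - 2 * b0 * phi b0 * (Phi b - Phi b0) := by
  have hxphi : ∀ x : ℝ, HasDerivAt (fun x => x * phi x) ((1 - x ^ 2) * phi x) x := by
    intro x
    refine ((hasDerivAt_id x).fun_mul (hasDerivAt_phi x)).congr_deriv ?_
    simp only [id]; ring
  have hm : MonotoneOn (fun x => x * phi x) (Icc (-1) 1) := by
    refine monotoneOn_of_deriv_nonneg (convex_Icc _ _)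
      (continuous_id.mul continuous_phi).continuousOn
      (fun x _ => (hxphi x).differentiableAt.differentiableWithinAt) ?_
    intro x hx
    rw [interior_Icc] at hx
    rw [(hxphi x).deriv]
    refine mul_nonneg ?_ (phi_nonneg x)
    nlinarith [hx.1, hx.2]
  set K : ℝ → ℝ := fun b => phi b0 ^ 2 - 2 * b0 * phi b0 * (Phi b - Phi b0) - phi b ^ 2 with hK
  have hd : ∀ x, HasDerivAt K (2 * phi x * (x * phi x - b0 * phi b0)) x := by
    intro x
    refine (((((hasDerivAt_Phi x).sub_const (Phi b0)).const_mul (2 * b0 * phi b0)).const_sub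
      (phi b0 ^ 2)).fun_sub ((hasDerivAt_phi x).fun_pow 2)).congr_deriv ?_
    simp only [Nat.cast_ofNat]; ring
  have hc : Continuous K := continuous_iff_continuousAt.2 fun x => (hd x).continuousAt
  have h0 : K b0 = 0 := by simp only [hK]; ring
  rcases le_total b0 b with h | h
  · have : MonotoneOn K (Icc b0 b) := by
      refine monotoneOn_of_deriv_nonneg (convex_Icc _ _) hc.continuousOn
        (fun x _ => (hd x).differentiableAt.differentiableWithinAt) ?_
      intro x hx
      rw [interior_Icc] at hx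
      rw [(hd x).deriv]
      have := hm ⟨hb0, hb0'⟩ ⟨hb0.trans hx.1.le, hx.2.le.trans hb'⟩ hx.1.le
      simp only at this
      have h2 := phi_nonneg x
      nlinarith
    have h3 := this (left_mem_Icc.2 h) (right_mem_Icc.2 h) h
    rw [h0] at h3
    simp only [hK] at h3
    linarith
  · have : AntitoneOn K (Icc b b0) := by
      refine antitoneOn_of_deriv_nonpos (convex_Icc _ _) hc.continuousOn
        (fun x _ => (hd x).differentiableAt.differentiableWithinAt) ?_
      intro x hx
      rw [interior_Icc] at hx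
      rw [(hd x).deriv]
      have := hm ⟨hb.trans hx.1.le, hx.2.le.trans hb0'⟩ ⟨hb0, hb0'⟩ hx.2.le
      simp only at this
      have h2 := phi_nonneg x
      nlinarith
    have h3 := this (left_mem_Icc.2 h) (right_mem_Icc.2 h) h
    rw [h0] at h3
    simp only [hK] at h3
    linarith

end Crest.Agent.R215
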