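import Crest.Agent.R215.Basic

/-!
# Row 215: transfer between index types, existence and structure of a critical configuration
-/

set_option autoImplicit false
set_option linter.unusedSectionVars false
set_option linter.style.haveILetI false

open MeasureTheory ProbabilityTheory Set Filter Topology
open scoped RealInnerProductSpace

namespace Crest.Agent.R215

variable {E : Type*} [NormedAddCommGroup E] [InnerProductSpace ℝ E] [FiniteDimensional ℝ E]
  [MeasurableSpace E] [BorelSpace E]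

lemma mom_empty : mom (∅ : Set E) = 0 := by simp [mom]

lemma mom_union {A B : Set E} (hB : MeasurableSet B) (h : Disjoint A B) :
    mom (A ∪ B) = mom A + mom B := by
  unfold mom
  exact setIntegral_union h hB integrable_id'.integrableOn integrable_id'.integrableOn

/-- `Good` passes to smaller index types. -/
lemma Good.of_injective {ι κ : Type*} [Fintype ι] [Fintype κ] (h : Good E ι) (f : κ → ι)
    (hf : Function.Injective f) : Good E κ := by
  classical
  intro A hA
  let B : ι → Set E := fun i => ⋃ (j : κ) (_ : f j = i), A j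
  have hB1 : ∀ j, B (f j) = A j := by
    intro j
    apply Set.eq_of_subset_of_subset
    · refine Set.iUnion₂_subset fun l hl => ?_
      rw [hf hl]
    · exact Set.subset_iUnion₂_of_subset j rfl subset_rfl
  have hB2 : ∀ i, i ∉ Set.range f → B i = ∅ := by
    intro i hi
    simp only [B]
    rw [Set.iUnion_eq_empty]
    intro j
    rw [Set.iUnion_eq_empty]
    intro hj
    exact absurd ⟨j, hj⟩ hi
  have hB : IsPart B := by
    refine ⟨fun i => ?_, fun i j hij => ?_, ?_⟩
    · exact MeasurableSet.iUnion fun j => MeasurableSet.iUnion fun _ => hA.meas j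
    · show Disjoint (B i) (B j)
      rw [Set.disjoint_left]
      intro x hx hx'
      simp only [B, Set.mem_iUnion, exists_prop] at hx hx'
      obtain ⟨a, ha, hxa⟩ := hx
      obtain ⟨b, hb, hxb⟩ := hx'
      have hab : a ≠ b := by rintro rfl; exact hij (ha.symm.trans hb)
      exact Set.disjoint_left.1 (hA.disj hab) hxa hxb
    · rw [Set.eq_univ_iff_forall]
      intro x
      have : x ∈ ⋃ i, A i := by rw [hA.cov]; trivial
      obtain ⟨j, hj⟩ := Set.mem_iUnion.1 this
      exact Set.mem_iUnion.2 ⟨f j, by rw [hB1]; exact hj⟩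
  have := h B hB
  refine le_trans (le_of_eq ?_) this
  have h2 : ∑ i, ‖mom (B i)‖ ^ 2 = ∑ i ∈ Finset.univ.image f, ‖mom (B i)‖ ^ 2 := by
    symm
    apply Finset.sum_subset (Finset.subset_univ _)
    intro i _ hi
    rw [hB2 i (by simpa using hi), mom_empty]
    simp
  rw [h2, Finset.sum_image (fun a _ b _ hab => hf hab)]
  exact Finset.sum_congr rfl fun j _ => by rw [hB1]

lemma Good.congr {ι κ : Type*} [Fintype ι] [Fintype κ] (h : Good E ι) (e : ι ≃ κ) : Good E κ :=
  h.of_injective e.symm e.symm.injective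

/-- merging two cells -/
lemma Good.merge {ι : Type*} [Fintype ι] [DecidableEq ι] {i j : ι} (hij : i ≠ j)
    (h : Good E {l // l ≠ j}) {A : ι → Set E} (hA : IsPart A) :
    ∑ l, ‖mom (A l)‖ ^ 2 + 2 * ⟪mom (A i), mom (A j)⟫ ≤ cC := by
  classical
  let B : {l // l ≠ j} → Set E := fun l => if (l : ι) = i then A i ∪ A j else A l
  have hBi : B ⟨i, hij⟩ = A i ∪ A j := by simp [B]
  have hBl : ∀ l : {l // l ≠ j}, (l : ι) ≠ i → B l = A l := fun l hl => by simp [B, hl]
  have hB : IsPart B := by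
    refine ⟨fun l => ?_, fun a b hab => ?_, ?_⟩
    · by_cases hl : (l : ι) = i
      · simp only [B, hl, if_true]; exact (hA.meas i).union (hA.meas j)
      · rw [hBl l hl]; exact hA.meas _
    · show Disjoint (B a) (B b)
      have hab' : (a : ι) ≠ b := fun h => hab (Subtype.ext h)
      by_cases ha : (a : ι) = i
      · have hb : (b : ι) ≠ i := fun h => hab' (ha.trans h.symm)
        have hB1 : B a = A i ∪ A j := by simp [B, ha]
        rw [hB1, hBl b hb, Set.disjoint_union_left]
        exact ⟨hA.disj (Ne.symm hb), hA.disj (Ne.symm b.2)⟩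
      · by_cases hb : (b : ι) = i
        · have hB1 : B b = A i ∪ A j := by simp [B, hb]
          rw [hB1, hBl a ha, Set.disjoint_union_right]
          exact ⟨hA.disj ha, hA.disj a.2⟩
        · rw [hBl a ha, hBl b hb]
          exact hA.disj hab'
    · rw [Set.eq_univ_iff_forall]
      intro x
      have : x ∈ ⋃ i, A i := by rw [hA.cov]; trivial
      obtain ⟨l, hl⟩ := Set.mem_iUnion.1 this
      by_cases hlj : l = j
      · exact Set.mem_iUnion.2 ⟨⟨i, hij⟩, by rw [hBi]; right; rw [← hlj]; exact hl⟩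
      · by_cases hli : l = i
        · exact Set.mem_iUnion.2 ⟨⟨i, hij⟩, by rw [hBi]; left; rw [← hli]; exact hl⟩
        · exact Set.mem_iUnion.2 ⟨⟨l, hlj⟩, by rw [hBl _ hli]; exact hl⟩
  have key := h B hB
  have hmi : mom (B ⟨i, hij⟩) = mom (A i) + mom (A j) := by
    rw [hBi, mom_union (hA.meas j) (hA.disj hij)]
  have e1 : ∑ l, ‖mom (B l)‖ ^ 2 = ‖mom (A i) + mom (A j)‖ ^ 2
      + ∑ l ∈ (Finset.univ.erase (⟨i, hij⟩ : {l // l ≠ j})), ‖mom (A l)‖ ^ 2 := by
    rw [← Finset.add_sum_erase _ _ (Finset.mem_univ (⟨i, hij⟩ : {l // l ≠ j})), hmi]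
    congr 1
    refine Finset.sum_congr rfl fun l hl => ?_
    rw [hBl l]
    intro h
    exact (Finset.ne_of_mem_erase hl) (Subtype.ext h)
  have e2 : ∑ l, ‖mom (A l)‖ ^ 2 = ‖mom (A i)‖ ^ 2 + ‖mom (A j)‖ ^ 2
      + ∑ l ∈ (Finset.univ.erase (⟨i, hij⟩ : {l // l ≠ j})), ‖mom (A l)‖ ^ 2 := by
    have e3 : ∑ l : {l // l ≠ j}, ‖mom (A l)‖ ^ 2 = ‖mom (A i)‖ ^ 2
      + ∑ l ∈ (Finset.univ.erase (⟨i, hij⟩ : {l // l ≠ j})), ‖mom (A l)‖ ^ 2 := by
      rw [← Finset.add_sum_erase _ _ (Finset.mem_univ (⟨i, hij⟩ : {l // l ≠ j}))]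
    have e4 : ∑ l, ‖mom (A l)‖ ^ 2 = ‖mom (A j)‖ ^ 2 + ∑ l : {l // l ≠ j}, ‖mom (A l)‖ ^ 2 := by
      rw [← Finset.add_sum_erase _ _ (Finset.mem_univ j)]
      congr 1
      apply Finset.sum_subtype
      intro x; simp
    rw [e4, e3]; ring
  rw [e1] at key
  rw [e2]
  have h3 := @norm_add_sq_real E _ _ (mom (A i)) (mom (A j))
  linarith

lemma sum_norm_sub_mean {ι : Type*} [Fintype ι] [Nonempty ι] (z : ι → E) :
    ∑ i, ‖z i + (-(Fintype.card ι : ℝ)⁻¹ • ∑ j, z j)‖ ^ 2
      = ∑ i, ‖z i‖ ^ 2 - ‖∑ i, z i‖ ^ 2 / Fintype.card ι := by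
  have hn : (Fintype.card ι : ℝ) ≠ 0 := by
    have := Fintype.card_pos (α := ι)
    positivity
  simp_rw [norm_add_sq_real, inner_smul_right]
  rw [Finset.sum_add_distrib, Finset.sum_add_distrib, ← Finset.mul_sum, ← Finset.mul_sum,
    ← sum_inner, real_inner_self_eq_norm_sq, Finset.sum_const, Finset.card_univ, norm_smul,
    mul_pow, nsmul_eq_mul]
  simp only [norm_neg, norm_inv, RCLike.norm_natCast]
  field_simp
  ring

/-- the dual inequality for a (non-centred) family. -/
lemma DualGood.sub_mean {ι : Type*} [Fintype ι] [Nonempty ι] (h : DualGood E ι) (z : ι → E) :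
    F z ≤ √cC * √(∑ i, ‖z i‖ ^ 2 - ‖∑ i, z i‖ ^ 2 / Fintype.card ι) := by
  rw [← F_add_const z (-(Fintype.card ι : ℝ)⁻¹ • ∑ j, z j), ← sum_norm_sub_mean z]
  exact h _

/-- A critical configuration: a maximiser of `F z / √(∑ ‖z i‖²)` normalised by `‖z‖² = V`,
with value `√V > √C`, when all families with fewer members satisfy the inequality. -/
structure Crit (E : Type*) [NormedAddCommGroup E] [InnerProductSpace ℝ E] [FiniteDimensional ℝ E]
    [MeasurableSpace E] [BorelSpace E] (ι : Type*) [Fintype ι] [DecidableEq ι] where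
  /-- the points -/
  z : ι → E
  /-- the value -/
  V : ℝ
  V_gt : cC < V
  sumsq : ∑ i, ‖z i‖ ^ 2 = V
  F_eq : F z = V
  opt : ∀ w : ι → E, F w ≤ √V * √(∑ i, ‖w i‖ ^ 2)
  /-- first-order condition -/
  cell : ∀ A : ι → Set E, IsPart A → IsArgmax z A → ∀ i, mom (A i) = z i
  /-- smaller families are good -/
  small : ∀ j : ι, Good E {l // l ≠ j}

/-- existence of critical configuration -/
theorem exists_crit {ι : Type*} [Fintype ι] [DecidableEq ι] [Nonempty ι] (hsmall : ∀ j : ι, Good E {l // l ≠ j})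
    (hbad : ¬ Good E ι) : Nonempty (Crit E ι) := by
  have hbad' : ¬ DualGood E ι := fun h => hbad h.good
  unfold DualGood at hbad'
  push Not at hbad'
  obtain ⟨w, hw⟩ := hbad'
  -- the sphere
  let N : (ι → E) → ℝ := fun z => √(∑ i, ‖z i‖ ^ 2)
  have hNc : Continuous N := by
    refine Real.continuous_sqrt.comp ?_
    exact continuous_finsetSum _ fun i _ => (continuous_norm.comp (continuous_apply i)).pow 2
  let S : Set (ι → E) := {z | ∑ i, ‖z i‖ ^ 2 = 1}
  have hSclosed : IsClosed S := by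
    refine isClosed_eq ?_ continuous_const
    exact continuous_finsetSum _ fun i _ => (continuous_norm.comp (continuous_apply i)).pow 2
  have hSb : Bornology.IsBounded S := by
    refine (Metric.isBounded_closedBall (x := (0 : ι → E)) (r := 1)).subset fun z hz => ?_
    rw [mem_closedBall_zero_iff, pi_norm_le_iff_of_nonneg zero_le_one]
    intro i
    have h1 : ‖z i‖ ^ 2 ≤ 1 := by
      have hz' : ∑ i, ‖z i‖ ^ 2 = 1 := hz
      rw [← hz']
      exact Finset.single_le_sum (f := fun i => ‖z i‖ ^ 2) (fun j _ => by positivity)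
        (Finset.mem_univ i)
    nlinarith [norm_nonneg (z i)]
  have hScomp : IsCompact S := Metric.isCompact_of_isClosed_isBounded hSclosed hSb
  have hwpos : 0 < ∑ i, ‖w i‖ ^ 2 := by
    rcases (Finset.sum_nonneg fun i (_ : i ∈ Finset.univ) => sq_nonneg ‖w i‖).lt_or_eq with h | h
    · exact h
    · exfalso
      have hw0 : ∀ i, w i = 0 := by
        intro i
        have := (Finset.sum_eq_zero_iff_of_nonneg
          (fun i (_ : i ∈ Finset.univ) => sq_nonneg ‖w i‖)).1 h.symm i (Finset.mem_univ i)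
        simpa using this
      have : F w = 0 := by
        have h0 : supI w = fun _ => (0 : ℝ) := by
          funext x; simp [supI, hw0]
        simp [F, h0]
      rw [this] at hw
      have : 0 ≤ √cC * √(∑ i, ‖w i‖ ^ 2) := by positivity
      linarith
  have hscale : ∀ u : ι → E, 0 < ∑ i, ‖u i‖ ^ 2 → (fun i => (N u)⁻¹ • u i) ∈ S := by
    intro u hu
    have hN : 0 < N u := Real.sqrt_pos.2 hu
    show ∑ i, ‖(N u)⁻¹ • u i‖ ^ 2 = 1
    simp_rw [norm_smul, mul_pow]
    rw [← Finset.mul_sum, norm_inv, Real.norm_eq_abs, abs_of_pos hN]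
    have : N u ^ 2 = ∑ i, ‖u i‖ ^ 2 := Real.sq_sqrt hu.le
    rw [← this]
    field_simp
  have hSne : S.Nonempty := ⟨_, hscale w hwpos⟩
  obtain ⟨z0, hz0S, hz0max⟩ := hScomp.exists_isMaxOn hSne continuous_F.continuousOn
  have hz0 : ∑ i, ‖z0 i‖ ^ 2 = 1 := hz0S
  have hQ : ∀ u : ι → E, F u ≤ F z0 * √(∑ i, ‖u i‖ ^ 2) := by
    intro u
    rcases (Finset.sum_nonneg fun i (_ : i ∈ Finset.univ) => sq_nonneg ‖u i‖).lt_or_eq with h | h
    · have h1 := hz0max (hscale u h)
      have hN : 0 < N u := Real.sqrt_pos.2 h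
      have h2 : F (fun i => (N u)⁻¹ • u i) = (N u)⁻¹ * F u := F_smul u (by positivity)
      have h3 : (N u)⁻¹ * F u ≤ F z0 := by rw [← h2]; exact h1
      have h4 : F u = N u * ((N u)⁻¹ * F u) := by field_simp
      rw [h4, mul_comm (F z0)]
      exact mul_le_mul_of_nonneg_left h3 hN.le
    · have hu0 : ∀ i, u i = 0 := by
        intro i
        have := (Finset.sum_eq_zero_iff_of_nonneg
          (fun i (_ : i ∈ Finset.univ) => sq_nonneg ‖u i‖)).1 h.symm i (Finset.mem_univ i)
        simpa using this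
      have : F u = 0 := by
        have h0 : supI u = fun _ => (0 : ℝ) := by
          funext x; simp [supI, hu0]
        simp [F, h0]
      rw [this, ← h]
      simp
  set Q := F z0 with hQdef
  have hQgt : √cC < Q := by
    have h1 := hQ w
    have hN : 0 < √(∑ i, ‖w i‖ ^ 2) := Real.sqrt_pos.2 hwpos
    exact lt_of_mul_lt_mul_right (hw.trans_le h1) hN.le
  have hQpos : 0 < Q := (Real.sqrt_nonneg _).trans_lt hQgt
  -- the first-order condition
  have hfirst : ∀ A : ι → Set E, IsPart A → IsArgmax z0 A → ∀ i, mom (A i) = Q • z0 i := by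
    intro A hA hz
    have e1 : Q = ∑ i, ⟪z0 i, mom (A i)⟫ := hA.F_eq hz
    have e2 : ∑ i, ‖mom (A i)‖ ^ 2 ≤ Q * √(∑ i, ‖mom (A i)‖ ^ 2) := by
      have := (hA.sum_inner_mom_le (fun i => mom (A i))).trans (hQ _)
      simpa only [real_inner_self_eq_norm_sq] using this
    set s := ∑ i, ‖mom (A i)‖ ^ 2 with hs
    have hs0 : 0 ≤ s := Finset.sum_nonneg fun i _ => by positivity
    have e3 : s ≤ Q ^ 2 := by
      have h4 : √s * √s = s := Real.mul_self_sqrt hs0
      have h6 : √s ≤ Q := by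
        by_contra hcon
        push Not at hcon
        nlinarith
      nlinarith [Real.sqrt_nonneg s]
    have e4 : ∑ i, ‖mom (A i) - Q • z0 i‖ ^ 2 = s - 2 * Q * ∑ i, ⟪z0 i, mom (A i)⟫
        + Q ^ 2 * ∑ i, ‖z0 i‖ ^ 2 := by
      rw [hs, Finset.mul_sum, Finset.mul_sum, ← Finset.sum_sub_distrib, ← Finset.sum_add_distrib]
      refine Finset.sum_congr rfl fun i _ => ?_
      rw [norm_sub_sq_real, inner_smul_right, norm_smul, mul_pow, Real.norm_eq_abs, sq_abs,
        real_inner_comm]
      ring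
    have e5 : ∑ i, ‖mom (A i) - Q • z0 i‖ ^ 2 ≤ 0 := by
      rw [e4, ← e1, hz0]; nlinarith
    intro i
    have e6 := (Finset.sum_eq_zero_iff_of_nonneg
      (fun i (_ : i ∈ Finset.univ) => sq_nonneg ‖mom (A i) - Q • z0 i‖)).1
      (le_antisymm e5 (Finset.sum_nonneg fun i _ => by positivity)) i (Finset.mem_univ i)
    have e7 : ‖mom (A i) - Q • z0 i‖ = 0 := by simpa using e6
    exact sub_eq_zero.1 (norm_eq_zero.1 e7)
  have hQsq : √(Q ^ 2) = Q := Real.sqrt_sq hQpos.le
  refine ⟨{ z := fun i => Q • z0 i, V := Q ^ 2, V_gt := ?_, sumsq := ?_, F_eq := ?_, opt := ?_,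
            cell := ?_, small := hsmall }⟩
  · have h5 : √cC * √cC = cC := Real.mul_self_sqrt cC_pos.le
    nlinarith [Real.sqrt_nonneg cC]
  · simp_rw [norm_smul, mul_pow]
    rw [← Finset.mul_sum, hz0, Real.norm_eq_abs, sq_abs, mul_one]
  · rw [F_smul z0 hQpos.le, ← hQdef]; ring
  · intro u; rw [hQsq]; exact hQ u
  · intro A hA hz i
    refine hfirst A hA ?_ i
    intro i x hx j
    have := hz i x hx j
    rw [real_inner_smul_left, real_inner_smul_left] at this
    exact le_of_mul_le_mul_left this hQpos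

namespace Crit

variable {ι : Type*} [Fintype ι] [DecidableEq ι] (c : Crit E ι)

lemma V_pos : 0 < c.V := cC_pos.trans c.V_gt

include c in
lemma nonempty : Nonempty ι := by
  by_contra h
  rw [not_nonempty_iff] at h
  have := c.sumsq
  simp at this
  exact c.V_pos.ne this

lemma sum_z : ∑ i, c.z i = 0 := by
  haveI := c.nonempty
  obtain ⟨A, hA, hz⟩ := exists_argmax c.z
  rw [← hA.sum_mom]
  exact Finset.sum_congr rfl fun i _ => (c.cell A hA hz i).symm

lemma inner_neg {i j : ι} (hij : i ≠ j) : ⟪c.z i, c.z j⟫ ≤ (cC - c.V) / 2 := by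
  haveI := c.nonempty
  obtain ⟨A, hA, hz⟩ := exists_argmax c.z
  have h := (c.small j).merge hij hA
  simp only [c.cell A hA hz, c.sumsq] at h
  linarith

lemma inner_lt {i j : ι} (hij : i ≠ j) : ⟪c.z i, c.z j⟫ < 0 := by
  have := c.inner_neg hij
  have := c.V_gt
  linarith

lemma z_ne_zero (i : ι) (h : 1 < Fintype.card ι) : c.z i ≠ 0 := by
  haveI : Nontrivial ι := Fintype.one_lt_card_iff_nontrivial.1 h
  obtain ⟨j, hj⟩ := exists_ne i
  intro h0
  have := c.inner_lt hj.symm
  rw [h0, inner_zero_left] at this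
  exact lt_irrefl _ this

lemma z_injective : Function.Injective c.z := by
  intro i j hij
  by_contra hne
  have := c.inner_lt hne
  rw [hij] at this
  exact absurd this (not_lt.2 real_inner_self_nonneg)

end Crit

end Crest.Agent.R215
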