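import Crest.Agent.R215.CM

/-!
Ehrhard gain bound for a function which is translation-equivariant in one direction.
-/

set_option autoImplicit false
open MeasureTheory ProbabilityTheory Set Filter Topology
open scoped NNReal ENNReal RealInnerProductSpace

namespace Crest.Agent.R215.GainCell

open Crest.Agent.Lib.Ehrhard Crest.Agent.R215.CM

variable {E : Type*} [NormedAddCommGroup E] [InnerProductSpace ℝ E] [FiniteDimensional ℝ E]
  [MeasurableSpace E] [BorelSpace E]

/-- translates of null sets are null -/
lemma translate_null (w : E) {B : Set E} (hB : MeasurableSet B) (h : stdGaussian E B = 0) :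
    stdGaussian E {x | x + w ∈ B} = 0 := by
  have h1 := cm_real w hB
  rw [Measure.restrict_eq_zero.2 h, integral_zero_measure] at h1
  exact (measureReal_eq_zero_iff (by finiteness)).1 h1

/-- no atoms -/
lemma no_atoms {D : E → ℝ} (hc : Continuous D) {v : E} (hv : ∀ x (t : ℝ), D (x + t • v) = D x + t)
    (t : ℝ) : stdGaussian E {x | D x = t} = 0 := by
  by_contra hne
  have hall : ∀ s : ℝ, 0 < stdGaussian E {x | D x = s} := by
    intro s
    rw [pos_iff_ne_zero]
    intro h0
    apply hne
    have h1 := translate_null ((s - t) • v) (B := {x | D x = s})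
      (measurableSet_eq_fun hc.measurable measurable_const) h0
    have e : {x | x + (s - t) • v ∈ {x | D x = s}} = {x | D x = t} := by
      ext x
      simp only [mem_ofPred_eq, hv]
      constructor <;> intro h <;> linarith
    rwa [e] at h1
  have hcount := Measure.countable_meas_level_set_pos (μ := stdGaussian E) hc.measurable
  have huniv : {s : ℝ | 0 < stdGaussian E {x | D x = s}} = univ := by
    ext s; simp only [mem_ofPred_eq, mem_univ, iff_true]; exact hall s
  rw [huniv] at hcount
  exact Cardinal.not_countable_real hcount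

/-- **Gain bound for a cell** -/
theorem gain_cell {D : E → ℝ} {L : ℝ} (hL : ∀ x y, |D x - D y| ≤ L * ‖x - y‖)
    (hD : ∀ x y, (D x + D y) / 2 ≤ D ((2:ℝ)⁻¹ • (x + y)))
    {v : E} (hv : ∀ x (t : ℝ), D (x + t • v) = D x + t)
    (hρ : 0 < ∫ x in {x | 0 < D x}, ⟪v, x⟫ ∂stdGaussian E) :
    (∫ x in {x | 0 < D x}, ⟪v, x⟫ ∂stdGaussian E) * ∫ x, max (D x) 0 ∂stdGaussian E ≤
      phi (Psi ((stdGaussian E).real {x | 0 < D x})) *
        (Psi ((stdGaussian E).real {x | 0 < D x}) * (stdGaussian E).real {x | 0 < D x}
          + phi (Psi ((stdGaussian E).real {x | 0 < D x}))) := by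
  have hc : Continuous D := cont_of_lip' hL
  have hA : MeasurableSet {x | 0 < D x} := measurableSet_lt measurable_const hc.measurable
  have i0 : Integrable (fun x : E => ⟪v, x⟫) (stdGaussian E) :=
    (IsGaussian.integrable_id (μ := stdGaussian E)).const_inner v
  have hp0 : 0 < (stdGaussian E).real {x | 0 < D x} := by
    rcases eq_or_lt_of_le (measureReal_nonneg : 0 ≤ (stdGaussian E).real {x | 0 < D x}) with h | h
    · exfalso
      have h1 : stdGaussian E {x | 0 < D x} = 0 := (measureReal_eq_zero_iff (by finiteness)).1 h.symm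
      rw [Measure.restrict_eq_zero.2 h1, integral_zero_measure] at hρ
      exact lt_irrefl _ hρ
    · exact h
  have hp1 : (stdGaussian E).real {x | 0 < D x} < 1 := by
    refine lt_of_le_of_ne measureReal_le_one ?_
    intro h
    have h2 : (stdGaussian E).real ({x | 0 < D x}ᶜ) = 0 := by
      rw [probReal_compl_eq_one_sub hA, h, sub_self]
    have h3 : stdGaussian E ({x | 0 < D x}ᶜ) = 0 := (measureReal_eq_zero_iff (by finiteness)).1 h2
    have h4 := integral_add_compl hA i0
    have h5 : ∫ x in {x | 0 < D x}ᶜ, ⟪v, x⟫ ∂stdGaussian E = 0 := by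
      rw [Measure.restrict_eq_zero.2 h3, integral_zero_measure]
    have h6 : ∫ x, ⟪v, x⟫ ∂stdGaussian E = 0 := by
      have := integral_inner (𝕜 := ℝ) (IsGaussian.integrable_id (μ := stdGaussian E)) v
      simp only [id] at this
      rw [this]
      simp
    rw [h5, h6, add_zero] at h4
    rw [h4] at hρ
    exact lt_irrefl _ hρ
  have hder : HasDerivAt (fun t : ℝ => (stdGaussian E).real {x | t < D x})
      (-(∫ x in {x | 0 < D x}, ⟪v, x⟫ ∂stdGaussian E)) 0 := by
    have h1 := hasDerivAt_translate v hA
    have h2 : HasDerivAt (fun t : ℝ => -t) (-1) 0 := (hasDerivAt_id (0:ℝ)).neg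
    have h3 := HasDerivAt.comp (0:ℝ) (h₂ := fun t : ℝ => (stdGaussian E).real {x | x + t • v ∈ {x | 0 < D x}})
      (by simpa using h1) h2
    refine (h3.congr_deriv (by ring)).congr_of_eventuallyEq (Eventually.of_forall fun t => ?_)
    simp only [Function.comp]
    congr 1
    ext x
    simp only [mem_ofPred_eq, hv]
    constructor <;> intro h <;> linarith
  exact gain_bound hL hD (no_atoms hc hv) hp0 hp1 hρ hder.hasDerivWithinAt

end Crest.Agent.R215.GainCell
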