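import Crest.Agent.R215.Base
import Crest.Agent.R215.GainCell

/-!
# Row 215: gain and half-space bounds for the cells of a critical configuration
-/

set_option autoImplicit false
set_option linter.unusedSectionVars false
set_option linter.style.haveILetI false

open MeasureTheory ProbabilityTheory Set Filter Topology
open scoped RealInnerProductSpace

namespace Crest.Agent.R215

open Crest.Agent.Lib.Ehrhard

variable {E : Type*} [NormedAddCommGroup E] [InnerProductSpace ℝ E] [FiniteDimensional ℝ E]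
  [MeasurableSpace E] [BorelSpace E]

/-- `χ(p) = I (I + b p)`, `b = Ψ p`, `I = φ b`. -/
noncomputable def chi (p : ℝ) : ℝ := phi (Psi p) * (Psi p * p + phi (Psi p))

section

variable {ι : Type*} [Fintype ι] [DecidableEq ι]

/-- `D_i(x) = X_i - max_{j ≠ i} X_j` -/
noncomputable def gapD (z : ι → E) (i : ι) (x : E) : ℝ :=
  ⟪z i, x⟫ - supI (fun j : {j // j ≠ i} => z j) x

lemma supI_midpoint {κ : Type*} [Finite κ] [Nonempty κ] (w : κ → E) (x y : E) :
    supI w ((2:ℝ)⁻¹ • (x + y)) ≤ (supI w x + supI w y) / 2 := by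
  refine supI_le w _ fun j => ?_
  rw [inner_smul_right, inner_add_right]
  have h1 := le_supI w x j
  have h2 := le_supI w y j
  linarith

lemma supI_lip {κ : Type*} [Fintype κ] [Nonempty κ] (w : κ → E) (x y : E) :
    |supI w x - supI w y| ≤ (∑ j, ‖w j‖) * ‖x - y‖ := by
  have key : ∀ x y : E, supI w x ≤ supI w y + (∑ j, ‖w j‖) * ‖x - y‖ := by
    intro x y
    refine supI_le w x fun j => ?_
    have h1 : ⟪w j, x⟫ = ⟪w j, y⟫ + ⟪w j, x - y⟫ := by rw [inner_sub_right]; ring
    have h2 : ⟪w j, x - y⟫ ≤ ‖w j‖ * ‖x - y‖ := real_inner_le_norm _ _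
    have h3 : ‖w j‖ ≤ ∑ j, ‖w j‖ :=
      Finset.single_le_sum (f := fun j => ‖w j‖) (fun j _ => norm_nonneg _) (Finset.mem_univ j)
    have h4 := le_supI w y j
    have h5 : ‖w j‖ * ‖x - y‖ ≤ (∑ j, ‖w j‖) * ‖x - y‖ :=
      mul_le_mul_of_nonneg_right h3 (norm_nonneg _)
    linarith
  rw [abs_le]
  have h1 := key x y
  have h2 := key y x
  rw [norm_sub_rev] at h2
  constructor <;> linarith

lemma gapD_lip (z : ι → E) (i : ι) [Nonempty {j // j ≠ i}] (x y : E) :
    |gapD z i x - gapD z i y| ≤ (‖z i‖ + ∑ j : {j // j ≠ i}, ‖z j‖) * ‖x - y‖ := by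
  have h1 : gapD z i x - gapD z i y = ⟪z i, x - y⟫ -
      (supI (fun j : {j // j ≠ i} => z j) x - supI (fun j : {j // j ≠ i} => z j) y) := by
    unfold gapD; rw [inner_sub_right]; ring
  rw [h1]
  refine (abs_sub _ _).trans ?_
  rw [add_mul]
  exact add_le_add (abs_real_inner_le_norm _ _) (supI_lip _ x y)

lemma gapD_midpoint (z : ι → E) (i : ι) [Nonempty {j // j ≠ i}] (x y : E) :
    (gapD z i x + gapD z i y) / 2 ≤ gapD z i ((2:ℝ)⁻¹ • (x + y)) := by
  have h := supI_midpoint (fun j : {j // j ≠ i} => z j) x y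
  unfold gapD
  rw [inner_smul_right, inner_add_right]
  linarith

lemma gapD_pos_iff (z : ι → E) (i : ι) [Nonempty {j // j ≠ i}] (x : E) :
    0 < gapD z i x ↔ x ∈ openCell z i := by
  unfold gapD openCell
  simp only [mem_ofPred_eq, sub_pos]
  constructor
  · intro h j hj
    exact (le_supI (fun j : {j // j ≠ i} => z j) x ⟨j, hj⟩).trans_lt h
  · intro h
    obtain ⟨j, hj⟩ := exists_eq_supI (fun j : {j // j ≠ i} => z j) x
    rw [← hj]
    exact h j j.2

lemma max_gapD (z : ι → E) (i : ι) [Nonempty {j // j ≠ i}] (x : E) :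
    max (gapD z i x) 0 = supI z x - supI (fun j : {j // j ≠ i} => z j) x := by
  haveI : Nonempty ι := ⟨i⟩
  unfold gapD
  have h1 : supI (fun j : {j // j ≠ i} => z j) x ≤ supI z x :=
    supI_le _ x fun j => le_supI z x j
  have h2 := le_supI z x i
  have h3 : supI z x ≤ max ⟪z i, x⟫ (supI (fun j : {j // j ≠ i} => z j) x) := by
    refine supI_le z x fun j => ?_
    by_cases hj : j = i
    · rw [hj]; exact le_max_left _ _
    · exact (le_supI (fun j : {j // j ≠ i} => z j) x ⟨j, hj⟩).trans (le_max_right _ _)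
  rcases le_total ⟪z i, x⟫ (supI (fun j : {j // j ≠ i} => z j) x) with h | h
  · rw [max_eq_right h] at h3
    rw [max_eq_right (by linarith)]
    linarith
  · rw [max_eq_left h] at h3
    rw [max_eq_left (by linarith)]
    linarith

lemma integral_max_gapD (z : ι → E) (i : ι) [Nonempty {j // j ≠ i}] :
    ∫ x, max (gapD z i x) 0 ∂stdGaussian E = F z - F (fun j : {j // j ≠ i} => z j) := by
  simp_rw [max_gapD]
  rw [F, F, integral_sub (integrable_supI _) (integrable_supI _)]

end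

namespace Crit

variable {ι : Type*} [Fintype ι] [DecidableEq ι] (c : Crit E ι)

lemma nonempty_ne (hk : 2 ≤ Fintype.card ι) (i : ι) : Nonempty {j // j ≠ i} := by
  haveI : Nontrivial ι := Fintype.one_lt_card_iff_nontrivial.1 (by omega)
  obtain ⟨j, hj⟩ := exists_ne i
  exact ⟨⟨j, hj⟩⟩

lemma gapD_add (hk : 2 ≤ Fintype.card ι) (i : ι) (x : E) (t : ℝ) :
    gapD c.z i (x + t • c.v i) = gapD c.z i x + t := by
  haveI := nonempty_ne (ι := ι) hk i
  unfold gapD supI
  simp only [inner_add_right, inner_smul_right, c.inner_v]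
  have h1 : ∀ j : {j // j ≠ i}, ⟪c.z j, x⟫ + t * ((if (j : ι) = i then (1:ℝ) else 0)
      - (Fintype.card ι : ℝ)⁻¹) = ⟪c.z j, x⟫ + (- t * (Fintype.card ι : ℝ)⁻¹) := by
    intro j
    rw [if_neg j.2]; ring
  simp_rw [h1]
  rw [← ciSup_add (Set.finite_range _).bddAbove]
  simp only [if_true]
  ring

/-- **Ehrhard gain bound** for a cell of a critical configuration. -/
theorem gain_le (hk : 2 ≤ Fintype.card ι) (i : ι) :
    (1 - (Fintype.card ι : ℝ)⁻¹) * (c.V - F (fun j : {j // j ≠ i} => c.z j)) ≤ chi (c.p i) := by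
  haveI := nonempty_ne (ι := ι) hk i
  have hset : {x | 0 < gapD c.z i x} = c.A i := by
    ext x
    exact gapD_pos_iff c.z i x
  have hflux : ∫ x in {x | 0 < gapD c.z i x}, ⟪c.v i, x⟫ ∂stdGaussian E
      = 1 - (Fintype.card ι : ℝ)⁻¹ := by
    rw [hset, c.integral_v_A]; simp
  have hpos : (0:ℝ) < 1 - (Fintype.card ι : ℝ)⁻¹ := by
    have : (2:ℝ) ≤ Fintype.card ι := by exact_mod_cast hk
    have h2 : (Fintype.card ι : ℝ)⁻¹ ≤ 2⁻¹ := by gcongr
    linarith
  have key := GainCell.gain_cell (D := gapD c.z i) (gapD_lip c.z i) (gapD_midpoint c.z i)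
    (v := c.v i) (c.gapD_add hk i) (by rw [hflux]; exact hpos)
  rw [hflux, integral_max_gapD, c.F_eq, hset] at key
  exact key

lemma p_pos (hk : 2 ≤ Fintype.card ι) (i : ι) : 0 < c.p i := by
  rcases eq_or_lt_of_le (c.p_nonneg i) with h | h
  · exfalso
    have h1 : stdGaussian E (c.A i) = 0 := (measureReal_eq_zero_iff (by finiteness)).1 h.symm
    have h2 : mom (c.A i) = 0 := by
      unfold mom
      rw [Measure.restrict_eq_zero.2 h1, integral_zero_measure]
    rw [c.mom_A] at h2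
    exact c.z_ne_zero i (by omega) h2
  · exact h

lemma p_le_half (hk : 2 ≤ Fintype.card ι) (i : ι) : c.p i ≤ 1 / 2 := by
  obtain ⟨⟨j, hj⟩⟩ := nonempty_ne (ι := ι) hk i
  have hneg : (stdGaussian E).real ((fun x : E => -x) ⁻¹' (c.A i)) = c.p i := by
    have h := stdGaussian_map (LinearIsometryEquiv.neg ℝ (E := E))
    have h2 : (stdGaussian E).map (fun x : E => -x) = stdGaussian E := h
    unfold p
    conv_rhs => rw [← h2]
    rw [map_measureReal_apply (by fun_prop) (c.measurableSet_A i)]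
  have hdisj : Disjoint (c.A i) ((fun x : E => -x) ⁻¹' (c.A i)) := by
    rw [Set.disjoint_left]
    intro x hx hx'
    have h1 := hx j hj
    have h2 : ⟪c.z j, -x⟫ < ⟪c.z i, -x⟫ := hx' j hj
    rw [inner_neg_right, inner_neg_right] at h2
    linarith
  have hm : MeasurableSet ((fun x : E => -x) ⁻¹' (c.A i)) :=
    (measurable_neg : Measurable fun x : E => -x) (c.measurableSet_A i)
  have h3 := measureReal_union (μ := stdGaussian E) hdisj hm
  have h4 : (stdGaussian E).real (c.A i ∪ (fun x : E => -x) ⁻¹' (c.A i)) ≤ 1 := measureReal_le_one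
  rw [h3, hneg] at h4
  unfold p at h4 ⊢
  linarith

/-- the half-space bound -/
theorem norm_z_le (hk : 2 ≤ Fintype.card ι) (i : ι) : ‖c.z i‖ ≤ phi (Psi (c.p i)) := by
  rw [← c.mom_A i]
  exact CM.norm_moment_le (c.p_pos hk i) (lt_of_le_of_lt (c.p_le_half hk i) (by norm_num))

/-- deletion inequality for one cell -/
theorem gain_ge (hk : 2 ≤ Fintype.card ι) (i : ι) :
    c.V - √cC * √(c.V - (1 + ((Fintype.card ι : ℝ) - 1)⁻¹) * ‖c.z i‖ ^ 2) ≤
      c.V - F (fun j : {j // j ≠ i} => c.z j) := by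
  haveI := nonempty_ne (ι := ι) hk i
  have h := (c.small i).dual.sub_mean (fun j : {j // j ≠ i} => c.z j)
  have e1 : ∑ j : {j // j ≠ i}, ‖c.z j‖ ^ 2 = c.V - ‖c.z i‖ ^ 2 := by
    rw [← c.sumsq, ← Finset.add_sum_erase _ _ (Finset.mem_univ i)]
    have : ∑ j ∈ Finset.univ.erase i, ‖c.z j‖ ^ 2 = ∑ j : {j // j ≠ i}, ‖c.z j‖ ^ 2 := by
      apply Finset.sum_subtype
      intro x; simp
    rw [← this]; ring
  have e2 : ∑ j : {j // j ≠ i}, c.z j = - c.z i := by
    rw [eq_neg_iff_add_eq_zero]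
    have : ∑ j ∈ Finset.univ.erase i, c.z j = ∑ j : {j // j ≠ i}, c.z j := by
      apply Finset.sum_subtype
      intro x; simp
    rw [← this, add_comm, Finset.add_sum_erase _ _ (Finset.mem_univ i), c.sum_z]
  have e3 : (Fintype.card {j // j ≠ i} : ℝ) = (Fintype.card ι : ℝ) - 1 := by
    rw [Fintype.card_subtype_compl, Fintype.card_subtype_eq, Nat.cast_sub (by omega)]
    simp
  rw [e1, e2, e3, norm_neg] at h
  have e4 : c.V - ‖c.z i‖ ^ 2 - ‖c.z i‖ ^ 2 / ((Fintype.card ι : ℝ) - 1)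
      = c.V - (1 + ((Fintype.card ι : ℝ) - 1)⁻¹) * ‖c.z i‖ ^ 2 := by
    rw [div_eq_mul_inv]; ring
  rw [e4] at h
  linarith

end Crit

end Crest.Agent.R215
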