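import Crest.Agent.R215.Num

/-!
# Row 215: certified values of the normal density and distribution function at some points
(generated)
-/

set_option autoImplicit false

open Crest.Agent.Lib.Ehrhard

namespace Crest.Agent.R215.Num

lemma Phi_hi_1_695 : Phi (-1.695) ≤ 0.045039 := by
  have h := Phi_neg_le (n := 9) (by decide) (x := 1.695) (by norm_num)
  have h2 : (1.14042059 : ℝ) ≤ phiT 9 1.695 := by
    norm_num [phiT, Finset.sum_range_succ, Nat.factorial]
  have h3 := c0_gt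
  nlinarith [mul_le_mul h3.le h2 (by norm_num) c0_pos.le]

lemma Phi_lo_1_695 : 0.045037 ≤ Phi (-1.695) := by
  have h := le_Phi_neg (n := 10) (by decide) (x := 1.695) (by norm_num)
  have h2 : phiT 10 1.695 ≤ (1.14042143 : ℝ) := by
    norm_num [phiT, Finset.sum_range_succ, Nat.factorial]
  have h3 := c0_lt
  have h4 : c0 * phiT 10 1.695 ≤ 0.3989423 * 1.14042143 := by
    refine (mul_le_mul_of_nonneg_left h2 c0_pos.le).trans ?_
    exact mul_le_mul_of_nonneg_right h3.le (by norm_num)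
  norm_num at h4 h ⊢
  linarith

lemma phi_hi_1_695 : phi (-1.695) ≤ 0.094852 := by
  rw [phi_eq_c0]
  have e : ((-1.695 : ℝ)) ^ 2 / 2 = 1.695 ^ 2 / 2 := by norm_num
  rw [e]
  have h := exp_le_expT (n := 10) (by decide) (u := 1.695 ^ 2 / 2) (by norm_num)
  have h2 : expT 10 (1.695 ^ 2 / 2) ≤ (0.23775669 : ℝ) := by
    norm_num [expT, Finset.sum_range_succ, Nat.factorial]
  have h3 := c0_lt
  have h5 := h.trans h2
  have h4 : c0 * Real.exp (-(1.695 ^ 2 / 2)) ≤ 0.3989423 * 0.23775669 := by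
    refine (mul_le_mul_of_nonneg_left h5 c0_pos.le).trans ?_
    exact mul_le_mul_of_nonneg_right h3.le (by norm_num)
  refine h4.trans ?_
  norm_num

lemma phi_lo_1_695 : 0.094850 ≤ phi (-1.695) := by
  rw [phi_eq_c0]
  have e : ((-1.695 : ℝ)) ^ 2 / 2 = 1.695 ^ 2 / 2 := by norm_num
  rw [e]
  have h := expT_le_exp (n := 11) (by decide) (u := 1.695 ^ 2 / 2) (by norm_num)
  have h2 : (0.23775534 : ℝ) ≤ expT 11 (1.695 ^ 2 / 2) := by
    norm_num [expT, Finset.sum_range_succ, Nat.factorial]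
  have h3 := c0_gt
  have h5 := h2.trans h
  refine le_trans ?_ (mul_le_mul h3.le h5 (by norm_num) c0_pos.le)
  norm_num

lemma Phi_hi_1_405 : Phi (-1.405) ≤ 0.080011 := by
  have h := Phi_neg_le (n := 9) (by decide) (x := 1.405) (by norm_num)
  have h2 : (1.05275719 : ℝ) ≤ phiT 9 1.405 := by
    norm_num [phiT, Finset.sum_range_succ, Nat.factorial]
  have h3 := c0_gt
  nlinarith [mul_le_mul h3.le h2 (by norm_num) c0_pos.le]

lemma Phi_lo_1_405 : 0.080010 ≤ Phi (-1.405) := by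
  have h := le_Phi_neg (n := 8) (by decide) (x := 1.405) (by norm_num)
  have h2 : phiT 8 1.405 ≤ (1.05275738 : ℝ) := by
    norm_num [phiT, Finset.sum_range_succ, Nat.factorial]
  have h3 := c0_lt
  have h4 : c0 * phiT 8 1.405 ≤ 0.3989423 * 1.05275738 := by
    refine (mul_le_mul_of_nonneg_left h2 c0_pos.le).trans ?_
    exact mul_le_mul_of_nonneg_right h3.le (by norm_num)
  norm_num at h4 h ⊢
  linarith

lemma phi_hi_1_405 : phi (-1.405) ≤ 0.148682 := by
  rw [phi_eq_c0]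
  have e : ((-1.405 : ℝ)) ^ 2 / 2 = 1.405 ^ 2 / 2 := by norm_num
  rw [e]
  have h := exp_le_expT (n := 10) (by decide) (u := 1.405 ^ 2 / 2) (by norm_num)
  have h2 : expT 10 (1.405 ^ 2 / 2) ≤ (0.37268846 : ℝ) := by
    norm_num [expT, Finset.sum_range_succ, Nat.factorial]
  have h3 := c0_lt
  have h5 := h.trans h2
  have h4 : c0 * Real.exp (-(1.405 ^ 2 / 2)) ≤ 0.3989423 * 0.37268846 := by
    refine (mul_le_mul_of_nonneg_left h5 c0_pos.le).trans ?_
    exact mul_le_mul_of_nonneg_right h3.le (by norm_num)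
  refine h4.trans ?_
  norm_num

lemma phi_lo_1_405 : 0.148681 ≤ phi (-1.405) := by
  rw [phi_eq_c0]
  have e : ((-1.405 : ℝ)) ^ 2 / 2 = 1.405 ^ 2 / 2 := by norm_num
  rw [e]
  have h := expT_le_exp (n := 9) (by decide) (u := 1.405 ^ 2 / 2) (by norm_num)
  have h2 : (0.37268821 : ℝ) ≤ expT 9 (1.405 ^ 2 / 2) := by
    norm_num [expT, Finset.sum_range_succ, Nat.factorial]
  have h3 := c0_gt
  have h5 := h2.trans h
  refine le_trans ?_ (mul_le_mul h3.le h5 (by norm_num) c0_pos.le)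
  norm_num

lemma Phi_hi_1_175 : Phi (-1.175) ≤ 0.119998 := by
  have h := Phi_neg_le (n := 7) (by decide) (x := 1.175) (by norm_num)
  have h2 : (0.95252528 : ℝ) ≤ phiT 7 1.175 := by
    norm_num [phiT, Finset.sum_range_succ, Nat.factorial]
  have h3 := c0_gt
  nlinarith [mul_le_mul h3.le h2 (by norm_num) c0_pos.le]

lemma Phi_lo_1_175 : 0.119996 ≤ Phi (-1.175) := by
  have h := le_Phi_neg (n := 6) (by decide) (x := 1.175) (by norm_num)
  have h2 : phiT 6 1.175 ≤ (0.95252645 : ℝ) := by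
    norm_num [phiT, Finset.sum_range_succ, Nat.factorial]
  have h3 := c0_lt
  have h4 : c0 * phiT 6 1.175 ≤ 0.3989423 * 0.95252645 := by
    refine (mul_le_mul_of_nonneg_left h2 c0_pos.le).trans ?_
    exact mul_le_mul_of_nonneg_right h3.le (by norm_num)
  norm_num at h4 h ⊢
  linarith

lemma phi_hi_1_175 : phi (-1.175) ≤ 0.200038 := by
  rw [phi_eq_c0]
  have e : ((-1.175 : ℝ)) ^ 2 / 2 = 1.175 ^ 2 / 2 := by norm_num
  rw [e]
  have h := exp_le_expT (n := 8) (by decide) (u := 1.175 ^ 2 / 2) (by norm_num)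
  have h2 : expT 8 (1.175 ^ 2 / 2) ≤ (0.50141945 : ℝ) := by
    norm_num [expT, Finset.sum_range_succ, Nat.factorial]
  have h3 := c0_lt
  have h5 := h.trans h2
  have h4 : c0 * Real.exp (-(1.175 ^ 2 / 2)) ≤ 0.3989423 * 0.50141945 := by
    refine (mul_le_mul_of_nonneg_left h5 c0_pos.le).trans ?_
    exact mul_le_mul_of_nonneg_right h3.le (by norm_num)
  refine h4.trans ?_
  norm_num

lemma phi_lo_1_175 : 0.200036 ≤ phi (-1.175) := by
  rw [phi_eq_c0]
  have e : ((-1.175 : ℝ)) ^ 2 / 2 = 1.175 ^ 2 / 2 := by norm_num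
  rw [e]
  have h := expT_le_exp (n := 7) (by decide) (u := 1.175 ^ 2 / 2) (by norm_num)
  have h2 : (0.50141816 : ℝ) ≤ expT 7 (1.175 ^ 2 / 2) := by
    norm_num [expT, Finset.sum_range_succ, Nat.factorial]
  have h3 := c0_gt
  have h5 := h2.trans h
  refine le_trans ?_ (mul_le_mul h3.le h5 (by norm_num) c0_pos.le)
  norm_num

lemma Phi_hi_1_036 : Phi (-1.036) ≤ 0.150102 := by
  have h := Phi_neg_le (n := 7) (by decide) (x := 1.036) (by norm_num)
  have h2 : (0.87706653 : ℝ) ≤ phiT 7 1.036 := by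
    norm_num [phiT, Finset.sum_range_succ, Nat.factorial]
  have h3 := c0_gt
  nlinarith [mul_le_mul h3.le h2 (by norm_num) c0_pos.le]

lemma Phi_lo_1_036 : 0.150100 ≤ Phi (-1.036) := by
  have h := le_Phi_neg (n := 6) (by decide) (x := 1.036) (by norm_num)
  have h2 : phiT 6 1.036 ≤ (0.87706672 : ℝ) := by
    norm_num [phiT, Finset.sum_range_succ, Nat.factorial]
  have h3 := c0_lt
  have h4 : c0 * phiT 6 1.036 ≤ 0.3989423 * 0.87706672 := by
    refine (mul_le_mul_of_nonneg_left h2 c0_pos.le).trans ?_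
    exact mul_le_mul_of_nonneg_right h3.le (by norm_num)
  norm_num at h4 h ⊢
  linarith

lemma phi_hi_1_036 : phi (-1.036) ≤ 0.233264 := by
  rw [phi_eq_c0]
  have e : ((-1.036 : ℝ)) ^ 2 / 2 = 1.036 ^ 2 / 2 := by norm_num
  rw [e]
  have h := exp_le_expT (n := 8) (by decide) (u := 1.036 ^ 2 / 2) (by norm_num)
  have h2 : expT 8 (1.036 ^ 2 / 2) ≤ (0.58470492 : ℝ) := by
    norm_num [expT, Finset.sum_range_succ, Nat.factorial]
  have h3 := c0_lt
  have h5 := h.trans h2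
  have h4 : c0 * Real.exp (-(1.036 ^ 2 / 2)) ≤ 0.3989423 * 0.58470492 := by
    refine (mul_le_mul_of_nonneg_left h5 c0_pos.le).trans ?_
    exact mul_le_mul_of_nonneg_right h3.le (by norm_num)
  refine h4.trans ?_
  norm_num

lemma phi_lo_1_036 : 0.233263 ≤ phi (-1.036) := by
  rw [phi_eq_c0]
  have e : ((-1.036 : ℝ)) ^ 2 / 2 = 1.036 ^ 2 / 2 := by norm_num
  rw [e]
  have h := expT_le_exp (n := 7) (by decide) (u := 1.036 ^ 2 / 2) (by norm_num)
  have h2 : (0.58470474 : ℝ) ≤ expT 7 (1.036 ^ 2 / 2) := by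
    norm_num [expT, Finset.sum_range_succ, Nat.factorial]
  have h3 := c0_gt
  have h5 := h2.trans h
  refine le_trans ?_ (mul_le_mul h3.le h5 (by norm_num) c0_pos.le)
  norm_num

lemma Phi_hi_0_915 : Phi (-0.915) ≤ 0.180097 := by
  have h := Phi_neg_le (n := 5) (by decide) (x := 0.915) (by norm_num)
  have h2 : (0.80188037 : ℝ) ≤ phiT 5 0.915 := by
    norm_num [phiT, Finset.sum_range_succ, Nat.factorial]
  have h3 := c0_gt
  nlinarith [mul_le_mul h3.le h2 (by norm_num) c0_pos.le]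

lemma Phi_lo_0_915 : 0.180095 ≤ Phi (-0.915) := by
  have h := le_Phi_neg (n := 6) (by decide) (x := 0.915) (by norm_num)
  have h2 : phiT 6 0.915 ≤ (0.80188091 : ℝ) := by
    norm_num [phiT, Finset.sum_range_succ, Nat.factorial]
  have h3 := c0_lt
  have h4 : c0 * phiT 6 0.915 ≤ 0.3989423 * 0.80188091 := by
    refine (mul_le_mul_of_nonneg_left h2 c0_pos.le).trans ?_
    exact mul_le_mul_of_nonneg_right h3.le (by norm_num)
  norm_num at h4 h ⊢
  linarith

lemma phi_hi_0_915 : phi (-0.915) ≤ 0.262488 := by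
  rw [phi_eq_c0]
  have e : ((-0.915 : ℝ)) ^ 2 / 2 = 0.915 ^ 2 / 2 := by norm_num
  rw [e]
  have h := exp_le_expT (n := 6) (by decide) (u := 0.915 ^ 2 / 2) (by norm_num)
  have h2 : expT 6 (0.915 ^ 2 / 2) ≤ (0.65795953 : ℝ) := by
    norm_num [expT, Finset.sum_range_succ, Nat.factorial]
  have h3 := c0_lt
  have h5 := h.trans h2
  have h4 : c0 * Real.exp (-(0.915 ^ 2 / 2)) ≤ 0.3989423 * 0.65795953 := by
    refine (mul_le_mul_of_nonneg_left h5 c0_pos.le).trans ?_
    exact mul_le_mul_of_nonneg_right h3.le (by norm_num)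
  refine h4.trans ?_
  norm_num

lemma phi_lo_0_915 : 0.262487 ≤ phi (-0.915) := by
  rw [phi_eq_c0]
  have e : ((-0.915 : ℝ)) ^ 2 / 2 = 0.915 ^ 2 / 2 := by norm_num
  rw [e]
  have h := expT_le_exp (n := 7) (by decide) (u := 0.915 ^ 2 / 2) (by norm_num)
  have h2 : (0.65795908 : ℝ) ≤ expT 7 (0.915 ^ 2 / 2) := by
    norm_num [expT, Finset.sum_range_succ, Nat.factorial]
  have h3 := c0_gt
  have h5 := h2.trans h
  refine le_trans ?_ (mul_le_mul h3.le h5 (by norm_num) c0_pos.le)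
  norm_num

lemma Phi_hi_0_878 : Phi (-0.878) ≤ 0.189973 := by
  have h := Phi_neg_le (n := 5) (by decide) (x := 0.878) (by norm_num)
  have h2 : (0.77712500 : ℝ) ≤ phiT 5 0.878 := by
    norm_num [phiT, Finset.sum_range_succ, Nat.factorial]
  have h3 := c0_gt
  nlinarith [mul_le_mul h3.le h2 (by norm_num) c0_pos.le]

lemma Phi_lo_0_878 : 0.189971 ≤ Phi (-0.878) := by
  have h := le_Phi_neg (n := 6) (by decide) (x := 0.878) (by norm_num)
  have h2 : phiT 6 0.878 ≤ (0.77712532 : ℝ) := by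
    norm_num [phiT, Finset.sum_range_succ, Nat.factorial]
  have h3 := c0_lt
  have h4 : c0 * phiT 6 0.878 ≤ 0.3989423 * 0.77712532 := by
    refine (mul_le_mul_of_nonneg_left h2 c0_pos.le).trans ?_
    exact mul_le_mul_of_nonneg_right h3.le (by norm_num)
  norm_num at h4 h ⊢
  linarith

lemma phi_hi_0_878 : phi (-0.878) ≤ 0.271341 := by
  rw [phi_eq_c0]
  have e : ((-0.878 : ℝ)) ^ 2 / 2 = 0.878 ^ 2 / 2 := by norm_num
  rw [e]
  have h := exp_le_expT (n := 6) (by decide) (u := 0.878 ^ 2 / 2) (by norm_num)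
  have h2 : expT 6 (0.878 ^ 2 / 2) ≤ (0.68015019 : ℝ) := by
    norm_num [expT, Finset.sum_range_succ, Nat.factorial]
  have h3 := c0_lt
  have h5 := h.trans h2
  have h4 : c0 * Real.exp (-(0.878 ^ 2 / 2)) ≤ 0.3989423 * 0.68015019 := by
    refine (mul_le_mul_of_nonneg_left h5 c0_pos.le).trans ?_
    exact mul_le_mul_of_nonneg_right h3.le (by norm_num)
  refine h4.trans ?_
  norm_num

lemma phi_lo_0_878 : 0.271340 ≤ phi (-0.878) := by
  rw [phi_eq_c0]
  have e : ((-0.878 : ℝ)) ^ 2 / 2 = 0.878 ^ 2 / 2 := by norm_num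
  rw [e]
  have h := expT_le_exp (n := 7) (by decide) (u := 0.878 ^ 2 / 2) (by norm_num)
  have h2 : (0.68014993 : ℝ) ≤ expT 7 (0.878 ^ 2 / 2) := by
    norm_num [expT, Finset.sum_range_succ, Nat.factorial]
  have h3 := c0_gt
  have h5 := h2.trans h
  refine le_trans ?_ (mul_le_mul h3.le h5 (by norm_num) c0_pos.le)
  norm_num

lemma Phi_hi_0_842 : Phi (-0.842) ≤ 0.199895 := by
  have h := Phi_neg_le (n := 5) (by decide) (x := 0.842) (by norm_num)
  have h2 : (0.75225407 : ℝ) ≤ phiT 5 0.842 := by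
    norm_num [phiT, Finset.sum_range_succ, Nat.factorial]
  have h3 := c0_gt
  nlinarith [mul_le_mul h3.le h2 (by norm_num) c0_pos.le]

lemma Phi_lo_0_842 : 0.199893 ≤ Phi (-0.842) := by
  have h := le_Phi_neg (n := 6) (by decide) (x := 0.842) (by norm_num)
  have h2 : phiT 6 0.842 ≤ (0.75225426 : ℝ) := by
    norm_num [phiT, Finset.sum_range_succ, Nat.factorial]
  have h3 := c0_lt
  have h4 : c0 * phiT 6 0.842 ≤ 0.3989423 * 0.75225426 := by
    refine (mul_le_mul_of_nonneg_left h2 c0_pos.le).trans ?_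
    exact mul_le_mul_of_nonneg_right h3.le (by norm_num)
  norm_num at h4 h ⊢
  linarith

lemma phi_hi_0_842 : phi (-0.842) ≤ 0.279873 := by
  rw [phi_eq_c0]
  have e : ((-0.842 : ℝ)) ^ 2 / 2 = 0.842 ^ 2 / 2 := by norm_num
  rw [e]
  have h := exp_le_expT (n := 6) (by decide) (u := 0.842 ^ 2 / 2) (by norm_num)
  have h2 : expT 6 (0.842 ^ 2 / 2) ≤ (0.70153688 : ℝ) := by
    norm_num [expT, Finset.sum_range_succ, Nat.factorial]
  have h3 := c0_lt
  have h5 := h.trans h2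
  have h4 : c0 * Real.exp (-(0.842 ^ 2 / 2)) ≤ 0.3989423 * 0.70153688 := by
    refine (mul_le_mul_of_nonneg_left h5 c0_pos.le).trans ?_
    exact mul_le_mul_of_nonneg_right h3.le (by norm_num)
  refine h4.trans ?_
  norm_num

lemma phi_lo_0_842 : 0.279872 ≤ phi (-0.842) := by
  rw [phi_eq_c0]
  have e : ((-0.842 : ℝ)) ^ 2 / 2 = 0.842 ^ 2 / 2 := by norm_num
  rw [e]
  have h := expT_le_exp (n := 7) (by decide) (u := 0.842 ^ 2 / 2) (by norm_num)
  have h2 : (0.70153673 : ℝ) ≤ expT 7 (0.842 ^ 2 / 2) := by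
    norm_num [expT, Finset.sum_range_succ, Nat.factorial]
  have h3 := c0_gt
  have h5 := h2.trans h
  refine le_trans ?_ (mul_le_mul h3.le h5 (by norm_num) c0_pos.le)
  norm_num

lemma Phi_hi_0_675 : Phi (-0.675) ≤ 0.249838 := by
  have h := Phi_neg_le (n := 5) (by decide) (x := 0.675) (by norm_num)
  have h2 : (0.62706342 : ℝ) ≤ phiT 5 0.675 := by
    norm_num [phiT, Finset.sum_range_succ, Nat.factorial]
  have h3 := c0_gt
  nlinarith [mul_le_mul h3.le h2 (by norm_num) c0_pos.le]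

lemma Phi_lo_0_675 : 0.249837 ≤ Phi (-0.675) := by
  have h := le_Phi_neg (n := 4) (by decide) (x := 0.675) (by norm_num)
  have h2 : phiT 4 0.675 ≤ (0.62706375 : ℝ) := by
    norm_num [phiT, Finset.sum_range_succ, Nat.factorial]
  have h3 := c0_lt
  have h4 : c0 * phiT 4 0.675 ≤ 0.3989423 * 0.62706375 := by
    refine (mul_le_mul_of_nonneg_left h2 c0_pos.le).trans ?_
    exact mul_le_mul_of_nonneg_right h3.le (by norm_num)
  norm_num at h4 h ⊢
  linarith

lemma phi_hi_0_675 : phi (-0.675) ≤ 0.317668 := by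
  rw [phi_eq_c0]
  have e : ((-0.675 : ℝ)) ^ 2 / 2 = 0.675 ^ 2 / 2 := by norm_num
  rw [e]
  have h := exp_le_expT (n := 6) (by decide) (u := 0.675 ^ 2 / 2) (by norm_num)
  have h2 : expT 6 (0.675 ^ 2 / 2) ≤ (0.79627356 : ℝ) := by
    norm_num [expT, Finset.sum_range_succ, Nat.factorial]
  have h3 := c0_lt
  have h5 := h.trans h2
  have h4 : c0 * Real.exp (-(0.675 ^ 2 / 2)) ≤ 0.3989423 * 0.79627356 := by
    refine (mul_le_mul_of_nonneg_left h5 c0_pos.le).trans ?_
    exact mul_le_mul_of_nonneg_right h3.le (by norm_num)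
  refine h4.trans ?_
  norm_num

lemma phi_lo_0_675 : 0.317667 ≤ phi (-0.675) := by
  rw [phi_eq_c0]
  have e : ((-0.675 : ℝ)) ^ 2 / 2 = 0.675 ^ 2 / 2 := by norm_num
  rw [e]
  have h := expT_le_exp (n := 5) (by decide) (u := 0.675 ^ 2 / 2) (by norm_num)
  have h2 : (0.79627335 : ℝ) ≤ expT 5 (0.675 ^ 2 / 2) := by
    norm_num [expT, Finset.sum_range_succ, Nat.factorial]
  have h3 := c0_gt
  have h5 := h2.trans h
  refine le_trans ?_ (mul_le_mul h3.le h5 (by norm_num) c0_pos.le)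
  norm_num

lemma Phi_hi_0_517 : Phi (-0.517) ≤ 0.302579 := by
  have h := Phi_neg_le (n := 3) (by decide) (x := 0.517) (by norm_num)
  have h2 : (0.49486262 : ℝ) ≤ phiT 3 0.517 := by
    norm_num [phiT, Finset.sum_range_succ, Nat.factorial]
  have h3 := c0_gt
  nlinarith [mul_le_mul h3.le h2 (by norm_num) c0_pos.le]

lemma Phi_lo_0_517 : 0.302578 ≤ Phi (-0.517) := by
  have h := le_Phi_neg (n := 4) (by decide) (x := 0.517) (by norm_num)
  have h2 : phiT 4 0.517 ≤ (0.49486339 : ℝ) := by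
    norm_num [phiT, Finset.sum_range_succ, Nat.factorial]
  have h3 := c0_lt
  have h4 : c0 * phiT 4 0.517 ≤ 0.3989423 * 0.49486339 := by
    refine (mul_le_mul_of_nonneg_left h2 c0_pos.le).trans ?_
    exact mul_le_mul_of_nonneg_right h3.le (by norm_num)
  norm_num at h4 h ⊢
  linarith

lemma phi_hi_0_517 : phi (-0.517) ≤ 0.349036 := by
  rw [phi_eq_c0]
  have e : ((-0.517 : ℝ)) ^ 2 / 2 = 0.517 ^ 2 / 2 := by norm_num
  rw [e]
  have h := exp_le_expT (n := 4) (by decide) (u := 0.517 ^ 2 / 2) (by norm_num)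
  have h2 : expT 4 (0.517 ^ 2 / 2) ≤ (0.87490139 : ℝ) := by
    norm_num [expT, Finset.sum_range_succ, Nat.factorial]
  have h3 := c0_lt
  have h5 := h.trans h2
  have h4 : c0 * Real.exp (-(0.517 ^ 2 / 2)) ≤ 0.3989423 * 0.87490139 := by
    refine (mul_le_mul_of_nonneg_left h5 c0_pos.le).trans ?_
    exact mul_le_mul_of_nonneg_right h3.le (by norm_num)
  refine h4.trans ?_
  norm_num

lemma phi_lo_0_517 : 0.349034 ≤ phi (-0.517) := by
  rw [phi_eq_c0]
  have e : ((-0.517 : ℝ)) ^ 2 / 2 = 0.517 ^ 2 / 2 := by norm_num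
  rw [e]
  have h := expT_le_exp (n := 5) (by decide) (u := 0.517 ^ 2 / 2) (by norm_num)
  have h2 : (0.87490102 : ℝ) ≤ expT 5 (0.517 ^ 2 / 2) := by
    norm_num [expT, Finset.sum_range_succ, Nat.factorial]
  have h3 := c0_gt
  have h5 := h2.trans h
  refine le_trans ?_ (mul_le_mul h3.le h5 (by norm_num) c0_pos.le)
  norm_num

lemma Phi_hi_0_498 : Phi (-0.498) ≤ 0.309243 := by
  have h := Phi_neg_le (n := 3) (by decide) (x := 0.498) (by norm_num)
  have h2 : (0.47815880 : ℝ) ≤ phiT 3 0.498 := by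
    norm_num [phiT, Finset.sum_range_succ, Nat.factorial]
  have h3 := c0_gt
  nlinarith [mul_le_mul h3.le h2 (by norm_num) c0_pos.le]

lemma Phi_lo_0_498 : 0.309242 ≤ Phi (-0.498) := by
  have h := le_Phi_neg (n := 4) (by decide) (x := 0.498) (by norm_num)
  have h2 : phiT 4 0.498 ≤ (0.47815936 : ℝ) := by
    norm_num [phiT, Finset.sum_range_succ, Nat.factorial]
  have h3 := c0_lt
  have h4 : c0 * phiT 4 0.498 ≤ 0.3989423 * 0.47815936 := by
    refine (mul_le_mul_of_nonneg_left h2 c0_pos.le).trans ?_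
    exact mul_le_mul_of_nonneg_right h3.le (by norm_num)
  norm_num at h4 h ⊢
  linarith

lemma phi_hi_0_498 : phi (-0.498) ≤ 0.352417 := by
  rw [phi_eq_c0]
  have e : ((-0.498 : ℝ)) ^ 2 / 2 = 0.498 ^ 2 / 2 := by norm_num
  rw [e]
  have h := exp_le_expT (n := 4) (by decide) (u := 0.498 ^ 2 / 2) (by norm_num)
  have h2 : expT 4 (0.498 ^ 2 / 2) ≤ (0.88337832 : ℝ) := by
    norm_num [expT, Finset.sum_range_succ, Nat.factorial]
  have h3 := c0_lt
  have h5 := h.trans h2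
  have h4 : c0 * Real.exp (-(0.498 ^ 2 / 2)) ≤ 0.3989423 * 0.88337832 := by
    refine (mul_le_mul_of_nonneg_left h5 c0_pos.le).trans ?_
    exact mul_le_mul_of_nonneg_right h3.le (by norm_num)
  refine h4.trans ?_
  norm_num

lemma phi_lo_0_498 : 0.352416 ≤ phi (-0.498) := by
  rw [phi_eq_c0]
  have e : ((-0.498 : ℝ)) ^ 2 / 2 = 0.498 ^ 2 / 2 := by norm_num
  rw [e]
  have h := expT_le_exp (n := 5) (by decide) (u := 0.498 ^ 2 / 2) (by norm_num)
  have h2 : (0.88337806 : ℝ) ≤ expT 5 (0.498 ^ 2 / 2) := by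
    norm_num [expT, Finset.sum_range_succ, Nat.factorial]
  have h3 := c0_gt
  have h5 := h2.trans h
  refine le_trans ?_ (mul_le_mul h3.le h5 (by norm_num) c0_pos.le)
  norm_num

lemma Phi_hi_0_483 : Phi (-0.483) ≤ 0.314549 := by
  have h := Phi_neg_le (n := 3) (by decide) (x := 0.483) (by norm_num)
  have h2 : (0.46485915 : ℝ) ≤ phiT 3 0.483 := by
    norm_num [phiT, Finset.sum_range_succ, Nat.factorial]
  have h3 := c0_gt
  nlinarith [mul_le_mul h3.le h2 (by norm_num) c0_pos.le]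

lemma Phi_lo_0_483 : 0.314547 ≤ Phi (-0.483) := by
  have h := le_Phi_neg (n := 4) (by decide) (x := 0.483) (by norm_num)
  have h2 : phiT 4 0.483 ≤ (0.46485957 : ℝ) := by
    norm_num [phiT, Finset.sum_range_succ, Nat.factorial]
  have h3 := c0_lt
  have h4 : c0 * phiT 4 0.483 ≤ 0.3989423 * 0.46485957 := by
    refine (mul_le_mul_of_nonneg_left h2 c0_pos.le).trans ?_
    exact mul_le_mul_of_nonneg_right h3.le (by norm_num)
  norm_num at h4 h ⊢
  linarith

lemma phi_hi_0_483 : phi (-0.483) ≤ 0.355020 := by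
  rw [phi_eq_c0]
  have e : ((-0.483 : ℝ)) ^ 2 / 2 = 0.483 ^ 2 / 2 := by norm_num
  rw [e]
  have h := exp_le_expT (n := 4) (by decide) (u := 0.483 ^ 2 / 2) (by norm_num)
  have h2 : expT 4 (0.483 ^ 2 / 2) ≤ (0.88990168 : ℝ) := by
    norm_num [expT, Finset.sum_range_succ, Nat.factorial]
  have h3 := c0_lt
  have h5 := h.trans h2
  have h4 : c0 * Real.exp (-(0.483 ^ 2 / 2)) ≤ 0.3989423 * 0.88990168 := by
    refine (mul_le_mul_of_nonneg_left h5 c0_pos.le).trans ?_
    exact mul_le_mul_of_nonneg_right h3.le (by norm_num)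
  refine h4.trans ?_
  norm_num

lemma phi_lo_0_483 : 0.355019 ≤ phi (-0.483) := by
  rw [phi_eq_c0]
  have e : ((-0.483 : ℝ)) ^ 2 / 2 = 0.483 ^ 2 / 2 := by norm_num
  rw [e]
  have h := expT_le_exp (n := 5) (by decide) (u := 0.483 ^ 2 / 2) (by norm_num)
  have h2 : (0.88990149 : ℝ) ≤ expT 5 (0.483 ^ 2 / 2) := by
    norm_num [expT, Finset.sum_range_succ, Nat.factorial]
  have h3 := c0_gt
  have h5 := h2.trans h
  refine le_trans ?_ (mul_le_mul h3.le h5 (by norm_num) c0_pos.le)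
  norm_num

lemma Phi_hi_0_385 : Phi (-0.385) ≤ 0.350119 := by
  have h := Phi_neg_le (n := 3) (by decide) (x := 0.385) (by norm_num)
  have h2 : (0.37569663 : ℝ) ≤ phiT 3 0.385 := by
    norm_num [phiT, Finset.sum_range_succ, Nat.factorial]
  have h3 := c0_gt
  nlinarith [mul_le_mul h3.le h2 (by norm_num) c0_pos.le]

lemma Phi_lo_0_385 : 0.350118 ≤ Phi (-0.385) := by
  have h := le_Phi_neg (n := 4) (by decide) (x := 0.385) (by norm_num)
  have h2 : phiT 4 0.385 ≤ (0.37569669 : ℝ) := by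
    norm_num [phiT, Finset.sum_range_succ, Nat.factorial]
  have h3 := c0_lt
  have h4 : c0 * phiT 4 0.385 ≤ 0.3989423 * 0.37569669 := by
    refine (mul_le_mul_of_nonneg_left h2 c0_pos.le).trans ?_
    exact mul_le_mul_of_nonneg_right h3.le (by norm_num)
  norm_num at h4 h ⊢
  linarith

lemma phi_hi_0_385 : phi (-0.385) ≤ 0.370445 := by
  rw [phi_eq_c0]
  have e : ((-0.385 : ℝ)) ^ 2 / 2 = 0.385 ^ 2 / 2 := by norm_num
  rw [e]
  have h := exp_le_expT (n := 4) (by decide) (u := 0.385 ^ 2 / 2) (by norm_num)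
  have h2 : expT 4 (0.385 ^ 2 / 2) ≤ (0.92856725 : ℝ) := by
    norm_num [expT, Finset.sum_range_succ, Nat.factorial]
  have h3 := c0_lt
  have h5 := h.trans h2
  have h4 : c0 * Real.exp (-(0.385 ^ 2 / 2)) ≤ 0.3989423 * 0.92856725 := by
    refine (mul_le_mul_of_nonneg_left h5 c0_pos.le).trans ?_
    exact mul_le_mul_of_nonneg_right h3.le (by norm_num)
  refine h4.trans ?_
  norm_num

lemma phi_lo_0_385 : 0.370444 ≤ phi (-0.385) := by
  rw [phi_eq_c0]
  have e : ((-0.385 : ℝ)) ^ 2 / 2 = 0.385 ^ 2 / 2 := by norm_num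
  rw [e]
  have h := expT_le_exp (n := 3) (by decide) (u := 0.385 ^ 2 / 2) (by norm_num)
  have h2 : (0.92856598 : ℝ) ≤ expT 3 (0.385 ^ 2 / 2) := by
    norm_num [expT, Finset.sum_range_succ, Nat.factorial]
  have h3 := c0_gt
  have h5 := h2.trans h
  refine le_trans ?_ (mul_le_mul h3.le h5 (by norm_num) c0_pos.le)
  norm_num

lemma Phi_hi_0_364 : Phi (-0.364) ≤ 0.357930 := by
  have h := Phi_neg_le (n := 3) (by decide) (x := 0.364) (by norm_num)
  have h2 : (0.35611914 : ℝ) ≤ phiT 3 0.364 := by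
    norm_num [phiT, Finset.sum_range_succ, Nat.factorial]
  have h3 := c0_gt
  nlinarith [mul_le_mul h3.le h2 (by norm_num) c0_pos.le]

lemma Phi_lo_0_364 : 0.357928 ≤ Phi (-0.364) := by
  have h := le_Phi_neg (n := 4) (by decide) (x := 0.364) (by norm_num)
  have h2 : phiT 4 0.364 ≤ (0.35611918 : ℝ) := by
    norm_num [phiT, Finset.sum_range_succ, Nat.factorial]
  have h3 := c0_lt
  have h4 : c0 * phiT 4 0.364 ≤ 0.3989423 * 0.35611918 := by
    refine (mul_le_mul_of_nonneg_left h2 c0_pos.le).trans ?_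
    exact mul_le_mul_of_nonneg_right h3.le (by norm_num)
  norm_num at h4 h ⊢
  linarith

lemma phi_hi_0_364 : phi (-0.364) ≤ 0.373370 := by
  rw [phi_eq_c0]
  have e : ((-0.364 : ℝ)) ^ 2 / 2 = 0.364 ^ 2 / 2 := by norm_num
  rw [e]
  have h := exp_le_expT (n := 4) (by decide) (u := 0.364 ^ 2 / 2) (by norm_num)
  have h2 : expT 4 (0.364 ^ 2 / 2) ≤ (0.93589875 : ℝ) := by
    norm_num [expT, Finset.sum_range_succ, Nat.factorial]
  have h3 := c0_lt
  have h5 := h.trans h2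
  have h4 : c0 * Real.exp (-(0.364 ^ 2 / 2)) ≤ 0.3989423 * 0.93589875 := by
    refine (mul_le_mul_of_nonneg_left h5 c0_pos.le).trans ?_
    exact mul_le_mul_of_nonneg_right h3.le (by norm_num)
  refine h4.trans ?_
  norm_num

lemma phi_lo_0_364 : 0.373369 ≤ phi (-0.364) := by
  rw [phi_eq_c0]
  have e : ((-0.364 : ℝ)) ^ 2 / 2 = 0.364 ^ 2 / 2 := by norm_num
  rw [e]
  have h := expT_le_exp (n := 3) (by decide) (u := 0.364 ^ 2 / 2) (by norm_num)
  have h2 : (0.93589794 : ℝ) ≤ expT 3 (0.364 ^ 2 / 2) := by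
    norm_num [expT, Finset.sum_range_succ, Nat.factorial]
  have h3 := c0_gt
  have h5 := h2.trans h
  refine le_trans ?_ (mul_le_mul h3.le h5 (by norm_num) c0_pos.le)
  norm_num

lemma Phi_hi_0_368 : Phi (-0.368) ≤ 0.356437 := by
  have h := Phi_neg_le (n := 3) (by decide) (x := 0.368) (by norm_num)
  have h2 : (0.35985999 : ℝ) ≤ phiT 3 0.368 := by
    norm_num [phiT, Finset.sum_range_succ, Nat.factorial]
  have h3 := c0_gt
  nlinarith [mul_le_mul h3.le h2 (by norm_num) c0_pos.le]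

lemma Phi_lo_0_368 : 0.356436 ≤ Phi (-0.368) := by
  have h := le_Phi_neg (n := 4) (by decide) (x := 0.368) (by norm_num)
  have h2 : phiT 4 0.368 ≤ (0.35986004 : ℝ) := by
    norm_num [phiT, Finset.sum_range_succ, Nat.factorial]
  have h3 := c0_lt
  have h4 : c0 * phiT 4 0.368 ≤ 0.3989423 * 0.35986004 := by
    refine (mul_le_mul_of_nonneg_left h2 c0_pos.le).trans ?_
    exact mul_le_mul_of_nonneg_right h3.le (by norm_num)
  norm_num at h4 h ⊢
  linarith

lemma phi_hi_0_368 : phi (-0.368) ≤ 0.372824 := by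
  rw [phi_eq_c0]
  have e : ((-0.368 : ℝ)) ^ 2 / 2 = 0.368 ^ 2 / 2 := by norm_num
  rw [e]
  have h := exp_le_expT (n := 4) (by decide) (u := 0.368 ^ 2 / 2) (by norm_num)
  have h2 : expT 4 (0.368 ^ 2 / 2) ≤ (0.93452960 : ℝ) := by
    norm_num [expT, Finset.sum_range_succ, Nat.factorial]
  have h3 := c0_lt
  have h5 := h.trans h2
  have h4 : c0 * Real.exp (-(0.368 ^ 2 / 2)) ≤ 0.3989423 * 0.93452960 := by
    refine (mul_le_mul_of_nonneg_left h5 c0_pos.le).trans ?_
    exact mul_le_mul_of_nonneg_right h3.le (by norm_num)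
  refine h4.trans ?_
  norm_num

lemma phi_lo_0_368 : 0.372822 ≤ phi (-0.368) := by
  rw [phi_eq_c0]
  have e : ((-0.368 : ℝ)) ^ 2 / 2 = 0.368 ^ 2 / 2 := by norm_num
  rw [e]
  have h := expT_le_exp (n := 3) (by decide) (u := 0.368 ^ 2 / 2) (by norm_num)
  have h2 : (0.93452871 : ℝ) ≤ expT 3 (0.368 ^ 2 / 2) := by
    norm_num [expT, Finset.sum_range_succ, Nat.factorial]
  have h3 := c0_gt
  have h5 := h2.trans h
  refine le_trans ?_ (mul_le_mul h3.le h5 (by norm_num) c0_pos.le)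
  norm_num

lemma Phi_hi_0_25 : Phi (-0.25) ≤ 0.401294 := by
  have h := Phi_neg_le (n := 3) (by decide) (x := 0.25) (by norm_num)
  have h2 : (0.24742006 : ℝ) ≤ phiT 3 0.25 := by
    norm_num [phiT, Finset.sum_range_succ, Nat.factorial]
  have h3 := c0_gt
  nlinarith [mul_le_mul h3.le h2 (by norm_num) c0_pos.le]

lemma Phi_lo_0_25 : 0.401293 ≤ Phi (-0.25) := by
  have h := le_Phi_neg (n := 2) (by decide) (x := 0.25) (by norm_num)
  have h2 : phiT 2 0.25 ≤ (0.24742025 : ℝ) := by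
    norm_num [phiT, Finset.sum_range_succ, Nat.factorial]
  have h3 := c0_lt
  have h4 : c0 * phiT 2 0.25 ≤ 0.3989423 * 0.24742025 := by
    refine (mul_le_mul_of_nonneg_left h2 c0_pos.le).trans ?_
    exact mul_le_mul_of_nonneg_right h3.le (by norm_num)
  norm_num at h4 h ⊢
  linarith

lemma phi_hi_0_25 : phi (-0.25) ≤ 0.386669 := by
  rw [phi_eq_c0]
  have e : ((-0.25 : ℝ)) ^ 2 / 2 = 0.25 ^ 2 / 2 := by norm_num
  rw [e]
  have h := exp_le_expT (n := 4) (by decide) (u := 0.25 ^ 2 / 2) (by norm_num)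
  have h2 : expT 4 (0.25 ^ 2 / 2) ≤ (0.96923324 : ℝ) := by
    norm_num [expT, Finset.sum_range_succ, Nat.factorial]
  have h3 := c0_lt
  have h5 := h.trans h2
  have h4 : c0 * Real.exp (-(0.25 ^ 2 / 2)) ≤ 0.3989423 * 0.96923324 := by
    refine (mul_le_mul_of_nonneg_left h5 c0_pos.le).trans ?_
    exact mul_le_mul_of_nonneg_right h3.le (by norm_num)
  refine h4.trans ?_
  norm_num

lemma phi_lo_0_25 : 0.386668 ≤ phi (-0.25) := by
  rw [phi_eq_c0]
  have e : ((-0.25 : ℝ)) ^ 2 / 2 = 0.25 ^ 2 / 2 := by norm_num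
  rw [e]
  have h := expT_le_exp (n := 3) (by decide) (u := 0.25 ^ 2 / 2) (by norm_num)
  have h2 : (0.96923319 : ℝ) ≤ expT 3 (0.25 ^ 2 / 2) := by
    norm_num [expT, Finset.sum_range_succ, Nat.factorial]
  have h3 := c0_gt
  have h5 := h2.trans h
  refine le_trans ?_ (mul_le_mul h3.le h5 (by norm_num) c0_pos.le)
  norm_num

end Crest.Agent.R215.Num
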