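import Crest.Agent.R215.ChiFun
import Crest.Agent.R215.NumNodes

/-!
# Row 215: linear energy facts for the cells of a critical configuration

* `Cell η p R`: `R ≤ I(p)²` and `χ(p) ≤ 1/8 → R ≤ 2χ(p) - η χ(p)²`; `Crit.cell`.
* chords of `χ` between certified nodes, tangents of `I²` (numeric).
* `three_big`: at least three cells have `p > Φ(-0.915) = 0.1801`.
(partly generated)
-/

set_option autoImplicit false

open MeasureTheory ProbabilityTheory Set Filter Topology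
open Crest.Agent.Lib.Ehrhard

namespace Crest.Agent.R215

open Num

lemma cC_gt : 0.358098 < cC := by
  unfold cC
  rw [lt_div_iff₀ (by positivity)]
  have := Real.pi_lt_d6
  norm_num at this ⊢
  linarith

lemma cC_lt : cC < 0.358099 := by
  unfold cC
  rw [div_lt_iff₀ (by positivity)]
  have := Real.pi_gt_d6
  norm_num at this ⊢
  linarith

/-- energy facts for one cell: measure `p`, `R = ‖z‖²` -/
structure Cell (η p R : ℝ) : Prop where
  pos : 0 < p
  le_half : p ≤ 1 / 2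
  nonneg : 0 ≤ R
  e1 : R ≤ phi (Psi p) ^ 2
  e2 : chi p ≤ 1 / 8 → R ≤ 2 * chi p - η * chi p ^ 2

/-- the energy inequality in real variables -/
lemma e2_aux {C V θ R χ η : ℝ} (hC : 0.358 ≤ C) (hV : C ≤ V) (hθ : 1 ≤ θ) (hθ' : θ ≤ 4 / 3)
    (hχ : χ ≤ 1 / 8) (hη : η * C ≤ θ)
    (h : V - √C * √(V - θ * R) ≤ θ * χ) : R ≤ 2 * χ - η * χ ^ 2 := by
  have hCp : 0 < C := by linarith
  have h1 : θ * χ ≤ 1 / 6 := by nlinarith
  have h2 : V - θ * χ ≤ √C * √(V - θ * R) := by linarith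
  have h3 : 0 < V - θ * χ := by linarith
  have h4 : 0 < V - θ * R := by
    by_contra hcon
    rw [Real.sqrt_eq_zero_of_nonpos (not_lt.1 hcon), mul_zero] at h2
    linarith
  have h5 : (V - θ * χ) ^ 2 ≤ C * (V - θ * R) := by
    calc (V - θ * χ) ^ 2 ≤ (√C * √(V - θ * R)) ^ 2 := by gcongr
      _ = C * (V - θ * R) := by
        rw [mul_pow, Real.sq_sqrt hCp.le, Real.sq_sqrt h4.le]
  have h6 : θ * (C * R) ≤ θ * (2 * χ * C - θ * χ ^ 2) := by nlinarith
  have h7 : C * R ≤ 2 * χ * C - θ * χ ^ 2 := le_of_mul_le_mul_left h6 (by linarith)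
  have h8 : C * R ≤ C * (2 * χ - η * χ ^ 2) := by nlinarith [mul_le_mul_of_nonneg_right hη (sq_nonneg χ)]
  exact le_of_mul_le_mul_left h8 hCp

section crit

variable {E : Type*} [NormedAddCommGroup E] [InnerProductSpace ℝ E] [FiniteDimensional ℝ E]
  [MeasurableSpace E] [BorelSpace E]
variable {ι : Type*} [Fintype ι] [DecidableEq ι]

theorem Crit.cell_facts (c : Crit E ι) (hk : 4 ≤ Fintype.card ι) {η : ℝ}
    (hη : η * cC ≤ 1 + ((Fintype.card ι : ℝ) - 1)⁻¹) (i : ι) :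
    Cell η (c.p i) (‖c.z i‖ ^ 2) := by
  have hk2 : 2 ≤ Fintype.card ι := by omega
  have hkr : (4:ℝ) ≤ Fintype.card ι := by exact_mod_cast hk
  have hp0 := c.p_pos hk2 i
  have hp1 := c.p_le_half hk2 i
  refine ⟨hp0, hp1, by positivity, ?_, ?_⟩
  · have := c.norm_z_le hk2 i
    gcongr
  · intro hχ
    have h1 := c.gain_le hk2 i
    have h2 := c.gain_ge hk2 i
    set k : ℝ := ((Fintype.card ι : ℕ) : ℝ) with hkdef
    set θ : ℝ := 1 + (k - 1)⁻¹ with hθ
    have hk1 : 0 < k - 1 := by linarith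
    have hθ1 : 1 ≤ θ := by have : 0 < (k - 1)⁻¹ := by positivity
                           linarith
    have hθ2 : θ ≤ 4 / 3 := by
      have : (k - 1)⁻¹ ≤ (3:ℝ)⁻¹ := by
        gcongr
        linarith
      have h3 : (3:ℝ)⁻¹ = 1 / 3 := by norm_num
      linarith
    have hθk : θ * (1 - k⁻¹) = 1 := by
      rw [hθ]
      field_simp
      ring
    refine e2_aux (C := cC) (V := c.V) (θ := θ) (by have := cC_gt; linarith) c.V_gt.le hθ1 hθ2
      hχ hη ?_
    refine h2.trans ?_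
    have h5 : θ * ((1 - k⁻¹) * (c.V - F (fun j : {j // j ≠ i} => c.z j))) ≤ θ * chi (c.p i) :=
      mul_le_mul_of_nonneg_left h1 (by linarith)
    rw [← mul_assoc, hθk, one_mul] at h5
    exact h5

end crit

lemma chi_node {x fhi Plo : ℝ} (hx : 0 ≤ x) (hf : phi (-x) ≤ fhi) (hP : Plo ≤ Phi (-x)) :
    phi (-x) * (-x * Phi (-x) + phi (-x)) ≤ fhi * (fhi - x * Plo) := by
  have h1 : 0 ≤ -x * Phi (-x) + phi (-x) := W_nonneg (-x)
  have h2 : -x * Phi (-x) + phi (-x) ≤ fhi - x * Plo := by nlinarith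
  have h3 := phi_nonneg (-x)
  exact mul_le_mul hf h2 h1 (h3.trans hf)

lemma Phi_one_ge : (0.158 : ℝ) ≤ Phi (-1) := by
  have h := le_Phi_neg (n := 6) (by decide) (x := 1) (by norm_num)
  have h2 : phiT 6 1 ≤ (0.8557 : ℝ) := by
    norm_num [phiT, Finset.sum_range_succ, Nat.factorial]
  have h3 := c0_lt
  have h4 : c0 * phiT 6 1 ≤ 0.3989423 * 0.8557 := by
    refine (mul_le_mul_of_nonneg_left h2 c0_pos.le).trans ?_
    exact mul_le_mul_of_nonneg_right h3.le (by norm_num)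
  norm_num at h4 h ⊢
  linarith

lemma Phi_one_le : Phi (-1) ≤ 0.159 := by
  have h := Phi_neg_le (n := 7) (by decide) (x := 1) (by norm_num)
  have h2 : (0.8556 : ℝ) ≤ phiT 7 1 := by
    norm_num [phiT, Finset.sum_range_succ, Nat.factorial]
  have h3 := c0_gt
  nlinarith [mul_le_mul h3.le h2 (by norm_num) c0_pos.le]

lemma phi_sq_tangent_p {b0 p : ℝ} (h1 : Phi (-1) ≤ p) (h2 : p ≤ 1 / 2) (hb0 : -1 ≤ b0)
    (hb0' : b0 ≤ 1) :
    phi (Psi p) ^ 2 ≤ phi b0 ^ 2 - 2 * b0 * phi b0 * (p - Phi b0) := by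
  have hp0 : 0 < p := (Phi_pos _).trans_le h1
  have hp1 : p < 1 := by linarith
  have e : Phi (Psi p) = p := Phi_Psi hp0 hp1
  have h3 : -1 ≤ Psi p := (le_Psi_iff hp0 hp1).2 h1
  have h4 : Psi p ≤ 0 := (Psi_le_iff hp0 hp1).2 (by rw [Phi_zero]; exact h2)
  have := phi_sq_le_tangent h3 (by linarith) hb0 hb0'
  rw [e] at this
  exact this

/-- chord of `chi` on `[Φ(-1.695), Φ(-1.405)]` (p = 0.04504 .. 0.08001) -/
lemma chord_1_695_1_405 {p : ℝ} (h1 : Phi (-1.695) ≤ p) (h2 : p ≤ Phi (-1.405)) :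
    chi p ≤ 0.10397 * p + (-0.002926) := by
  refine chi_le_of_chord (b1 := -1.695) (b2 := -1.405) (by norm_num) ?_ ?_ h1 h2
  · refine (chi_node (by norm_num) phi_hi_1_695 Phi_lo_1_695).trans ?_
    have := Phi_lo_1_695
    norm_num at this ⊢
    linarith
  · refine (chi_node (by norm_num) phi_hi_1_405 Phi_lo_1_405).trans ?_
    have := Phi_lo_1_405
    norm_num at this ⊢
    linarith

/-- chord of `chi` on `[Φ(-1.405), Φ(-1.175)]` (p = 0.08001 .. 0.12000) -/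
lemma chord_1_405_1_175 {p : ℝ} (h1 : Phi (-1.405) ≤ p) (h2 : p ≤ Phi (-1.175)) :
    chi p ≤ 0.16052 * p + (-0.007450) := by
  refine chi_le_of_chord (b1 := -1.405) (b2 := -1.175) (by norm_num) ?_ ?_ h1 h2
  · refine (chi_node (by norm_num) phi_hi_1_405 Phi_lo_1_405).trans ?_
    have := Phi_lo_1_405
    norm_num at this ⊢
    linarith
  · refine (chi_node (by norm_num) phi_hi_1_175 Phi_lo_1_175).trans ?_
    have := Phi_lo_1_175
    norm_num at this ⊢
    linarith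

/-- chord of `chi` on `[Φ(-1.175), Φ(-1.036)]` (p = 0.12000 .. 0.15010) -/
lemma chord_1_175_1_036 {p : ℝ} (h1 : Phi (-1.175) ≤ p) (h2 : p ≤ Phi (-1.036)) :
    chi p ≤ 0.21020 * p + (-0.013412) := by
  refine chi_le_of_chord (b1 := -1.175) (b2 := -1.036) (by norm_num) ?_ ?_ h1 h2
  · refine (chi_node (by norm_num) phi_hi_1_175 Phi_lo_1_175).trans ?_
    have := Phi_lo_1_175
    norm_num at this ⊢
    linarith
  · refine (chi_node (by norm_num) phi_hi_1_036 Phi_lo_1_036).trans ?_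
    have := Phi_lo_1_036
    norm_num at this ⊢
    linarith

/-- chord of `chi` on `[Φ(-1.036), Φ(-0.915)]` (p = 0.15010 .. 0.18010) -/
lemma chord_1_036_0_915 {p : ℝ} (h1 : Phi (-1.036) ≤ p) (h2 : p ≤ Phi (-0.915)) :
    chi p ≤ 0.25026 * p + (-0.019425) := by
  refine chi_le_of_chord (b1 := -1.036) (b2 := -0.915) (by norm_num) ?_ ?_ h1 h2
  · refine (chi_node (by norm_num) phi_hi_1_036 Phi_lo_1_036).trans ?_
    have := Phi_lo_1_036
    norm_num at this ⊢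
    linarith
  · refine (chi_node (by norm_num) phi_hi_0_915 Phi_lo_0_915).trans ?_
    have := Phi_lo_0_915
    norm_num at this ⊢
    linarith

/-- chord of `chi` on `[Φ(-0.915), Φ(-0.842)]` (p = 0.18010 .. 0.19989) -/
lemma chord_0_915_0_842 {p : ℝ} (h1 : Phi (-0.915) ≤ p) (h2 : p ≤ Phi (-0.842)) :
    chi p ≤ 0.28175 * p + (-0.025096) := by
  refine chi_le_of_chord (b1 := -0.915) (b2 := -0.842) (by norm_num) ?_ ?_ h1 h2
  · refine (chi_node (by norm_num) phi_hi_0_915 Phi_lo_0_915).trans ?_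
    have := Phi_lo_0_915
    norm_num at this ⊢
    linarith
  · refine (chi_node (by norm_num) phi_hi_0_842 Phi_lo_0_842).trans ?_
    have := Phi_lo_0_842
    norm_num at this ⊢
    linarith

/-- chord of `chi` on `[Φ(-0.842), Φ(-0.675)]` (p = 0.19989 .. 0.24984) -/
lemma chord_0_842_0_675 {p : ℝ} (h1 : Phi (-0.842) ≤ p) (h2 : p ≤ Phi (-0.675)) :
    chi p ≤ 0.32272 * p + (-0.033285) := by
  refine chi_le_of_chord (b1 := -0.842) (b2 := -0.675) (by norm_num) ?_ ?_ h1 h2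
  · refine (chi_node (by norm_num) phi_hi_0_842 Phi_lo_0_842).trans ?_
    have := Phi_lo_0_842
    norm_num at this ⊢
    linarith
  · refine (chi_node (by norm_num) phi_hi_0_675 Phi_lo_0_675).trans ?_
    have := Phi_lo_0_675
    norm_num at this ⊢
    linarith

/-- chord of `chi` on `[Φ(-0.675), Φ(-0.517)]` (p = 0.24984 .. 0.30258) -/
lemma chord_0_675_0_517 {p : ℝ} (h1 : Phi (-0.675) ≤ p) (h2 : p ≤ Phi (-0.517)) :
    chi p ≤ 0.37701 * p + (-0.046849) := by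
  refine chi_le_of_chord (b1 := -0.675) (b2 := -0.517) (by norm_num) ?_ ?_ h1 h2
  · refine (chi_node (by norm_num) phi_hi_0_675 Phi_lo_0_675).trans ?_
    have := Phi_lo_0_675
    norm_num at this ⊢
    linarith
  · refine (chi_node (by norm_num) phi_hi_0_517 Phi_lo_0_517).trans ?_
    have := Phi_lo_0_517
    norm_num at this ⊢
    linarith

/-- chord of `chi` on `[Φ(-0.675), Φ(-0.498)]` (p = 0.24984 .. 0.30924) -/
lemma chord_0_675_0_498 {p : ℝ} (h1 : Phi (-0.675) ≤ p) (h2 : p ≤ Phi (-0.498)) :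
    chi p ≤ 0.38016 * p + (-0.047636) := by
  refine chi_le_of_chord (b1 := -0.675) (b2 := -0.498) (by norm_num) ?_ ?_ h1 h2
  · refine (chi_node (by norm_num) phi_hi_0_675 Phi_lo_0_675).trans ?_
    have := Phi_lo_0_675
    norm_num at this ⊢
    linarith
  · refine (chi_node (by norm_num) phi_hi_0_498 Phi_lo_0_498).trans ?_
    have := Phi_lo_0_498
    norm_num at this ⊢
    linarith

/-- chord of `chi` on `[Φ(-0.675), Φ(-0.483)]` (p = 0.24984 .. 0.31455) -/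
lemma chord_0_675_0_483 {p : ℝ} (h1 : Phi (-0.675) ≤ p) (h2 : p ≤ Phi (-0.483)) :
    chi p ≤ 0.38264 * p + (-0.048255) := by
  refine chi_le_of_chord (b1 := -0.675) (b2 := -0.483) (by norm_num) ?_ ?_ h1 h2
  · refine (chi_node (by norm_num) phi_hi_0_675 Phi_lo_0_675).trans ?_
    have := Phi_lo_0_675
    norm_num at this ⊢
    linarith
  · refine (chi_node (by norm_num) phi_hi_0_483 Phi_lo_0_483).trans ?_
    have := Phi_lo_0_483
    norm_num at this ⊢
    linarith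

/-- chord of `chi` on `[Φ(-0.915), Φ(-0.878)]` (p = 0.18010 .. 0.18997) -/
lemma chord_0_915_0_878 {p : ℝ} (h1 : Phi (-0.915) ≤ p) (h2 : p ≤ Phi (-0.878)) :
    chi p ≤ 0.27566 * p + (-0.023999) := by
  refine chi_le_of_chord (b1 := -0.915) (b2 := -0.878) (by norm_num) ?_ ?_ h1 h2
  · refine (chi_node (by norm_num) phi_hi_0_915 Phi_lo_0_915).trans ?_
    have := Phi_lo_0_915
    norm_num at this ⊢
    linarith
  · refine (chi_node (by norm_num) phi_hi_0_878 Phi_lo_0_878).trans ?_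
    have := Phi_lo_0_878
    norm_num at this ⊢
    linarith

/-- chord of `chi` on `[Φ(-0.878), Φ(-0.842)]` (p = 0.18997 .. 0.19989) -/
lemma chord_0_878_0_842 {p : ℝ} (h1 : Phi (-0.878) ≤ p) (h2 : p ≤ Phi (-0.842)) :
    chi p ≤ 0.28782 * p + (-0.026309) := by
  refine chi_le_of_chord (b1 := -0.878) (b2 := -0.842) (by norm_num) ?_ ?_ h1 h2
  · refine (chi_node (by norm_num) phi_hi_0_878 Phi_lo_0_878).trans ?_
    have := Phi_lo_0_878
    norm_num at this ⊢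
    linarith
  · refine (chi_node (by norm_num) phi_hi_0_842 Phi_lo_0_842).trans ?_
    have := Phi_lo_0_842
    norm_num at this ⊢
    linarith

/-- tangent of `I²` at `b = -0.25` -/
lemma tan_0_25 {p : ℝ} (h1 : Phi (-1) ≤ p) (h2 : p ≤ 1 / 2) :
    phi (Psi p) ^ 2 ≤ 0.07194 + 0.19333 * p := by
  refine (phi_sq_tangent_p (b0 := -0.25) h1 h2 (by norm_num) (by norm_num)).trans ?_
  have h3 := Phi_lo_0_25
  have h4 := Phi_hi_0_25
  have h5 := phi_lo_0_25
  have h6 := phi_hi_0_25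
  have h7 : (0.158 : ℝ) ≤ p := Phi_one_ge.trans h1
  nlinarith [mul_nonneg (sub_nonneg.2 h5) (sub_nonneg.2 h4), mul_nonneg (sub_nonneg.2 h6) (sub_nonneg.2 h3), mul_nonneg (sub_nonneg.2 h5) (sub_nonneg.2 h7), mul_nonneg (sub_nonneg.2 h6) (sub_nonneg.2 h7), mul_nonneg (sub_nonneg.2 h5) (sub_nonneg.2 h6), mul_nonneg (sub_nonneg.2 h5) (sub_nonneg.2 h2), mul_nonneg (sub_nonneg.2 h6) (sub_nonneg.2 h2)]

/-- tangent of `I²` at `b = -0.385` -/
lemma tan_0_385 {p : ℝ} (h1 : Phi (-1) ≤ p) (h2 : p ≤ 1 / 2) :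
    phi (Psi p) ^ 2 ≤ 0.03737 + 0.28524 * p := by
  refine (phi_sq_tangent_p (b0 := -0.385) h1 h2 (by norm_num) (by norm_num)).trans ?_
  have h3 := Phi_lo_0_385
  have h4 := Phi_hi_0_385
  have h5 := phi_lo_0_385
  have h6 := phi_hi_0_385
  have h7 : (0.158 : ℝ) ≤ p := Phi_one_ge.trans h1
  nlinarith [mul_nonneg (sub_nonneg.2 h5) (sub_nonneg.2 h4), mul_nonneg (sub_nonneg.2 h6) (sub_nonneg.2 h3), mul_nonneg (sub_nonneg.2 h5) (sub_nonneg.2 h7), mul_nonneg (sub_nonneg.2 h6) (sub_nonneg.2 h7), mul_nonneg (sub_nonneg.2 h5) (sub_nonneg.2 h6), mul_nonneg (sub_nonneg.2 h5) (sub_nonneg.2 h2), mul_nonneg (sub_nonneg.2 h6) (sub_nonneg.2 h2)]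

/-- tangent of `I²` at `b = -0.368` -/
lemma tan_0_368 {p : ℝ} (h1 : Phi (-1) ≤ p) (h2 : p ≤ 1 / 2) :
    phi (Psi p) ^ 2 ≤ 0.04120 + 0.27440 * p := by
  refine (phi_sq_tangent_p (b0 := -0.368) h1 h2 (by norm_num) (by norm_num)).trans ?_
  have h3 := Phi_lo_0_368
  have h4 := Phi_hi_0_368
  have h5 := phi_lo_0_368
  have h6 := phi_hi_0_368
  have h7 : (0.158 : ℝ) ≤ p := Phi_one_ge.trans h1
  nlinarith [mul_nonneg (sub_nonneg.2 h5) (sub_nonneg.2 h4), mul_nonneg (sub_nonneg.2 h6) (sub_nonneg.2 h3), mul_nonneg (sub_nonneg.2 h5) (sub_nonneg.2 h7), mul_nonneg (sub_nonneg.2 h6) (sub_nonneg.2 h7), mul_nonneg (sub_nonneg.2 h5) (sub_nonneg.2 h6), mul_nonneg (sub_nonneg.2 h5) (sub_nonneg.2 h2), mul_nonneg (sub_nonneg.2 h6) (sub_nonneg.2 h2)]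

/-- tangent of `I²` at `b = -0.364` -/
lemma tan_0_364 {p : ℝ} (h1 : Phi (-1) ≤ p) (h2 : p ≤ 1 / 2) :
    phi (Psi p) ^ 2 ≤ 0.04212 + 0.27181 * p := by
  refine (phi_sq_tangent_p (b0 := -0.364) h1 h2 (by norm_num) (by norm_num)).trans ?_
  have h3 := Phi_lo_0_364
  have h4 := Phi_hi_0_364
  have h5 := phi_lo_0_364
  have h6 := phi_hi_0_364
  have h7 : (0.158 : ℝ) ≤ p := Phi_one_ge.trans h1
  nlinarith [mul_nonneg (sub_nonneg.2 h5) (sub_nonneg.2 h4), mul_nonneg (sub_nonneg.2 h6) (sub_nonneg.2 h3), mul_nonneg (sub_nonneg.2 h5) (sub_nonneg.2 h7), mul_nonneg (sub_nonneg.2 h6) (sub_nonneg.2 h7), mul_nonneg (sub_nonneg.2 h5) (sub_nonneg.2 h6), mul_nonneg (sub_nonneg.2 h5) (sub_nonneg.2 h2), mul_nonneg (sub_nonneg.2 h6) (sub_nonneg.2 h2)]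

/-- tangent of `I²` at `b = -0.483` -/
lemma tan_0_483 {p : ℝ} (h1 : Phi (-1) ≤ p) (h2 : p ≤ 1 / 2) :
    phi (Psi p) ^ 2 ≤ 0.01817 + 0.34295 * p := by
  refine (phi_sq_tangent_p (b0 := -0.483) h1 h2 (by norm_num) (by norm_num)).trans ?_
  have h3 := Phi_lo_0_483
  have h4 := Phi_hi_0_483
  have h5 := phi_lo_0_483
  have h6 := phi_hi_0_483
  have h7 : (0.158 : ℝ) ≤ p := Phi_one_ge.trans h1
  nlinarith [mul_nonneg (sub_nonneg.2 h5) (sub_nonneg.2 h4), mul_nonneg (sub_nonneg.2 h6) (sub_nonneg.2 h3), mul_nonneg (sub_nonneg.2 h5) (sub_nonneg.2 h7), mul_nonneg (sub_nonneg.2 h6) (sub_nonneg.2 h7), mul_nonneg (sub_nonneg.2 h5) (sub_nonneg.2 h6), mul_nonneg (sub_nonneg.2 h5) (sub_nonneg.2 h2), mul_nonneg (sub_nonneg.2 h6) (sub_nonneg.2 h2)]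

/-- tangent of `I²` at `b = -0.498` -/
lemma tan_0_498 {p : ℝ} (h1 : Phi (-1) ≤ p) (h2 : p ≤ 1 / 2) :
    phi (Psi p) ^ 2 ≤ 0.01566 + 0.35101 * p := by
  refine (phi_sq_tangent_p (b0 := -0.498) h1 h2 (by norm_num) (by norm_num)).trans ?_
  have h3 := Phi_lo_0_498
  have h4 := Phi_hi_0_498
  have h5 := phi_lo_0_498
  have h6 := phi_hi_0_498
  have h7 : (0.158 : ℝ) ≤ p := Phi_one_ge.trans h1
  nlinarith [mul_nonneg (sub_nonneg.2 h5) (sub_nonneg.2 h4), mul_nonneg (sub_nonneg.2 h6) (sub_nonneg.2 h3), mul_nonneg (sub_nonneg.2 h5) (sub_nonneg.2 h7), mul_nonneg (sub_nonneg.2 h6) (sub_nonneg.2 h7), mul_nonneg (sub_nonneg.2 h5) (sub_nonneg.2 h6), mul_nonneg (sub_nonneg.2 h5) (sub_nonneg.2 h2), mul_nonneg (sub_nonneg.2 h6) (sub_nonneg.2 h2)]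

/-- tangent of `I²` at `b = -0.517` -/
lemma tan_0_517 {p : ℝ} (h1 : Phi (-1) ≤ p) (h2 : p ≤ 1 / 2) :
    phi (Psi p) ^ 2 ≤ 0.01263 + 0.36090 * p := by
  refine (phi_sq_tangent_p (b0 := -0.517) h1 h2 (by norm_num) (by norm_num)).trans ?_
  have h3 := Phi_lo_0_517
  have h4 := Phi_hi_0_517
  have h5 := phi_lo_0_517
  have h6 := phi_hi_0_517
  have h7 : (0.158 : ℝ) ≤ p := Phi_one_ge.trans h1
  nlinarith [mul_nonneg (sub_nonneg.2 h5) (sub_nonneg.2 h4), mul_nonneg (sub_nonneg.2 h6) (sub_nonneg.2 h3), mul_nonneg (sub_nonneg.2 h5) (sub_nonneg.2 h7), mul_nonneg (sub_nonneg.2 h6) (sub_nonneg.2 h7), mul_nonneg (sub_nonneg.2 h5) (sub_nonneg.2 h6), mul_nonneg (sub_nonneg.2 h5) (sub_nonneg.2 h2), mul_nonneg (sub_nonneg.2 h6) (sub_nonneg.2 h2)]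

lemma Cell.e1' {η p R : ℝ} (h : Cell η p R) : R ≤ 0.15916 := by
  refine h.e1.trans ?_
  have h1 : phi (Psi p) ≤ 0.3989423 := by
    rw [phi_eq_c0]
    have : Real.exp (-(Psi p ^ 2 / 2)) ≤ 1 := Real.exp_le_one_iff.2 (by
      have := sq_nonneg (Psi p); linarith)
    have h2 := c0_pos
    have h3 := c0_lt
    nlinarith
  have h2 := phi_nonneg (Psi p)
  nlinarith

/-- from an upper bound of `χ` to a linear upper bound of `R` -/
lemma Cell.lin {η p R L L0 : ℝ} (h : Cell η p R) (hη : 0 ≤ η) (h1 : chi p ≤ L) (h2 : L ≤ 1 / 8)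
    (h3 : η * L0 ≤ 1) : R ≤ 2 * (1 - η * L0) * L + η * L0 ^ 2 := by
  have h4 := h.e2 (h1.trans h2)
  have h5 := mul_nonneg hη (sq_nonneg (chi p - L0))
  have h6 : 0 ≤ (1 - η * L0) * (L - chi p) := mul_nonneg (by linarith) (by linarith)
  nlinarith

/-- quadratic version -/
lemma Cell.quad {η p R L : ℝ} (h : Cell η p R) (hη : 0 ≤ η) (h1 : chi p ≤ L) (h2 : L ≤ 1 / 8)
    (h3 : η * L ≤ 1) : R ≤ 2 * L - η * L ^ 2 := by
  have := h.lin hη h1 h2 (L0 := L) h3
  nlinarith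

lemma Cell.mono {η η' p R : ℝ} (h : Cell η p R) (h' : η' ≤ η) : Cell η' p R :=
  ⟨h.pos, h.le_half, h.nonneg, h.e1, fun h1 => (h.e2 h1).trans (by
    have := mul_le_mul_of_nonneg_right h' (sq_nonneg (chi p)); linarith)⟩

/-- `R ≤ 2p²` (useful for small `p`) -/
lemma Cell.small {η p R : ℝ} (h : Cell η p R) (hη : 0 ≤ η) (hp : p ≤ 1 / 3) : R ≤ 2 * p ^ 2 := by
  have h1 := chi_le_sq h.pos (by linarith [h.le_half])
  have h2 : chi p ≤ 1 / 8 := by nlinarith [h.pos]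
  have h3 := h.e2 h2
  have h4 := mul_nonneg hη (sq_nonneg (chi p))
  linarith

/-- cells with `p ≤ Φ(-0.915)` have `R ≤ 0.2747 p` -/
lemma Cell.le_of_small {η p R : ℝ} (h : Cell η p R) (hη : 2.79 ≤ η) (hp : p ≤ Phi (-0.915)) :
    R ≤ 0.2747 * p := by
  replace h := h.mono hη
  have hp0 := h.pos
  have g1 := Phi_hi_0_915
  rcases le_total p 0.13 with h1 | h1
  · have := h.small (by norm_num) (by linarith)
    nlinarith
  rcases le_total p (Phi (-1.036)) with h2 | h2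
  · have h3 : Phi (-1.175) ≤ p := by
      have := Phi_hi_1_175
      linarith
    have h4 := chord_1_175_1_036 h3 h2
    have h5 := Phi_hi_1_036
    have := h.quad (by norm_num) h4 (by linarith) (by linarith)
    nlinarith
  · have h4 := chord_1_036_0_915 h2 hp
    have h5 := Phi_lo_1_036
    have := h.lin (L0 := 0.0256) (by norm_num) h4 (by linarith) (by norm_num)
    nlinarith

lemma Cell.le_tan {η p R : ℝ} (h : Cell η p R) (hp : Phi (-1) ≤ p) : R ≤ 0.0412 + 0.2747 * p := by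
  have := h.e1.trans (tan_0_368 hp h.le_half)
  have h1 := h.pos
  linarith

lemma Cell.le_big {η p R : ℝ} (h : Cell η p R) (hη : 2.79 ≤ η) : R ≤ 0.0412 + 0.2747 * p := by
  rcases le_total (Phi (-1)) p with h1 | h1
  · exact h.le_tan h1
  · have h2 := Phi_one_le
    have h3 := Phi_lo_0_915
    have := h.le_of_small hη (h1.trans (by linarith))
    linarith

/-- **three big cells**: not all cells but (at most) two have `p ≤ Φ(-0.915) = 0.1801`. -/
theorem three_big {ι : Type*} [Fintype ι] [DecidableEq ι] {η : ℝ} (hη : 2.79 ≤ η) {p R : ι → ℝ}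
    (h : ∀ i, Cell η (p i) (R i)) (hp : ∑ i, p i = 1) (hR : cC ≤ ∑ i, R i) (j l : ι) :
    ∃ m, m ≠ j ∧ m ≠ l ∧ Phi (-0.915) < p m := by
  by_contra hcon
  push Not at hcon
  have h1 : ∀ i, R i ≤ 0.2747 * p i + 0.0412 * ((if i = j then 1 else 0) + (if i = l then 1 else 0)) := by
    intro i
    have hpi := (h i).pos
    by_cases hj : i = j
    · have := (h i).le_big hη
      rw [if_pos hj]
      split_ifs <;> linarith
    · by_cases hl : i = l
      · have := (h i).le_big hη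
        rw [if_neg hj, if_pos hl]
        linarith
      · have := (h i).le_of_small hη (hcon i hj hl)
        rw [if_neg hj, if_neg hl]
        linarith
  have h2 : ∑ i, R i ≤ ∑ i, (0.2747 * p i + 0.0412 * ((if i = j then 1 else 0) + (if i = l then 1 else 0))) :=
    Finset.sum_le_sum fun i _ => h1 i
  rw [Finset.sum_add_distrib, ← Finset.mul_sum, ← Finset.mul_sum, Finset.sum_add_distrib] at h2
  simp only [Finset.sum_ite_eq', Finset.mem_univ, if_true, hp] at h2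
  have := cC_gt
  norm_num at h2 this
  linarith

end Crest.Agent.R215
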