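import Crest.Agent.R215.ChiFun

/-!
# Row 215: generic energy lemmas

`X b = chi (Φ b)`, `hb κ b = 2 X b - κ (X b)² / C`.

* `RR_mono`: `b Φ(b)/φ(b)` is increasing.
* `hb_chord`, `hb_half`: convexity of `hb` as a function of `p = Φ b` on `(0, Φ b2]`.
* `Crit.energy_h`: `‖z i‖² ≤ 2 χ(p_i) - κ χ(p_i)² / C` for `κ ≤ k/(k-1)`, if `4 χ(p_i) ≤ C`.
-/

set_option autoImplicit false

open MeasureTheory ProbabilityTheory Set Filter Topology
open Crest.Agent.Lib.Ehrhard
open scoped RealInnerProductSpace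

namespace Crest.Agent.R215

/-- `chi (Φ b)` -/
noncomputable def XX (b : ℝ) : ℝ := phi b * (b * Phi b + phi b)

/-- `2 χ - κ χ² / C` at `p = Φ b` -/
noncomputable def hb (κ b : ℝ) : ℝ := 2 * XX b - κ * XX b ^ 2 / cC

lemma chi_Phi' (b : ℝ) : chi (Phi b) = XX b := chi_Phi b

lemma chi_eq_XX {p : ℝ} : chi p = phi (Psi p) * (Psi p * p + phi (Psi p)) := rfl

lemma chi_eq_XX' {p : ℝ} (h0 : 0 < p) (h1 : p < 1) : chi p = XX (Psi p) := by
  unfold XX; rw [Phi_Psi h0 h1]; rfl

lemma XX_nonneg (b : ℝ) : 0 ≤ XX b := mul_nonneg (phi_nonneg b) (W_nonneg b)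

lemma hasDerivAt_XX (b : ℝ) : HasDerivAt XX (phi b * sig b) b := hasDerivAt_chib b

lemma XX_mono {a b : ℝ} (hab : a ≤ b) (hb : b ≤ 0) : XX a ≤ XX b := chib_mono hab hb

lemma tendsto_XX : Tendsto XX atBot (𝓝 0) := by
  have h := tendsto_phi_atBot.mul tendsto_W_atBot
  rw [mul_zero] at h
  exact h

/-- `b Φ(b)/φ(b)` is increasing -/
lemma RR_mono : Monotone fun b : ℝ => b * Phi b / phi b := by
  have hd : ∀ x, HasDerivAt (fun b : ℝ => b * Phi b / phi b)
      ((Phi x * (1 + x ^ 2) + x * phi x) / phi x) x := by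
    intro x
    have hp := (phi_pos x).ne'
    refine (((hasDerivAt_id x).fun_mul (hasDerivAt_Phi x)).fun_div (hasDerivAt_phi x) hp).congr_deriv ?_
    simp only [id]
    field_simp
    ring
  refine monotone_of_deriv_nonneg (fun x => (hd x).differentiableAt) fun x => ?_
  rw [(hd x).deriv]
  exact div_nonneg (mills_lower x) (phi_nonneg x)

/-- derivative of `hb κ` divided by `2 φ` -/
noncomputable def GG (κ b : ℝ) : ℝ := (1 - κ * XX b / cC) * sig b

lemma hasDerivAt_hb (κ b : ℝ) : HasDerivAt (hb κ) (phi b * (2 * GG κ b)) b := by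
  have h := ((hasDerivAt_XX b).const_mul 2).fun_sub
    ((((hasDerivAt_XX b).fun_pow 2).const_mul κ).div_const cC)
  refine h.congr_deriv ?_
  unfold GG
  have := cC_pos.ne'
  simp only [Nat.cast_ofNat]
  field_simp
  ring

lemma continuous_hb (κ : ℝ) : Continuous (hb κ) :=
  continuous_iff_continuousAt.2 fun x => (hasDerivAt_hb κ x).continuousAt

/-- the condition for convexity of `hb κ` up to `b2` -/
def ConvAt (κ b2 : ℝ) : Prop :=
  κ * (XX b2 * (-2 * b2 * Phi b2) + sig b2 ^ 2 * phi b2) ≤ cC * (-2 * b2 * Phi b2)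

lemma GG_mono {κ b2 : ℝ} (hκ : 0 ≤ κ) (hb2 : b2 < 0) (h : ConvAt κ b2) {a b : ℝ} (hab : a ≤ b)
    (hbb : b ≤ b2) : GG κ a ≤ GG κ b := by
  have hd : ∀ x, HasDerivAt (GG κ)
      (-(κ * (phi x * sig x) / cC) * sig x + (1 - κ * XX x / cC) * (-2 * x * Phi x)) x := by
    intro x
    exact ((((hasDerivAt_XX x).const_mul κ).div_const cC).const_sub 1).fun_mul (hasDerivAt_sig x)
  have hc : Continuous (GG κ) := continuous_iff_continuousAt.2 fun x => (hd x).continuousAt
  have hC := cC_pos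
  have hm : MonotoneOn (GG κ) (Iic b2) := by
    refine monotoneOn_of_deriv_nonneg (convex_Iic b2) hc.continuousOn
      (fun x _ => (hd x).differentiableAt.differentiableWithinAt) ?_
    intro x hx
    rw [interior_Iic, mem_Iio] at hx
    rw [(hd x).deriv]
    have hφ := phi_pos x
    have hφ2 := phi_pos b2
    have hΦ2 := Phi_pos b2
    have hΦ := Phi_pos x
    have e1 : sig x ≤ sig b2 := sig_mono hx.le hb2.le
    have e2 : XX x ≤ XX b2 := XX_mono hx.le hb2.le
    have e3 : 0 ≤ sig x := sig_nonneg (hx.le.trans hb2.le)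
    have e4 := RR_mono hx.le
    simp only at e4
    -- R = -2 b Φ / φ
    set R2 := -2 * b2 * Phi b2 / phi b2 with hR2
    set R := -2 * x * Phi x / phi x with hR
    have e5 : R2 ≤ R := by
      have h1 : R2 = -2 * (b2 * Phi b2 / phi b2) := by rw [hR2]; ring
      have h2 : R = -2 * (x * Phi x / phi x) := by rw [hR]; ring
      rw [h1, h2]; linarith
    have e6 : 0 < R2 := by
      rw [hR2]
      apply div_pos _ hφ2
      have : 0 < -b2 := by linarith
      nlinarith [mul_pos this hΦ2]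
    have h' : κ * (XX b2 * R2 + sig b2 ^ 2) ≤ cC * R2 := by
      have h1 := div_le_div_of_nonneg_right h hφ2.le
      calc κ * (XX b2 * R2 + sig b2 ^ 2)
          = κ * (XX b2 * (-2 * b2 * Phi b2) + sig b2 ^ 2 * phi b2) / phi b2 := by
            rw [hR2]; field_simp
        _ ≤ cC * (-2 * b2 * Phi b2) / phi b2 := h1
        _ = cC * R2 := by rw [hR2]; ring
    have e7 : sig x ^ 2 ≤ sig b2 ^ 2 := by
      have := e3.trans e1
      nlinarith
    have e8 : 0 ≤ cC - κ * XX b2 := by
      by_contra hcon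
      push Not at hcon
      have h1 : κ * (XX b2 * R2 + sig b2 ^ 2) = κ * XX b2 * R2 + κ * sig b2 ^ 2 := by ring
      have h2 : 0 ≤ κ * sig b2 ^ 2 := by positivity
      nlinarith
    have e9 : κ * sig x ^ 2 ≤ (cC - κ * XX x) * R := by
      have h1 : κ * sig x ^ 2 ≤ κ * sig b2 ^ 2 := mul_le_mul_of_nonneg_left e7 hκ
      have h2 : κ * sig b2 ^ 2 ≤ (cC - κ * XX b2) * R2 := by nlinarith
      have h3 : (cC - κ * XX b2) * R2 ≤ (cC - κ * XX b2) * R := mul_le_mul_of_nonneg_left e5 e8
      have h4 : (cC - κ * XX b2) * R ≤ (cC - κ * XX x) * R := by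
        refine mul_le_mul_of_nonneg_right ?_ (e6.le.trans e5)
        have := mul_le_mul_of_nonneg_left e2 hκ
        linarith
      linarith
    have e10 : -(κ * (phi x * sig x) / cC) * sig x + (1 - κ * XX x / cC) * (-2 * x * Phi x)
        = phi x / cC * ((cC - κ * XX x) * R - κ * sig x ^ 2) := by
      rw [hR]; field_simp; ring
    rw [e10]
    exact mul_nonneg (div_nonneg hφ.le hC.le) (by linarith)
  exact hm (mem_Iic.2 (hab.trans hbb)) (mem_Iic.2 hbb) hab

lemma hasDerivAt_K (κ m k x : ℝ) :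
    HasDerivAt (fun b => m * Phi b + k - hb κ b) (phi x * (m - 2 * GG κ x)) x := by
  refine ((((hasDerivAt_Phi x).const_mul m).add_const k).fun_sub (hasDerivAt_hb κ x)).congr_deriv ?_
  ring

/-- chord domination for `hb` -/
theorem hb_chord {κ b0 b1 b2 m k : ℝ} (hκ : 0 ≤ κ) (hb0 : b0 < 0) (h : ConvAt κ b0) (h20 : b2 ≤ b0)
    (e1 : hb κ b1 ≤ m * Phi b1 + k) (e2 : hb κ b2 ≤ m * Phi b2 + k) {b : ℝ} (hb1 : b1 ≤ b)
    (hb2 : b ≤ b2) : hb κ b ≤ m * Phi b + k := by
  set K : ℝ → ℝ := fun b => m * Phi b + k - hb κ b with hK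
  have hd := hasDerivAt_K κ m k
  have hc : Continuous K := continuous_iff_continuousAt.2 fun x => (hd x).continuousAt
  rcases le_or_gt (2 * GG κ b) m with h3 | h3
  · have : MonotoneOn K (Icc b1 b) := by
      refine monotoneOn_of_deriv_nonneg (convex_Icc b1 b) hc.continuousOn
        (fun x _ => (hd x).differentiableAt.differentiableWithinAt) ?_
      intro x hx
      rw [interior_Icc] at hx
      rw [(hd x).deriv]
      have := GG_mono hκ hb0 h hx.2.le (hb2.trans h20)
      exact mul_nonneg (phi_nonneg x) (by linarith)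
    have h3 := this (left_mem_Icc.2 hb1) (right_mem_Icc.2 hb1) hb1
    simp only [hK] at h3
    linarith
  · have : AntitoneOn K (Icc b b2) := by
      refine antitoneOn_of_deriv_nonpos (convex_Icc b b2) hc.continuousOn
        (fun x _ => (hd x).differentiableAt.differentiableWithinAt) ?_
      intro x hx
      rw [interior_Icc] at hx
      rw [(hd x).deriv]
      have := GG_mono hκ hb0 h hx.1.le (hx.2.le.trans h20)
      exact mul_nonpos_of_nonneg_of_nonpos (phi_nonneg x) (by linarith)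
    have h3 := this (left_mem_Icc.2 hb2) (right_mem_Icc.2 hb2) hb2
    simp only [hK] at h3
    linarith

/-- domination on a half line -/
theorem hb_half {κ b0 b2 m k : ℝ} (hκ : 0 ≤ κ) (hb0 : b0 < 0) (h : ConvAt κ b0) (h20 : b2 ≤ b0)
    (hk : 0 ≤ k) (e2 : hb κ b2 ≤ m * Phi b2 + k) {b : ℝ} (hb2 : b ≤ b2) :
    hb κ b ≤ m * Phi b + k := by
  set K : ℝ → ℝ := fun b => m * Phi b + k - hb κ b with hK
  have hd := hasDerivAt_K κ m k
  have hc : Continuous K := continuous_iff_continuousAt.2 fun x => (hd x).continuousAt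
  rcases le_or_gt (2 * GG κ b) m with h3 | h3
  · have hm : MonotoneOn K (Iic b) := by
      refine monotoneOn_of_deriv_nonneg (convex_Iic b) hc.continuousOn
        (fun x _ => (hd x).differentiableAt.differentiableWithinAt) ?_
      intro x hx
      rw [interior_Iic] at hx
      rw [(hd x).deriv]
      have := GG_mono hκ hb0 h (le_of_lt hx) (hb2.trans h20)
      exact mul_nonneg (phi_nonneg x) (by linarith)
    have hlim : Tendsto K atBot (𝓝 k) := by
      have h1 := (tendsto_Phi_atBot.const_mul m).add_const k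
      have h2 : Tendsto (hb κ) atBot (𝓝 (2 * 0 - κ * 0 ^ 2 / cC)) :=
        (tendsto_XX.const_mul 2).sub (((tendsto_XX.pow 2).const_mul κ).div_const cC)
      have := h1.sub h2
      simpa using this
    have h4 : k ≤ K b := by
      refine le_of_tendsto hlim ?_
      filter_upwards [eventually_le_atBot b] with x hx
      exact hm (mem_Iic.2 hx) (mem_Iic.2 le_rfl) hx
    simp only [hK] at h4
    linarith
  · have : AntitoneOn K (Icc b b2) := by
      refine antitoneOn_of_deriv_nonpos (convex_Icc b b2) hc.continuousOn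
        (fun x _ => (hd x).differentiableAt.differentiableWithinAt) ?_
      intro x hx
      rw [interior_Icc] at hx
      rw [(hd x).deriv]
      have := GG_mono hκ hb0 h hx.1.le (hx.2.le.trans h20)
      exact mul_nonpos_of_nonneg_of_nonpos (phi_nonneg x) (by linarith)
    have h3 := this (left_mem_Icc.2 hb2) (right_mem_Icc.2 hb2) hb2
    simp only [hK] at h3
    linarith

variable {E : Type*} [NormedAddCommGroup E] [InnerProductSpace ℝ E] [FiniteDimensional ℝ E]
  [MeasurableSpace E] [BorelSpace E] {ι : Type*} [Fintype ι] [DecidableEq ι]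

namespace Crit

variable (c : Crit E ι)

/-- energy bound for one cell: deletion + Ehrhard -/
theorem energy_h (hk : 2 ≤ Fintype.card ι) (i : ι) {κ : ℝ}
    (hκ : κ * ((Fintype.card ι : ℝ) - 1) ≤ Fintype.card ι) (hX : 4 * chi (c.p i) ≤ cC) :
    ‖c.z i‖ ^ 2 ≤ 2 * chi (c.p i) - κ * chi (c.p i) ^ 2 / cC := by
  have h1 := c.gain_le hk i
  have h2 := c.gain_ge hk i
  have hp0 := c.p_pos hk i
  have hp1 := c.p_le_half hk i
  have hX0 : 0 ≤ chi (c.p i) := chi_nonneg _ hp0 (by linarith)
  have hC := cC_pos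
  have hV := c.V_gt
  set n : ℝ := (Fintype.card ι : ℝ) with hn
  have hn2 : (2:ℝ) ≤ n := by rw [hn]; exact_mod_cast hk
  set a := ‖c.z i‖ ^ 2 with ha
  set θ : ℝ := 1 + (n - 1)⁻¹ with hθ
  have hn1 : 0 < n - 1 := by linarith
  have hθn : θ * (n - 1) = n := by rw [hθ]; field_simp; ring
  have hθ1 : (1 - n⁻¹) * θ = 1 := by
    have : θ = n / (n - 1) := by rw [eq_div_iff hn1.ne']; exact hθn
    rw [this]; field_simp
  have hθpos : 0 < θ := by rw [hθ]; positivity
  have hθ2 : θ ≤ 2 := by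
    have : (n - 1)⁻¹ ≤ 1 := inv_le_one_of_one_le₀ (by linarith)
    rw [hθ]; linarith
  have hκθ : κ ≤ θ := by
    by_contra hcon
    push Not at hcon
    nlinarith
  have h3 : (1 - n⁻¹) * (c.V - √cC * √(c.V - θ * a)) ≤ chi (c.p i) := by
    refine le_trans ?_ h1
    refine mul_le_mul_of_nonneg_left h2 ?_
    by_contra hcon
    push Not at hcon
    nlinarith
  have h4 : c.V - √cC * √(c.V - θ * a) ≤ θ * chi (c.p i) := by
    have := mul_le_mul_of_nonneg_left h3 hθpos.le
    calc c.V - √cC * √(c.V - θ * a) = θ * ((1 - n⁻¹) * (c.V - √cC * √(c.V - θ * a))) := by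
          rw [← mul_assoc, mul_comm θ (1 - n⁻¹), hθ1, one_mul]
      _ ≤ _ := this
  set X := chi (c.p i) with hXdef
  have h5 : 0 < c.V - θ * X := by nlinarith
  have h6 : c.V - θ * X ≤ √cC * √(c.V - θ * a) := by linarith
  have h7 : 0 < c.V - θ * a := by
    by_contra hcon
    push Not at hcon
    rw [Real.sqrt_eq_zero_of_nonpos hcon, mul_zero] at h6
    linarith
  have h8 : (c.V - θ * X) ^ 2 ≤ cC * (c.V - θ * a) := by
    have := pow_le_pow_left₀ h5.le h6 2
    rw [mul_pow, Real.sq_sqrt hC.le, Real.sq_sqrt h7.le] at this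
    exact this
  -- a ≤ 2X - θ X²/C
  have h9 : a ≤ 2 * X - θ * X ^ 2 / cC := by
    have h10 : cC * (θ * a) ≤ cC * (θ * (2 * X - θ * X ^ 2 / cC)) := by
      have e : cC * (θ * (2 * X - θ * X ^ 2 / cC)) = 2 * cC * θ * X - θ ^ 2 * X ^ 2 := by
        field_simp
      rw [e]
      have h11 : 0 ≤ (c.V - cC) * (c.V - 2 * θ * X) := by
        apply mul_nonneg (by linarith)
        nlinarith
      nlinarith
    have h12 := le_of_mul_le_mul_left h10 hC
    exact le_of_mul_le_mul_left h12 hθpos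
  have h10 : κ * X ^ 2 / cC ≤ θ * X ^ 2 / cC := by
    gcongr
  linarith

end Crit

end Crest.Agent.R215
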