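import Crest.Agent.R215.TieArctan

/-!
# Row 215: exact Gaussian measure of a wedge
-/

set_option autoImplicit false
set_option linter.unusedSectionVars false
set_option linter.style.haveILetI false
open MeasureTheory ProbabilityTheory Set Filter Topology
open scoped NNReal ENNReal RealInnerProductSpace

namespace Crest.Agent.R215.K4

open Crest.Agent.Lib.Ehrhard Crest.Agent.R215.Tie

lemma Phi_zero : Phi 0 = 1 / 2 := by
  have := Phi_neg 0
  rw [neg_zero] at this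
  linarith

lemma gamma_Iio (s : ℝ) : γ (Iio s) = ENNReal.ofReal (Phi s) := by
  have h : γ (Iio s) = γ (Iic s) := by
    refine measure_congr ?_
    haveI : NullSingletonClass γ := nullSingletonClass_gaussianReal (by norm_num)
    exact Iio_ae_eq_Iic
  rw [h, gaussianReal_apply_eq_integral 0 one_ne_zero, ← phi_eq]
  rfl

lemma integral_Ioi_phi_Phi (t : ℝ) : ∫ w in Ioi (0:ℝ), phi w * Phi (t * w)
    = 1 / 4 + Real.arctan t / (2 * Real.pi) := by
  have hint : IntegrableOn (fun w : ℝ => phi w * Phi (t * w)) (Ioi 0) := by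
    refine (integrable_phi.restrict (s := Ioi 0)).mono' ?_ ?_
    · have : Continuous fun w : ℝ => phi w * Phi (t * w) := by
        have h1 := continuous_phi
        have h2 := continuous_Phi
        fun_prop
      exact this.aestronglyMeasurable
    · refine Eventually.of_forall fun w => ?_
      rw [norm_mul, Real.norm_of_nonneg (phi_nonneg w), Real.norm_of_nonneg (Phi_nonneg _)]
      exact mul_le_of_le_one_right (phi_nonneg w) (Phi_lt_one _).le
  have h1 : G t = ∫ w in Ioi (0:ℝ), (phi w * Phi (t * w) - phi w * Phi 0) := by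
    unfold G
    congr 1
    ext w
    ring
  rw [integral_sub hint ((integrable_phi.restrict).mul_const _), integral_mul_const, G_eq,
    Phi_zero] at h1
  have h2 := Phi_add_compl 0
  rw [Phi_zero] at h2
  linarith

lemma prod_wedge_real (t : ℝ) : (γ.prod γ).real {y : ℝ × ℝ | 0 < y.1 ∧ y.2 < t * y.1}
    = 1 / 4 + Real.arctan t / (2 * Real.pi) := by
  have hm : MeasurableSet {y : ℝ × ℝ | 0 < y.1 ∧ y.2 < t * y.1} := by
    have h1 : MeasurableSet {y : ℝ × ℝ | 0 < y.1} := measurableSet_lt (by fun_prop) (by fun_prop)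
    have h2 : MeasurableSet {y : ℝ × ℝ | y.2 < t * y.1} := measurableSet_lt (by fun_prop) (by fun_prop)
    exact h1.inter h2
  rw [measureReal_def, Measure.prod_apply hm]
  have h1 : ∀ w : ℝ, γ (Prod.mk w ⁻¹' {y : ℝ × ℝ | 0 < y.1 ∧ y.2 < t * y.1})
      = ENNReal.ofReal ((Ioi (0:ℝ)).indicator (fun w => Phi (t * w)) w) := by
    intro w
    by_cases hw : 0 < w
    · have e : Prod.mk w ⁻¹' {y : ℝ × ℝ | 0 < y.1 ∧ y.2 < t * y.1} = Iio (t * w) := by
        ext s; simp [hw]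
      rw [e, gamma_Iio, indicator_of_mem (by exact hw)]
    · have e : Prod.mk w ⁻¹' {y : ℝ × ℝ | 0 < y.1 ∧ y.2 < t * y.1} = ∅ := by
        ext s; simp [hw]
      rw [e, indicator_of_notMem (by exact hw)]
      simp
  simp_rw [h1]
  have hnn : ∀ w : ℝ, 0 ≤ (Ioi (0:ℝ)).indicator (fun w => Phi (t * w)) w := by
    intro w
    exact indicator_nonneg (fun w hw => Phi_nonneg _) w
  have hmeas : Measurable ((Ioi (0:ℝ)).indicator (fun w => Phi (t * w))) := by
    refine Measurable.indicator ?_ measurableSet_Ioi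
    exact continuous_Phi.measurable.comp (by fun_prop)
  have hint : Integrable ((Ioi (0:ℝ)).indicator (fun w => Phi (t * w))) γ := by
    refine Integrable.mono' (integrable_const (1:ℝ)) hmeas.aestronglyMeasurable ?_
    refine Eventually.of_forall fun w => ?_
    rw [Real.norm_of_nonneg (hnn w)]
    by_cases hw : w ∈ Ioi (0:ℝ)
    · rw [indicator_of_mem hw]; exact (Phi_lt_one _).le
    · rw [indicator_of_notMem hw]; simp
  rw [← ofReal_integral_eq_lintegral_ofReal hint (Eventually.of_forall hnn),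
    ENNReal.toReal_ofReal (integral_nonneg hnn)]
  rw [integral_gaussianReal_eq_integral_smul (by norm_num : (1:ℝ≥0) ≠ 0), ← phi_eq]
  simp_rw [smul_eq_mul]
  have h2 : ∀ w : ℝ, phi w * (Ioi (0:ℝ)).indicator (fun w => Phi (t * w)) w
      = (Ioi (0:ℝ)).indicator (fun w => phi w * Phi (t * w)) w := by
    intro w
    by_cases hw : w ∈ Ioi (0:ℝ)
    · rw [indicator_of_mem hw, indicator_of_mem hw]
    · rw [indicator_of_notMem hw, indicator_of_notMem hw, mul_zero]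
  simp_rw [h2]
  rw [integral_indicator measurableSet_Ioi, integral_Ioi_phi_Phi]

variable {E : Type*} [NormedAddCommGroup E] [InnerProductSpace ℝ E] [FiniteDimensional ℝ E]
  [MeasurableSpace E] [BorelSpace E]

/-- exact wedge probability -/
lemma wedge_exact {a w : E} (ha : a ≠ 0) (hw : w ≠ 0) (haw : ⟪a, w⟫ = 0) (β : ℝ) :
    (stdGaussian E).real {x | ⟪a, x⟫ < 0 ∧ ⟪β • a + w, x⟫ < 0}
      = 1 / 4 + Real.arctan (β * ‖a‖ / ‖w‖) / (2 * Real.pi) := by
  have han : 0 < ‖a‖ := norm_pos_iff.2 ha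
  have hwn : 0 < ‖w‖ := norm_pos_iff.2 hw
  set a' := -(‖a‖⁻¹ • a) with ha'
  set w' := ‖w‖⁻¹ • w with hw'
  have hua : ‖a'‖ = 1 := by
    rw [ha', norm_neg, norm_smul, norm_inv, norm_norm, inv_mul_cancel₀ han.ne']
  have huw : ‖w'‖ = 1 := by rw [hw', norm_smul, norm_inv, norm_norm, inv_mul_cancel₀ hwn.ne']
  have horth : ⟪w', a'⟫ = 0 := by
    rw [ha', hw', inner_neg_right, real_inner_smul_left, real_inner_smul_right, real_inner_comm,
      haw]
    simp
  have hind : IndepFun (fun x : E => ⟪a', x⟫) (fun x : E => ⟪w', x⟫) (stdGaussian E) := by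
    have h1 := indep_forms (E := E) (κ := Unit) (e := w') (u := fun _ => a') (fun _ => horth)
    exact (h1.comp (φ := id) (ψ := fun f : Unit → ℝ => f ()) measurable_id (by fun_prop)).symm
  have hprod := (indepFun_iff_map_prod_eq_prod_map_map (by fun_prop) (by fun_prop)).1 hind
  rw [CM.map_inner_unit hua, CM.map_inner_unit huw] at hprod
  have hm : MeasurableSet {y : ℝ × ℝ | 0 < y.1 ∧ y.2 < (β * ‖a‖ / ‖w‖) * y.1} := by
    have h1 : MeasurableSet {y : ℝ × ℝ | 0 < y.1} := measurableSet_lt (by fun_prop) (by fun_prop)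
    have h2 : MeasurableSet {y : ℝ × ℝ | y.2 < (β * ‖a‖ / ‖w‖) * y.1} :=
      measurableSet_lt (by fun_prop) (by fun_prop)
    exact h1.inter h2
  rw [← prod_wedge_real, ← hprod, map_measureReal_apply (by fun_prop) hm]
  congr 1
  ext x
  simp only [mem_ofPred_eq, mem_preimage, ha', hw', real_inner_smul_left, inner_neg_left,
    inner_add_left]
  have hinv : 0 < ‖a‖⁻¹ := by positivity
  have hinv' : 0 < ‖w‖⁻¹ := by positivity
  have e1 : (0 < -(‖a‖⁻¹ * ⟪a, x⟫)) ↔ ⟪a, x⟫ < 0 := by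
    rw [neg_pos, mul_neg_iff]
    constructor
    · rintro (⟨_, h⟩ | ⟨h, _⟩)
      · exact h
      · linarith
    · intro h; exact Or.inl ⟨hinv, h⟩
  have e2 : (‖w‖⁻¹ * ⟪w, x⟫ < β * ‖a‖ / ‖w‖ * -(‖a‖⁻¹ * ⟪a, x⟫)) ↔ β * ⟪a, x⟫ + ⟪w, x⟫ < 0 := by
    have : β * ‖a‖ / ‖w‖ * -(‖a‖⁻¹ * ⟪a, x⟫) = ‖w‖⁻¹ * (-(β * ⟪a, x⟫)) := by field_simp
    rw [this, mul_lt_mul_iff_right₀ hinv']
    constructor <;> intro h <;> linarith
  rw [e1, e2]

/-- exact wedge probability, Gram form -/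
lemma wedge_gram {p q : E} (hp : p ≠ 0) (hq : q - (⟪p, q⟫ / ‖p‖ ^ 2) • p ≠ 0) :
    0 < ‖p‖ ^ 2 * ‖q‖ ^ 2 - ⟪p, q⟫ ^ 2 ∧
    (stdGaussian E).real {x | ⟪p, x⟫ < 0 ∧ ⟪q, x⟫ < 0}
      = 1 / 4 + Real.arctan (⟪p, q⟫ / √(‖p‖ ^ 2 * ‖q‖ ^ 2 - ⟪p, q⟫ ^ 2)) / (2 * Real.pi) := by
  set β := ⟪p, q⟫ / ‖p‖ ^ 2 with hβ
  set w := q - β • p with hw
  have hpn : 0 < ‖p‖ := norm_pos_iff.2 hp
  have hwn : 0 < ‖w‖ := norm_pos_iff.2 hq
  have hpw : ⟪p, w⟫ = 0 := by
    rw [hw, inner_sub_right, real_inner_smul_right, real_inner_self_eq_norm_sq, hβ]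
    field_simp
    ring
  have hn : ‖w‖ ^ 2 * ‖p‖ ^ 2 = ‖p‖ ^ 2 * ‖q‖ ^ 2 - ⟪p, q⟫ ^ 2 := by
    have : ‖w‖ ^ 2 = ‖q‖ ^ 2 - 2 * (β * ⟪p, q⟫) + β ^ 2 * ‖p‖ ^ 2 := by
      rw [hw, norm_sub_sq_real, real_inner_smul_right, real_inner_comm, norm_smul, mul_pow,
        Real.norm_eq_abs, sq_abs]
    rw [this, hβ]
    field_simp
    ring
  have hpos : 0 < ‖p‖ ^ 2 * ‖q‖ ^ 2 - ⟪p, q⟫ ^ 2 := by rw [← hn]; positivity
  refine ⟨hpos, ?_⟩
  have h := wedge_exact hp hq hpw β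
  have e : β • p + w = q := by rw [hw]; abel
  rw [e] at h
  rw [h]
  congr 3
  have hs : √(‖p‖ ^ 2 * ‖q‖ ^ 2 - ⟪p, q⟫ ^ 2) = ‖w‖ * ‖p‖ := by
    rw [← hn, ← mul_pow, Real.sqrt_sq (by positivity)]
  rw [hs, hβ]
  field_simp

end Crest.Agent.R215.K4
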