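import Crest.Agent.R215.K4Real
import Crest.Agent.R215.K4Wedge

/-!
# Row 215: no critical configuration with four cells
-/

set_option autoImplicit false
set_option linter.unusedSectionVars false
open MeasureTheory ProbabilityTheory Set Filter Topology
open scoped NNReal ENNReal RealInnerProductSpace

namespace Crest.Agent.R215.K4

open Crest.Agent.R215.Tie

section gram

variable {E : Type*} [NormedAddCommGroup E] [InnerProductSpace ℝ E]

/-- squared double area of a triangle -/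
noncomputable def ar (p q r : E) : ℝ := ⟪p - q, p - q⟫ * ⟪r - p, r - p⟫ - ⟪p - q, r - p⟫ ^ 2

/-- normal inner product at the edge `p q` -/
noncomputable def nn (p q r s : E) : ℝ :=
  ⟪p - q, p - q⟫ * ⟪r - p, s - p⟫ - ⟪p - q, r - p⟫ * ⟪p - q, s - p⟫

/-- Gram determinant of a tetrahedron -/
noncomputable def gd (p q r s : E) : ℝ :=
  ⟪p - q, p - q⟫ * ⟪r - p, r - p⟫ * ⟪s - p, s - p⟫ + 2 * ⟪p - q, r - p⟫ * ⟪r - p, s - p⟫ * ⟪p - q, s - p⟫
    - ⟪p - q, p - q⟫ * ⟪r - p, s - p⟫ ^ 2 - ⟪r - p, r - p⟫ * ⟪p - q, s - p⟫ ^ 2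
    - ⟪s - p, s - p⟫ * ⟪p - q, r - p⟫ ^ 2

lemma ar_mul_ar (p q r s : E) : ar p q r * ar p q s = nn p q r s ^ 2 + ⟪p - q, p - q⟫ * gd p q r s := by
  unfold ar nn gd; ring

lemma ar_rot (p q r : E) : ar q r p = ar p q r := by
  unfold ar
  simp only [inner_sub_left, inner_sub_right, real_inner_comm q p, real_inner_comm r p,
    real_inner_comm r q]
  ring

lemma ar_swap (p q r : E) : ar q p r = ar p q r := by
  unfold ar
  simp only [inner_sub_left, inner_sub_right, real_inner_comm q p, real_inner_comm r p,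
    real_inner_comm r q]
  ring

lemma ar_swap23 (p q r : E) : ar p r q = ar p q r := by
  rw [ar_rot, ar_swap]

lemma gd_swap12 (p q r s : E) : gd q p r s = gd p q r s := by
  unfold gd
  simp only [inner_sub_left, inner_sub_right, real_inner_comm q p, real_inner_comm r p,
    real_inner_comm r q, real_inner_comm s p, real_inner_comm s q, real_inner_comm s r]
  ring

lemma gd_swap34 (p q r s : E) : gd p q s r = gd p q r s := by
  unfold gd
  rw [real_inner_comm (r - p) (s - p)]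
  ring

lemma gd_swap23 (p q r s : E) : gd p r q s = gd p q r s := by
  unfold gd
  simp only [inner_sub_left, inner_sub_right, real_inner_comm q p, real_inner_comm r p,
    real_inner_comm r q, real_inner_comm s p, real_inner_comm s q, real_inner_comm s r]
  ring

lemma nn_swap12 (p q r s : E) : nn q p r s = nn p q r s := by
  unfold nn
  simp only [inner_sub_left, inner_sub_right, real_inner_comm q p, real_inner_comm r p,
    real_inner_comm r q, real_inner_comm s p, real_inner_comm s q, real_inner_comm s r]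
  ring

lemma nn_swap34 (p q r s : E) : nn p q s r = nn p q r s := by
  unfold nn
  rw [real_inner_comm (r - p) (s - p)]
  ring

/-- area projection formula: face `q r s` against the three other faces -/
lemma ar_sum (p q r s : E) : ar q r s = nn q r s p + nn q s r p + nn r s q p := by
  unfold ar nn
  simp only [inner_sub_left, inner_sub_right, real_inner_comm q p, real_inner_comm r p,
    real_inner_comm r q, real_inner_comm s p, real_inner_comm s q, real_inner_comm s r]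
  ring

end gram

section edge

variable {E : Type*} [NormedAddCommGroup E] [InnerProductSpace ℝ E] [FiniteDimensional ℝ E]
  [MeasurableSpace E] [BorelSpace E]

/-- `π √(2π) / 2` -/
noncomputable def κ : ℝ := Real.pi * √(2 * Real.pi) / 2

lemma κ_pos : 0 < κ := by unfold κ; positivity

/-- trigonometric consequences of `l = π/2 + arctan t` -/
lemma trig {l t : ℝ} (h : l = Real.pi / 2 + Real.arctan t) (h0 : 0 < l) :
    l < Real.pi ∧ H l = l * t ∧ l / Real.sin l = l * √(1 + t ^ 2) := by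
  have h1 := Real.arctan_lt_pi_div_two t
  have hs : Real.sin l = 1 / √(1 + t ^ 2) := by
    rw [h, add_comm, Real.sin_add_pi_div_two, Real.cos_arctan]
  have hc : Real.cos l = -(t / √(1 + t ^ 2)) := by
    rw [h, add_comm, Real.cos_add_pi_div_two, Real.sin_arctan]
  have hq : 0 < √(1 + t ^ 2) := Real.sqrt_pos.2 (by positivity)
  refine ⟨by linarith, ?_, ?_⟩
  · rw [H, hs, hc]
    field_simp
  · rw [hs]
    field_simp

lemma gram_aux {e u w : E} (he : e ≠ 0) :
    ‖e‖ ^ 2 * ⟪u - (⟪e, u⟫ / ‖e‖ ^ 2) • e, w - (⟪e, w⟫ / ‖e‖ ^ 2) • e⟫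
      = ⟪e, e⟫ * ⟪u, w⟫ - ⟪e, u⟫ * ⟪e, w⟫ := by
  have hn : 0 < ‖e‖ := norm_pos_iff.2 he
  simp only [inner_sub_left, inner_sub_right, real_inner_smul_left, real_inner_smul_right,
    real_inner_self_eq_norm_sq, real_inner_comm e u]
  field_simp
  ring

lemma perp_gram {z : Fin 4 → E} {j l : Fin 4} (hz : z j ≠ z l) (i m : Fin 4) :
    ‖z j - z l‖ ^ 2 * ⟪perp z j l i, perp z j l m⟫ = nn (z j) (z l) (z i) (z m) :=
  gram_aux (sub_ne_zero.2 hz)

lemma ar_eq_nn (p q r : E) : ar p q r = nn p q r r := by unfold ar nn; ring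

variable (c : Crit E (Fin 4))

lemma perp_perp_ne_zero {j l i m : Fin 4} (hjl : j ≠ l) (hij : i ≠ j) (hil : i ≠ l) (hmj : m ≠ j)
    (hml : m ≠ l) (hmi : m ≠ i) (r : ℝ) :
    perp c.z j l m - r • perp c.z j l i ≠ 0 := by
  intro h
  have := c.nonempty
  set r1 : ℝ := ⟪c.z j - c.z l, c.z i - c.z j⟫ / ‖c.z j - c.z l‖ ^ 2 with hr1
  set r2 : ℝ := ⟪c.z j - c.z l, c.z m - c.z j⟫ / ‖c.z j - c.z l‖ ^ 2 with hr2
  let a : Fin 4 → ℝ := fun n => (if n = m then 1 else 0) + (if n = j then (-1 - r2 + r + r * r1) else 0)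
    + (if n = l then r2 - r * r1 else 0) + (if n = i then -r else 0)
  have h2 : ∑ n, a n • c.z n = 0 := by
    simp only [a, add_smul, ite_smul, zero_smul, Finset.sum_add_distrib, Finset.sum_ite_eq',
      Finset.mem_univ, if_true]
    rw [← h, perp, perp, ← hr1, ← hr2]
    module
  have h3 := const_of_relation c.sum_z (fun i j hij => c.inner_lt hij) h2
  have h4 : a m = a j := h3 m j
  have h5 : a m = a l := h3 m l
  have h6 : a m = a i := h3 m i
  simp only [a, if_true, hmj, hml, hmi, hjl, hjl.symm, hij, hij.symm, hil, hil.symm, hmj.symm,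
    hml.symm, hmi.symm, if_false, add_zero, zero_add] at h4 h5 h6
  linarith

lemma tieSet_four {j l i m : Fin 4} (hjl : j ≠ l) (hij : i ≠ j) (hil : i ≠ l) (hmj : m ≠ j)
    (hml : m ≠ l) (hmi : m ≠ i) (z : Fin 4 → E) :
    tieSet z j l = {x | ⟪perp z j l i, x⟫ < 0 ∧ ⟪perp z j l m, x⟫ < 0} := by
  ext x
  simp only [tieSet, mem_ofPred_eq]
  constructor
  · intro h; exact ⟨h i hij hil, h m hmj hml⟩
  · rintro ⟨h1, h2⟩ n hnj hnl
    have key : ∀ j l i m n : Fin 4, j ≠ l → i ≠ j → i ≠ l → m ≠ j → m ≠ l → m ≠ i → n ≠ j →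
        n ≠ l → n = i ∨ n = m := by decide
    rcases key j l i m n hjl hij hil hmj hml hmi hnj hnl with rfl | rfl
    · exact h1
    · exact h2

lemma edge {j l i m : Fin 4} (hjl : j ≠ l) (hij : i ≠ j) (hil : i ≠ l) (hmj : m ≠ j) (hml : m ≠ l)
    (hmi : m ≠ i) :
    0 < gd (c.z j) (c.z l) (c.z i) (c.z m) ∧
    0 < ar (c.z j) (c.z l) (c.z i) ∧
    Ang (√(κ / √(gd (c.z j) (c.z l) (c.z i) (c.z m)) * ar (c.z j) (c.z l) (c.z m)))
      (√(κ / √(gd (c.z j) (c.z l) (c.z i) (c.z m)) * ar (c.z j) (c.z l) (c.z i)))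
      (κ * ‖c.z j - c.z l‖) ∧
    H (κ * ‖c.z j - c.z l‖) =
      κ / √(gd (c.z j) (c.z l) (c.z i) (c.z m)) * nn (c.z j) (c.z l) (c.z i) (c.z m) := by
  have hz : c.z j ≠ c.z l := fun h => hjl (c.z_injective h)
  have hp := perp_ne_zero c hjl hij hil
  have hq := perp_ne_zero c hjl hmj hml
  have hpq := perp_perp_ne_zero c hjl hij hil hmj hml hmi
  have tie := tie_crit c hjl
  rw [tieSet_four hjl hij hil hmj hml hmi] at tie
  obtain ⟨hX, hw⟩ := wedge_gram hp (hpq _)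
  rw [hw] at tie
  have g1 := perp_gram hz i m
  have g2 := perp_gram hz i i
  have g3 := perp_gram hz m m
  rw [← ar_eq_nn, real_inner_self_eq_norm_sq] at g2 g3
  have g4 := ar_mul_ar (c.z j) (c.z l) (c.z i) (c.z m)
  rw [real_inner_self_eq_norm_sq] at g4
  set p := perp c.z j l i
  set q := perp c.z j l m
  set D := ‖c.z j - c.z l‖ with hD
  set N := nn (c.z j) (c.z l) (c.z i) (c.z m)
  set Ai := ar (c.z j) (c.z l) (c.z i)
  set Am := ar (c.z j) (c.z l) (c.z m)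
  set Δ := gd (c.z j) (c.z l) (c.z i) (c.z m)
  set X := ‖p‖ ^ 2 * ‖q‖ ^ 2 - ⟪p, q⟫ ^ 2 with hXdef
  have hDpos : 0 < D := norm_pos_iff.2 (sub_ne_zero.2 hz)
  have hpn : 0 < ‖p‖ := norm_pos_iff.2 hp
  have hqn : 0 < ‖q‖ := norm_pos_iff.2 hq
  have hAi : 0 < Ai := by rw [← g2]; positivity
  have hAm : 0 < Am := by rw [← g3]; positivity
  have hΔ : Δ = D ^ 2 * X := by
    have : D ^ 2 * Δ = D ^ 2 * (D ^ 2 * X) := by
      have : D ^ 2 * Δ = Ai * Am - N ^ 2 := by linarith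
      rw [this, ← g1, ← g2, ← g3, hXdef]; ring
    exact mul_left_cancel₀ (by positivity) this
  have hΔpos : 0 < Δ := by rw [hΔ]; positivity
  have hsΔ : √Δ = D * √X := by
    rw [hΔ, Real.sqrt_mul (by positivity), Real.sqrt_sq hDpos.le]
  have hsX : 0 < √X := Real.sqrt_pos.2 hX
  set t := ⟪p, q⟫ / √X with ht
  have hl : κ * D = Real.pi / 2 + Real.arctan t := by
    have hpi := Real.pi_pos
    simp only [Fintype.card_fin, Nat.cast_ofNat] at tie
    unfold κ
    field_simp at tie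
    linarith
  have hκ := κ_pos
  obtain ⟨t1, t2, t3⟩ := trig hl (by positivity)
  have eN : ⟪p, q⟫ = N / D ^ 2 := by rw [← g1]; field_simp
  have K0 : 0 < κ / √Δ := by have := Real.sqrt_pos.2 hΔpos; positivity
  refine ⟨hΔpos, hAi, ⟨by positivity, t1, ?_⟩, ?_⟩
  · rw [t3]
    have e1 : √(κ / √Δ * Am) * √(κ / √Δ * Ai) = κ / √Δ * (√Am * √Ai) := by
      rw [Real.sqrt_mul K0.le, Real.sqrt_mul K0.le]
      have : √(κ / √Δ) * √(κ / √Δ) = κ / √Δ := Real.mul_self_sqrt K0.le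
      calc √(κ / √Δ) * √Am * (√(κ / √Δ) * √Ai) = (√(κ / √Δ) * √(κ / √Δ)) * (√Am * √Ai) := by ring
        _ = _ := by rw [this]
    have eAm : √Am = D * ‖q‖ := by rw [← g3, ← mul_pow, Real.sqrt_sq (by positivity)]
    have eAi : √Ai = D * ‖p‖ := by rw [← g2, ← mul_pow, Real.sqrt_sq (by positivity)]
    have e2 : √(1 + t ^ 2) = ‖p‖ * ‖q‖ / √X := by
      have : 1 + t ^ 2 = (‖p‖ * ‖q‖ / √X) ^ 2 := by
        rw [ht, div_pow, div_pow, Real.sq_sqrt hX.le]
        field_simp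
        rw [hXdef]
        ring
      rw [this, Real.sqrt_sq (by positivity)]
    rw [e1, eAm, eAi, e2, hsΔ]
    field_simp
  · rw [t2, ht, eN, hsΔ]
    field_simp

end edge

section main

variable {E : Type*} [NormedAddCommGroup E] [InnerProductSpace ℝ E] [FiniteDimensional ℝ E]
  [MeasurableSpace E] [BorelSpace E]

theorem isEmpty_crit_four : IsEmpty (Crit E (Fin 4)) := by
  refine ⟨fun c => ?_⟩
  set z0 := c.z 0
  set z1 := c.z 1
  set z2 := c.z 2
  set z3 := c.z 3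
  obtain ⟨hΔ, _, ang01, H01⟩ := edge c (j := 0) (l := 1) (i := 2) (m := 3) (by decide) (by decide)
    (by decide) (by decide) (by decide) (by decide)
  obtain ⟨_, _, ang02, H02⟩ := edge c (j := 0) (l := 2) (i := 1) (m := 3) (by decide) (by decide)
    (by decide) (by decide) (by decide) (by decide)
  obtain ⟨_, _, ang03, H03⟩ := edge c (j := 0) (l := 3) (i := 1) (m := 2) (by decide) (by decide)
    (by decide) (by decide) (by decide) (by decide)
  obtain ⟨_, _, ang12, H12⟩ := edge c (j := 1) (l := 2) (i := 0) (m := 3) (by decide) (by decide)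
    (by decide) (by decide) (by decide) (by decide)
  obtain ⟨_, _, ang13, H13⟩ := edge c (j := 1) (l := 3) (i := 0) (m := 2) (by decide) (by decide)
    (by decide) (by decide) (by decide) (by decide)
  obtain ⟨_, _, ang23, H23⟩ := edge c (j := 2) (l := 3) (i := 0) (m := 1) (by decide) (by decide)
    (by decide) (by decide) (by decide) (by decide)
  have hV := c.V_gt
  have hsum := c.sum_z
  have hsq := c.sumsq
  rw [Fin.sum_univ_four] at hsum hsq
  change z0 + z1 + z2 + z3 = 0 at hsum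
  change ‖z0‖ ^ 2 + ‖z1‖ ^ 2 + ‖z2‖ ^ 2 + ‖z3‖ ^ 2 = c.V at hsq
  change 0 < gd z0 z1 z2 z3 at hΔ
  change Ang (√(κ / √(gd z0 z1 z2 z3) * ar z0 z1 z3)) (√(κ / √(gd z0 z1 z2 z3) * ar z0 z1 z2))
    (κ * ‖z0 - z1‖) at ang01
  change Ang (√(κ / √(gd z0 z2 z1 z3) * ar z0 z2 z3)) (√(κ / √(gd z0 z2 z1 z3) * ar z0 z2 z1))
    (κ * ‖z0 - z2‖) at ang02
  change Ang (√(κ / √(gd z0 z3 z1 z2) * ar z0 z3 z2)) (√(κ / √(gd z0 z3 z1 z2) * ar z0 z3 z1))
    (κ * ‖z0 - z3‖) at ang03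
  change Ang (√(κ / √(gd z1 z2 z0 z3) * ar z1 z2 z3)) (√(κ / √(gd z1 z2 z0 z3) * ar z1 z2 z0))
    (κ * ‖z1 - z2‖) at ang12
  change Ang (√(κ / √(gd z1 z3 z0 z2) * ar z1 z3 z2)) (√(κ / √(gd z1 z3 z0 z2) * ar z1 z3 z0))
    (κ * ‖z1 - z3‖) at ang13
  change Ang (√(κ / √(gd z2 z3 z0 z1) * ar z2 z3 z1)) (√(κ / √(gd z2 z3 z0 z1) * ar z2 z3 z0))
    (κ * ‖z2 - z3‖) at ang23
  change H (κ * ‖z0 - z1‖) = κ / √(gd z0 z1 z2 z3) * nn z0 z1 z2 z3 at H01
  change H (κ * ‖z0 - z2‖) = κ / √(gd z0 z2 z1 z3) * nn z0 z2 z1 z3 at H02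
  change H (κ * ‖z0 - z3‖) = κ / √(gd z0 z3 z1 z2) * nn z0 z3 z1 z2 at H03
  change H (κ * ‖z1 - z2‖) = κ / √(gd z1 z2 z0 z3) * nn z1 z2 z0 z3 at H12
  change H (κ * ‖z1 - z3‖) = κ / √(gd z1 z3 z0 z2) * nn z1 z3 z0 z2 at H13
  change H (κ * ‖z2 - z3‖) = κ / √(gd z2 z3 z0 z1) * nn z2 z3 z0 z1 at H23
  have d02 : gd z0 z2 z1 z3 = gd z0 z1 z2 z3 := gd_swap23 _ _ _ _
  have d03 : gd z0 z3 z1 z2 = gd z0 z1 z2 z3 := by rw [gd_swap23, gd_swap34]
  have d12 : gd z1 z2 z0 z3 = gd z0 z1 z2 z3 := by rw [gd_swap23, gd_swap12]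
  have d13 : gd z1 z3 z0 z2 = gd z0 z1 z2 z3 := by rw [gd_swap23, gd_swap12, gd_swap34]
  have d23 : gd z2 z3 z0 z1 = gd z0 z1 z2 z3 := by
    rw [gd_swap23, gd_swap12, gd_swap34, gd_swap23]
  have a021 : ar z0 z2 z1 = ar z0 z1 z2 := ar_swap23 _ _ _
  have a032 : ar z0 z3 z2 = ar z0 z2 z3 := ar_swap23 _ _ _
  have a031 : ar z0 z3 z1 = ar z0 z1 z3 := ar_swap23 _ _ _
  have a120 : ar z1 z2 z0 = ar z0 z1 z2 := ar_rot _ _ _
  have a132 : ar z1 z3 z2 = ar z1 z2 z3 := ar_swap23 _ _ _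
  have a130 : ar z1 z3 z0 = ar z0 z1 z3 := ar_rot _ _ _
  have a231 : ar z2 z3 z1 = ar z1 z2 z3 := ar_rot _ _ _
  have a230 : ar z2 z3 z0 = ar z0 z2 z3 := ar_rot _ _ _
  rw [d02, a021] at ang02
  rw [d03, a032, a031] at ang03
  rw [d12, a120] at ang12
  rw [d13, a132, a130] at ang13
  rw [d23, a231, a230] at ang23
  rw [d02] at H02
  rw [d03] at H03
  rw [d12] at H12
  rw [d13] at H13
  rw [d23] at H23
  set K := κ / √(gd z0 z1 z2 z3) with hK
  have hKpos : 0 < K := by have := Real.sqrt_pos.2 hΔ; have := κ_pos; positivity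
  have s0 := ar_sum z0 z1 z2 z3
  have s1 := ar_sum z1 z0 z2 z3
  have s2 := ar_sum z2 z0 z1 z3
  have s3 := ar_sum z3 z0 z1 z2
  have hpos : ∀ {x y l : ℝ}, Ang x (√y) l → 0 < √y := by
    intro x y l h
    have hs : 0 < Real.sin l := Real.sin_pos_of_pos_of_lt_pi h.pos h.lt
    rcases (Real.sqrt_nonneg y).lt_or_eq with h1 | h1
    · exact h1
    · exfalso
      have := h.eq
      rw [← h1, mul_zero] at this
      have h2 : 0 < l / Real.sin l := div_pos h.pos hs
      linarith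
  have p1 := hpos ang23
  have p2 := hpos ang13
  have p3 := hpos ang12
  have p0 := hpos ang12.symm
  have sq : ∀ {y : ℝ}, 0 < √y → √y ^ 2 = y := fun h => Real.sq_sqrt (Real.sqrt_pos.1 h).le
  have main := real_main p0 p1 p2 p3 ang23 ang13 ang12 ang03 ang02 ang01
    (by rw [sq p0, H23, H13, H12, s0, nn_swap34 z1 z2, nn_swap34 z1 z3, nn_swap34 z2 z3]; ring)
    (by rw [sq p1, H23, H03, H02, s1, nn_swap34 z0 z2, nn_swap34 z0 z3]; ring)
    (by rw [sq p2, H13, H03, H01, s2, nn_swap34 z0 z1]; ring)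
    (by rw [sq p3, H12, H02, H01, s3]; ring)
  have hdist : ‖z2 - z3‖ ^ 2 + ‖z1 - z3‖ ^ 2 + ‖z1 - z2‖ ^ 2 + ‖z0 - z3‖ ^ 2 + ‖z0 - z2‖ ^ 2
      + ‖z0 - z1‖ ^ 2 = 4 * c.V := by
    have e : z3 = -(z0 + z1 + z2) := by
      rw [eq_neg_iff_add_eq_zero, ← hsum]; abel
    rw [← hsq]
    simp only [← real_inner_self_eq_norm_sq, e, inner_sub_left, inner_sub_right, inner_add_left,
      inner_add_right, inner_neg_left, inner_neg_right, real_inner_comm z1 z0,
      real_inner_comm z2 z0, real_inner_comm z2 z1]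
    ring
  have hκ : κ ^ 2 = Real.pi ^ 3 / 2 := by
    unfold κ
    rw [div_pow, mul_pow, Real.sq_sqrt (by positivity)]
    ring
  have hfin : Real.pi ^ 3 / 2 * (4 * c.V) < 9 * Real.pi ^ 2 / 4 := by
    rw [← hdist, ← hκ]
    refine lt_of_eq_of_lt ?_ main
    ring
  have hc : cC = 9 / (8 * Real.pi) := rfl
  rw [hc, div_lt_iff₀ (by positivity)] at hV
  have hpi := Real.pi_pos
  have : Real.pi ^ 3 / 2 * (4 * c.V) = Real.pi ^ 2 / 4 * (c.V * (8 * Real.pi)) := by ring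
  rw [this] at hfin
  have h2 : Real.pi ^ 2 / 4 * 9 < Real.pi ^ 2 / 4 * (c.V * (8 * Real.pi)) :=
    mul_lt_mul_of_pos_left hV (by positivity)
  linarith

end main

end Crest.Agent.R215.K4
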