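import Mathlib

/-!
# Row 215: the real-variable part of the four-cell case
-/

set_option autoImplicit false

open Real Set

namespace Crest.Agent.R215.K4

/-- `x / sin x` is strictly increasing on `(0, π)` -/
lemma P_lt {x y : ℝ} (hx : 0 < x) (hxy : x < y) (hy : y < π) : x / sin x < y / sin y := by
  have hsx : 0 < sin x := sin_pos_of_pos_of_lt_pi hx (hxy.trans hy)
  have hsy : 0 < sin y := sin_pos_of_pos_of_lt_pi (hx.trans hxy) hy
  have hc := strictConcaveOn_sin_Icc
  have hy0 : 0 < y := hx.trans hxy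
  have h1 : (1 - x / y) • sin 0 + (x / y) • sin y < sin ((1 - x / y) • (0:ℝ) + (x / y) • y) :=
    hc.2 ⟨le_rfl, pi_pos.le⟩ ⟨hy0.le, hy.le⟩ hy0.ne
      (by rw [sub_pos, div_lt_one hy0]; exact hxy) (by positivity) (by ring)
  simp only [smul_eq_mul, mul_zero, zero_add, sin_zero] at h1
  rw [div_mul_cancel₀ _ hy0.ne'] at h1
  rw [div_lt_div_iff₀ hsx hsy]
  have h2 : x / y * sin y * y < sin x * y := by
    exact mul_lt_mul_of_pos_right h1 hy0
  have h3 : x / y * sin y * y = x * sin y := by field_simp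
  linarith

lemma P_inj {x y : ℝ} (hx : 0 < x) (hx' : x < π) (hy : 0 < y) (hy' : y < π)
    (h : x / sin x = y / sin y) : x = y := by
  rcases lt_trichotomy x y with h1 | h1 | h1
  · exact absurd h (P_lt hx h1 hy').ne
  · exact h1
  · exact absurd h (P_lt hy h1 hx').ne'

lemma lt_of_P_lt {x y : ℝ} (hx' : x < π) (hy : 0 < y)
    (h : x / sin x < y / sin y) : x < y := by
  by_contra hc
  rcases (not_lt.1 hc).lt_or_eq with h1 | h1
  · exact absurd h (P_lt hy h1 hx').not_gt
  · rw [h1] at h; exact lt_irrefl _ h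

/-- `x (1 + cos x) / sin x` is strictly decreasing on `(0, π)` -/
lemma q_lt {x y : ℝ} (hx : 0 < x) (hxy : x < y) (hy : y < π) :
    y * (1 + cos y) / sin y < x * (1 + cos x) / sin x := by
  -- `u cot u` is strictly decreasing
  have key : StrictAntiOn (fun u : ℝ => u * cos u / sin u) (Ioo 0 (π / 2)) := by
    apply strictAntiOn_of_deriv_neg (convex_Ioo _ _)
    · intro u hu
      have hs : sin u ≠ 0 := (sin_pos_of_pos_of_lt_pi hu.1 (by linarith [hu.2, pi_pos])).ne'
      exact ((continuous_id.mul continuous_cos).continuousAt.div continuous_sin.continuousAt hs).continuousWithinAt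
    · intro u hu
      rw [interior_Ioo] at hu
      have hs : 0 < sin u := sin_pos_of_pos_of_lt_pi hu.1 (by linarith [hu.2, pi_pos])
      have h1 : HasDerivAt (fun u : ℝ => u * cos u / sin u)
          (((1 * cos u + u * (-sin u)) * sin u - u * cos u * cos u) / sin u ^ 2) u :=
        ((hasDerivAt_id u).mul (hasDerivAt_cos u)).div (hasDerivAt_sin u) hs.ne'
      rw [h1.deriv]
      apply div_neg_of_neg_of_pos _ (by positivity)
      have h2 : sin (2 * u) < 2 * u := sin_lt (by linarith [hu.1])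
      rw [sin_two_mul] at h2
      nlinarith [sin_sq_add_cos_sq u, hu.1]
  have hx2 : x / 2 ∈ Ioo (0:ℝ) (π / 2) := ⟨by linarith, by linarith⟩
  have hy2 : y / 2 ∈ Ioo (0:ℝ) (π / 2) := ⟨by linarith, by linarith⟩
  have h := key hx2 hy2 (by linarith)
  simp only at h
  have conv : ∀ z ∈ Ioo (0:ℝ) π, z * (1 + cos z) / sin z = 2 * (z / 2 * cos (z / 2) / sin (z / 2)) := by
    intro z hz
    have hs : 0 < sin (z / 2) := sin_pos_of_pos_of_lt_pi (by linarith [hz.1]) (by linarith [hz.2, hz.1])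
    have hc : 0 < cos (z / 2) := cos_pos_of_mem_Ioo ⟨by linarith [hz.1], by linarith [hz.2]⟩
    have e1 : sin z = 2 * sin (z / 2) * cos (z / 2) := by
      rw [← sin_two_mul]; congr 1; ring
    have e2 : cos z = 2 * cos (z / 2) ^ 2 - 1 := by
      rw [← cos_two_mul]; congr 1; ring
    rw [e1, e2]
    field_simp
    ring
  rw [conv x ⟨hx, hxy.trans hy⟩, conv y ⟨hx.trans hxy, hy⟩]
  linarith

/-- angle data for one pair of faces: `μ μ' = ℓ / sin ℓ` -/
structure Ang (a b l : ℝ) : Prop where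
  pos : 0 < l
  lt : l < π
  eq : a * b = l / sin l

/-- `-ℓ cot ℓ` -/
noncomputable def H (l : ℝ) : ℝ := -(l * cos l / sin l)

lemma Ang.symm {a b l : ℝ} (h : Ang a b l) : Ang b a l := ⟨h.pos, h.lt, by rw [mul_comm]; exact h.eq⟩

lemma Ang.sub_H {a b l : ℝ} (h : Ang a b l) : a * b - H l = l * (1 + cos l) / sin l := by
  rw [h.eq, H]; ring

lemma Ang.uniq {a b l l' : ℝ} (h : Ang a b l) (h' : Ang a b l') : l = l' :=
  P_inj h.pos h.lt h'.pos h'.lt (h.eq.symm.trans h'.eq)

lemma Ang.q_lt {a b a' b' l l' : ℝ} (h : Ang a b l) (h' : Ang a' b' l') (hlt : a * b < a' * b') :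
    a' * b' - H l' < a * b - H l := by
  rw [h.sub_H, h'.sub_H]
  apply K4.q_lt h.pos _ h'.lt
  exact lt_of_P_lt h.lt h'.pos (by rw [← h.eq, ← h'.eq]; exact hlt)

/-- comparison of two different face areas -/
lemma pair_lt {a b c d lab lac lad lbc lbd : ℝ} (hc : 0 < c) (hd : 0 < d)
    (hac : Ang a c lac) (had : Ang a d lad) (hbc : Ang b c lbc) (hbd : Ang b d lbd)
    (Ea : a ^ 2 = H lab + H lac + H lad) (Eb : b ^ 2 = H lab + H lbc + H lbd) (hlt : b < a) :
    c + d < a + b := by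
  have h1 := hbc.q_lt hac (by nlinarith)
  have h2 := hbd.q_lt had (by nlinarith)
  by_contra hcon
  push Not at hcon
  nlinarith [mul_nonneg (sub_nonneg.2 hlt.le) (sub_nonneg.2 hcon)]

lemma matching {a b c d lab lac lad lbc lbd lcd : ℝ} (ha : 0 < a) (hb : 0 < b) (hc : 0 < c)
    (hd : 0 < d)
    (hac : Ang a c lac) (had : Ang a d lad) (hbc : Ang b c lbc) (hbd : Ang b d lbd)
    (Ea : a ^ 2 = H lab + H lac + H lad) (Eb : b ^ 2 = H lab + H lbc + H lbd)
    (Ec : c ^ 2 = H lac + H lbc + H lcd) (Ed : d ^ 2 = H lad + H lbd + H lcd) :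
    a = b ∨ c = d := by
  by_contra hcon
  push Not at hcon
  obtain ⟨h1, h2⟩ := hcon
  have k1 : c + d < a + b := by
    rcases lt_or_gt_of_ne h1 with h | h
    · have := pair_lt hc hd hbc hbd hac had Eb Ea h
      linarith
    · exact pair_lt hc hd hac had hbc hbd Ea Eb h
  have k2 : a + b < c + d := by
    rcases lt_or_gt_of_ne h2 with h | h
    · have := pair_lt (lab := lcd) ha hb had.symm hbd.symm hac.symm hbc.symm
        (by rw [Ed]; ring) (by rw [Ec]; ring) h
      linarith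
    · exact pair_lt (lab := lcd) ha hb hac.symm hbc.symm had.symm hbd.symm
        (by rw [Ec]; ring) (by rw [Ed]; ring) h
  linarith

/-- claim 2: `x > √3` -/
lemma claim2 {l : ℝ} (h0 : 0 < l) (h1 : l < π / 2) :
    l ^ 2 * (3 + 5 * cos l) < 3 * π ^ 2 / 4 * (1 + cos l) := by
  have hc : 0 < cos l := cos_pos_of_mem_Ioo ⟨by linarith, h1⟩
  have hκ : cos l ≤ π / 2 - l := by
    have := sin_lt (x := π / 2 - l) (by linarith)
    rw [sin_pi_div_two_sub] at this
    exact this.le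
  have hpi := pi_gt_three
  have hl2 : l ^ 2 < π ^ 2 / 4 := by nlinarith
  rcases le_or_gt (5 * l ^ 2) (3 * π ^ 2 / 4) with h | h
  · nlinarith [mul_nonneg hc.le (sub_nonneg.2 h)]
  · have h2 : cos l * (5 * l ^ 2 - 3 * π ^ 2 / 4) ≤ (π / 2 - l) * (5 * l ^ 2 - 3 * π ^ 2 / 4) :=
      mul_le_mul_of_nonneg_right hκ (by linarith)
    have hpi2 := pi_lt_d2
    have hpi3 := pi_gt_d2
    have hl1 : 6 / 5 < l := by
      by_contra hcon
      push Not at hcon
      nlinarith
    have h3 : 5 * l ^ 2 - 3 * π ^ 2 / 4 < 3 * (π / 2 + l) := by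
      nlinarith
    have h4 : (π / 2 - l) * (5 * l ^ 2 - 3 * π ^ 2 / 4) < (π / 2 - l) * (3 * (π / 2 + l)) :=
      mul_lt_mul_of_pos_left h3 (by linarith)
    nlinarith


/-- numerical step for claim 1 on a subinterval -/
lemma step {α s a0 a1 m0 : ℝ} (h0 : a0 ≤ α) (h1 : α ≤ a1) (hm : 0 ≤ m0) (hs : m0 ≤ s)
    (ha0 : 0 ≤ a0)
    (hnum : (1.5708 + a1) ^ 2 * (1 + 15 * m0 ^ 2) < 9 * 3.1415 ^ 2 * m0 ^ 2)
    (hnum2 : 15 * (1.5708 + a1) ^ 2 < 9 * 3.1415 ^ 2) :
    (π / 2 + α) ^ 2 * (1 + 15 * s ^ 2) < 9 * π ^ 2 * s ^ 2 := by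
  have hp1 : π / 2 ≤ 1.5708 := by linarith [pi_lt_d4]
  have hp2 : 3.1415 ≤ π := pi_gt_d4.le
  have hp0 : 0 < π := pi_pos
  have e1 : (π / 2 + α) ^ 2 ≤ (1.5708 + a1) ^ 2 := by
    apply pow_le_pow_left₀ (by linarith)
    linarith
  have e2 : (9 : ℝ) * 3.1415 ^ 2 ≤ 9 * π ^ 2 := by
    have := pow_le_pow_left₀ (by norm_num) hp2 2
    linarith
  have e3 : m0 ^ 2 ≤ s ^ 2 := pow_le_pow_left₀ hm hs 2
  set A := (π / 2 + α) ^ 2
  set B := (1.5708 + a1) ^ 2
  set S := s ^ 2
  set M := m0 ^ 2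
  have hM : 0 ≤ M := by positivity
  have hA : 0 ≤ A := by positivity
  -- A (1 + 15 S) < 9 π² S
  have f1 : A * (1 + 15 * S) ≤ B * (1 + 15 * S) := mul_le_mul_of_nonneg_right e1 (by linarith)
  have f2 : B * (1 + 15 * S) - 9 * 3.1415 ^ 2 * S ≤ B * (1 + 15 * M) - 9 * 3.1415 ^ 2 * M := by
    nlinarith [mul_nonneg (sub_nonneg.2 hnum2.le) (sub_nonneg.2 e3)]
  have f3 : 9 * 3.1415 ^ 2 * S ≤ 9 * π ^ 2 * S := mul_le_mul_of_nonneg_right e2 (by linarith)
  linarith

/-- claim 1 in terms of `α = ℓ₁ - π / 2` -/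
lemma claim1_aux {α : ℝ} (h0 : 0 < α) (hα : α < π / 2) (h1 : 1 / 3 ≤ sin α) (h2 : 3 * sin α ^ 2 ≤ 1) :
    (π / 2 + α) ^ 2 * (1 + 15 * sin α ^ 2) < 9 * π ^ 2 * sin α ^ 2 := by
  have hlow : 1 / 3 ≤ α := h1.trans (sin_lt h0).le
  have hcub : ∀ t, 0 ≤ t → t ≤ α → t - t ^ 3 / 6 ≤ sin α := by
    intro t ht hta
    rcases ht.lt_or_eq with ht' | ht'
    · exact (sin_gt_sub_cube ht').le.trans
        (sin_le_sin_of_le_of_le_pi_div_two (by linarith) hα.le hta)
    · rw [← ht']; norm_num; linarith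
  have hup : α ≤ 0.62 := by
    by_contra hcon
    push Not at hcon
    have := hcub 0.62 (by norm_num) hcon.le
    norm_num at this
    nlinarith
  rcases le_or_gt α 0.35 with c1 | c1
  · exact step (a0 := 1/3) (a1 := 0.35) (m0 := 1/3) hlow c1 (by norm_num) h1 (by norm_num)
      (by norm_num) (by norm_num)
  rcases le_or_gt α 0.37 with c2 | c2
  · exact step (a0 := 0.35) (a1 := 0.37) (m0 := 0.3428) c1.le c2 (by norm_num)
      (by have := hcub 0.35 (by norm_num) c1.le; norm_num at this; linarith) (by norm_num)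
      (by norm_num) (by norm_num)
  rcases le_or_gt α 0.4 with c3' | c3'
  · exact step (a0 := 0.37) (a1 := 0.4) (m0 := 0.3615) c2.le c3' (by norm_num)
      (by have := hcub 0.37 (by norm_num) c2.le; norm_num at this; linarith) (by norm_num)
      (by norm_num) (by norm_num)
  rcases le_or_gt α 0.43 with c3 | c3
  · exact step (a0 := 0.4) (a1 := 0.43) (m0 := 0.389) c3'.le c3 (by norm_num)
      (by have := hcub 0.4 (by norm_num) c3'.le; norm_num at this; linarith) (by norm_num)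
      (by norm_num) (by norm_num)
  rcases le_or_gt α 0.46 with c4 | c4
  · exact step (a0 := 0.43) (a1 := 0.46) (m0 := 0.416) c3.le c4 (by norm_num)
      (by have := hcub 0.43 (by norm_num) c3.le; norm_num at this; linarith) (by norm_num)
      (by norm_num) (by norm_num)
  rcases le_or_gt α 0.52 with c5 | c5
  · exact step (a0 := 0.46) (a1 := 0.52) (m0 := 0.443) c4.le c5 (by norm_num)
      (by have := hcub 0.46 (by norm_num) c4.le; norm_num at this; linarith) (by norm_num)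
      (by norm_num) (by norm_num)
  rcases le_or_gt α 0.58 with c6 | c6
  · exact step (a0 := 0.52) (a1 := 0.58) (m0 := 0.496) c5.le c6 (by norm_num)
      (by have := hcub 0.52 (by norm_num) c5.le; norm_num at this; linarith) (by norm_num)
      (by norm_num) (by norm_num)
  · exact step (a0 := 0.58) (a1 := 0.62) (m0 := 0.547) c6.le hup (by norm_num)
      (by have := hcub 0.58 (by norm_num) c6.le; norm_num at this; linarith) (by norm_num)
      (by norm_num) (by norm_num)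

/-- the symmetric case: three equal face areas -/
lemma one_three {x b l l1 : ℝ} (hb : 0 < b) (hx : 1 ≤ x)
    (h1 : Ang (x * b) b l1) (h : Ang b b l)
    (E1 : (x * b) ^ 2 = 3 * H l1) (E2 : b ^ 2 = H l1 + 2 * H l) :
    l ^ 2 + l1 ^ 2 < 3 * π ^ 2 / 4 := by
  have hs1 : 0 < sin l1 := sin_pos_of_pos_of_lt_pi h1.pos h1.lt
  have hs : 0 < sin l := sin_pos_of_pos_of_lt_pi h.pos h.lt
  have hP1 := h1.eq
  have hP := h.eq
  have hH1 : H l1 = -(x * b * b) * cos l1 := by rw [hP1, H]; ring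
  have hH : H l = -(b * b) * cos l := by rw [hP, H]; ring
  have hx0 : 0 < x := by linarith
  have c1 : cos l1 = -x / 3 := by
    rw [hH1] at E1
    have : x * b ^ 2 * (x + 3 * cos l1) = 0 := by nlinarith
    have h2 : x * b ^ 2 ≠ 0 := by positivity
    have := (mul_eq_zero.1 this).resolve_left h2
    linarith
  have c2 : cos l = (x ^ 2 - 3) / 6 := by
    rw [hH1, hH, c1] at E2
    have : b ^ 2 * (1 - x ^ 2 / 3 + 2 * cos l) = 0 := by nlinarith
    have h2 : b ^ 2 ≠ 0 := by positivity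
    have := (mul_eq_zero.1 this).resolve_left h2
    linarith
  have s1 : sin l1 ^ 2 = (9 - x ^ 2) / 9 := by
    have := sin_sq_add_cos_sq l1
    rw [c1] at this
    linarith
  have s2 : sin l ^ 2 = (9 - x ^ 2) * (3 + x ^ 2) / 36 := by
    have := sin_sq_add_cos_sq l
    rw [c2] at this
    linarith
  have h9 : 0 < 9 - x ^ 2 := by nlinarith [sq_nonneg (sin l1), pow_pos hs1 2]
  -- tie relation
  have t1 : l1 * sin l = x * l * sin l1 := by
    have : x * (l / sin l) = l1 / sin l1 := by rw [← hP, ← hP1]; ring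
    field_simp at this
    linarith
  have t2 : l1 ^ 2 * (3 + x ^ 2) = 4 * x ^ 2 * l ^ 2 := by
    have e : (l1 * sin l) ^ 2 = (x * l * sin l1) ^ 2 := by rw [t1]
    rw [mul_pow, mul_pow, mul_pow, s1, s2] at e
    have : (9 - x ^ 2) * (l1 ^ 2 * (3 + x ^ 2) - 4 * x ^ 2 * l ^ 2) = 0 := by linarith
    have := (mul_eq_zero.1 this).resolve_left h9.ne'
    linarith
  by_contra hcon
  push Not at hcon
  have hA : 3 * π ^ 2 / 4 * (3 + x ^ 2) ≤ l ^ 2 * (3 + 5 * x ^ 2) := by
    nlinarith [mul_le_mul_of_nonneg_right hcon (by positivity : (0:ℝ) ≤ 3 + x ^ 2)]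
  have hB : 3 * π ^ 2 * x ^ 2 ≤ l1 ^ 2 * (3 + 5 * x ^ 2) := by
    have := mul_le_mul_of_nonneg_left hcon (by positivity : (0:ℝ) ≤ 4 * x ^ 2)
    nlinarith
  rcases le_or_gt (x ^ 2) 3 with h3 | h3
  · -- claim 1
    have hl1 : π / 2 < l1 := by
      by_contra hc
      push Not at hc
      have := cos_nonneg_of_mem_Icc ⟨by linarith [h1.pos, pi_pos], hc⟩
      rw [c1] at this
      linarith
    have hsα : sin (l1 - π / 2) = x / 3 := by
      rw [sin_sub_pi_div_two, c1]; ring
    have h4 := claim1_aux (α := l1 - π / 2) (by linarith) (by linarith [h1.lt])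
      (by rw [hsα]; linarith) (by rw [hsα]; nlinarith)
    rw [hsα] at h4
    have e : π / 2 + (l1 - π / 2) = l1 := by ring
    rw [e] at h4
    nlinarith
  · have hl : l < π / 2 := by
      by_contra hc
      push Not at hc
      have := cos_nonpos_of_pi_div_two_le_of_le hc (by linarith [h.lt, pi_pos])
      rw [c2] at this
      linarith
    have h4 := claim2 h.pos hl
    rw [c2] at h4
    nlinarith

/-- three equal faces, one possibly larger -/
lemma three_eq {a b lab lac lad lbc lbd lcd : ℝ} (hb : 0 < b)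
    (hab : Ang a b lab) (hac : Ang a b lac) (had : Ang a b lad) (hbc : Ang b b lbc)
    (hbd : Ang b b lbd) (hcd : Ang b b lcd)
    (Ea : a ^ 2 = H lab + H lac + H lad) (Eb : b ^ 2 = H lab + H lbc + H lbd) :
    lab ^ 2 + lac ^ 2 + lad ^ 2 + lbc ^ 2 + lbd ^ 2 + lcd ^ 2 < 9 * π ^ 2 / 4 := by
  have e1 := hac.uniq hab
  have e2 := had.uniq hab
  have e3 := hbd.uniq hbc
  have e4 := hcd.uniq hbc
  subst e1 e2 e3 e4
  have hle : b ≤ a := by
    by_contra hcon
    push Not at hcon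
    have := pair_lt (a := b) (b := a) (c := b) (d := b) hb hb hbc hbc hab hab Eb Ea hcon
    linarith
  have := one_three (x := a / b) (b := b) (l := lcd) (l1 := lad) hb
    (by rw [le_div_iff₀ hb]; linarith) (by rw [div_mul_cancel₀ _ hb.ne']; exact hab) hbc
    (by rw [div_mul_cancel₀ _ hb.ne', Ea]; ring) (by rw [Eb]; ring)
  linarith

theorem real_main {a b c d lab lac lad lbc lbd lcd : ℝ} (ha : 0 < a) (hb : 0 < b) (hc : 0 < c)
    (hd : 0 < d) (hab : Ang a b lab)
    (hac : Ang a c lac) (had : Ang a d lad) (hbc : Ang b c lbc) (hbd : Ang b d lbd)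
    (hcd : Ang c d lcd)
    (Ea : a ^ 2 = H lab + H lac + H lad) (Eb : b ^ 2 = H lab + H lbc + H lbd)
    (Ec : c ^ 2 = H lac + H lbc + H lcd) (Ed : d ^ 2 = H lad + H lbd + H lcd) :
    lab ^ 2 + lac ^ 2 + lad ^ 2 + lbc ^ 2 + lbd ^ 2 + lcd ^ 2 < 9 * π ^ 2 / 4 := by
  have m1 : a = b ∨ c = d := matching ha hb hc hd hac had hbc hbd Ea Eb Ec Ed
  have m2 : a = c ∨ b = d := matching (lab := lac) (lcd := lbd) ha hc hb hd hab had hbc.symm hcd
    (by linarith) (by linarith) (by linarith) (by linarith)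
  have m3 : a = d ∨ b = c := matching (lab := lad) (lcd := lbc) ha hd hb hc hab hac
    hbd.symm hcd.symm (by linarith) (by linarith) (by linarith) (by linarith)
  have main : (b = c ∧ b = d) ∨ (a = c ∧ a = d) ∨ (a = b ∧ a = d) ∨ (a = b ∧ a = c) := by
    rcases m1 with m1 | m1 <;> rcases m2 with m2 | m2 <;> rcases m3 with m3 | m3 <;>
      simp_all
  rcases main with ⟨h1, h2⟩ | ⟨h1, h2⟩ | ⟨h1, h2⟩ | ⟨h1, h2⟩
  · subst h1 h2
    exact three_eq hb hab hac had hbc hbd hcd Ea Eb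
  · subst h1 h2
    have := three_eq ha hab.symm hbc hbd hac had hcd (by rw [Eb]) (by rw [Ea])
    linarith
  · subst h1 h2
    have := three_eq ha hac.symm hbc.symm hcd hab had hbd (by rw [Ec]) (by rw [Ea]; ring)
    linarith
  · subst h1 h2
    have := three_eq ha had.symm hbd.symm hcd.symm hab hac hbc (by rw [Ed]) (by rw [Ea]; ring)
    linarith

end Crest.Agent.R215.K4
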