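import Crest.Agent.R215.K5Real
import Crest.Agent.R215.BBGeo

/-!
# Row 215: there is no critical configuration with five cells
-/

set_option autoImplicit false

open MeasureTheory ProbabilityTheory Set Filter Topology
open Crest.Agent.Lib.Ehrhard
open scoped RealInnerProductSpace

open Crest.Agent.R215 Crest.Agent.R215.Num

namespace Crest.Agent.R215.K5

/-- the term with the length of the edge -/
lemma edge_le (w : ℝ) :
    2 * Real.pi * √(2 * Real.pi) / 5 * w ≤ 3 * Real.pi / 10 + 4 * Real.pi ^ 2 / 15 * w ^ 2 := by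
  have h1 : √(2 * Real.pi) ^ 2 = 2 * Real.pi := Real.sq_sqrt (by positivity)
  have hpi := Real.pi_pos
  set a := √(2 * Real.pi) with ha
  have h2 : 3 * Real.pi / 10 + 4 * Real.pi ^ 2 / 15 * w ^ 2 - 2 * Real.pi * a / 5 * w
      = 3 * Real.pi / 10 * (1 - 2 / 3 * (a * w)) ^ 2 := by
    have : (1 - 2 / 3 * (a * w)) ^ 2 = 1 - 4 / 3 * (a * w) + 4 / 9 * (a ^ 2 * w ^ 2) := by ring
    rw [this, h1]
    ring
  have h3 : 0 ≤ 3 * Real.pi / 10 * (1 - 2 / 3 * (a * w)) ^ 2 := by positivity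
  linarith

lemma sqrt12_le : √12 ≤ 3.46411 := by
  rw [Real.sqrt_le_left (by norm_num)]
  norm_num

lemma sqrt3_ge : 1.73205 ≤ √3 := by
  rw [Real.le_sqrt (by norm_num) (by norm_num)]
  norm_num

lemma mono_u {u w σ K : ℝ} (hul : 0.485 ≤ u) (huw : u ≤ w) (hwl : 0.562 ≤ w)
    (hσ : 0 ≤ σ) (hσl : σ ≤ 0.2049) (hK : 3.1498 ≤ K) :
    (w - u) / (2 * u) + (w - u) / (2 * u) + 1.21 * σ / u + K * u ≤ 1.21 * σ / w + K * w := by
  have hwp : 0 < w := by linarith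
  have hu : 0 < u := by linarith
  have e1 : 1.21 * σ / u - 1.21 * σ / w = (w - u) * (1.21 * σ / (u * w)) := by
    field_simp
  have e2 : (w - u) / (2 * u) + (w - u) / (2 * u) = (w - u) * (1 / u) := by
    field_simp
    ring
  have e4 : 1 / u ≤ 2.0619 := by
    rw [div_le_iff₀ hu]
    linarith
  have e5 : 1.21 * σ / (u * w) ≤ 0.9098 := by
    rw [div_le_iff₀ (by positivity)]
    nlinarith
  have e6 : (w - u) * (1 / u + 1.21 * σ / (u * w)) ≤ (w - u) * K :=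
    mul_le_mul_of_nonneg_left (by linarith) (by linarith)
  have e7 : (w - u) * (1 / u + 1.21 * σ / (u * w)) = (w - u) * (1 / u) + (w - u) * (1.21 * σ / (u * w)) := by
    ring
  have e8 : (w - u) * K = K * w - K * u := by ring
  rw [e2]
  linarith

lemma last_angle {u σ : ℝ} (hul : 0.485 ≤ u) (hσ : 0 ≤ σ) (hσl : σ ≤ 0.2049) :
    Real.arctan (2 * σ / √(3 * u ^ 2 - 4 * σ ^ 2)) ≤ 1.21 * σ / u := by
  have hu : 0 < u := by linarith
  have s3 := sqrt3_ge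
  have h := arctan_sigma_le (t0 := 0.499) (c := 1.0478) hσ hu (by nlinarith) (by norm_num)
    (by norm_num) (by norm_num) (by norm_num)
  refine h.trans ?_
  have e1 : 1.0478 * (2 * σ / (√3 * u)) = (2.0956 / √3) * (σ / u) := by
    field_simp
    ring
  have e2 : 1.21 * σ / u = 1.21 * (σ / u) := by ring
  rw [e1, e2]
  refine mul_le_mul_of_nonneg_right ?_ (by positivity)
  rw [div_le_iff₀ (by positivity)]
  linarith

lemma scale_w {w r : ℝ} (hwl : 0.562 ≤ w) (hr : 0 ≤ r) :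
    Real.arctan (√12 * r / w) ≤ Real.arctan (6.164 * r) := by
  have hwp : 0 < w := by linarith
  have s12 := sqrt12_le
  refine Real.arctan_strictMono.monotone ?_
  rw [div_le_iff₀ hwp]
  have : √12 ≤ 6.164 * w := by linarith
  calc √12 * r ≤ (6.164 * w) * r := mul_le_mul_of_nonneg_right this hr
    _ = 6.164 * r * w := by ring

lemma pi_sq_hi : 4 * Real.pi ^ 2 / 15 ≤ 2.63191 := by
  have hpi1 := Real.pi_gt_d6
  have hpi2 := Real.pi_lt_d6
  nlinarith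

lemma pi_sq_lo : 2.631 ≤ 4 * Real.pi ^ 2 / 15 := by
  have hpi1 := Real.pi_gt_d6
  nlinarith

lemma final5 {u Ra V p0 p1 r0 r1 σ K : ℝ} (h0 : Cell 3.49 p0 (r0 ^ 2)) (h1 : Cell 3.49 p1 (r1 ^ 2))
    (hr0 : 0 ≤ r0) (hr1 : 0 ≤ r1) (c0 : p0 ≤ 0.165) (c1 : p1 ≤ 0.165) (hu : 0 < u)
    (hV : 0.358098 ≤ V) (hRa : Ra ≤ 0.15916)
    (hE : (0.579 * p0 - r0 ^ 2) + (0.579 * p1 - r1 ^ 2) ≤ 0.4113 - V)
    (hRS : r0 ^ 2 + r1 ^ 2 ≤ 0.04197)
    (hue : u ^ 2 = min (V - (r0 ^ 2 + r1 ^ 2)) (3 / 2 * (V - (r0 ^ 2 + r1 ^ 2) - Ra)))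
    (hσ : 0 ≤ σ) (hσ1 : σ ≤ r0 + r1) (hσ2 : σ ^ 2 ≤ r0 ^ 2 + r1 ^ 2) (hK : 3.1498 ≤ K)
    (hedge : ∀ w : ℝ, K * w ≤ 3 * Real.pi / 10 + 4 * Real.pi ^ 2 / 15 * w ^ 2)
    (hpi : Real.pi ≤ (Real.arctan (√12 * r0 / u) + Real.arctan (√12 * r1 / u))
      + Real.arctan (2 * σ / √(3 * u ^ 2 - 4 * σ ^ 2)) + K * u) :
    False := by
  obtain ⟨e, he⟩ : ∃ e, e = V - (r0 ^ 2 + r1 ^ 2) := ⟨_, rfl⟩
  rw [← he] at hue
  have he1 : 0.316128 ≤ e := by linarith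
  obtain ⟨w, hw0, hw2⟩ : ∃ w : ℝ, 0 ≤ w ∧ w ^ 2 = e :=
    ⟨√e, Real.sqrt_nonneg _, Real.sq_sqrt (by linarith)⟩
  have hwl : 0.562 ≤ w := by
    refine le_of_sq_le_sq ?_ hw0
    rw [hw2]
    norm_num
    linarith
  have huw : u ≤ w := by
    refine le_of_sq_le_sq ?_ hw0
    rw [hw2, hue]
    exact min_le_left _ _
  have hul : 0.485 ≤ u := by
    refine le_of_sq_le_sq ?_ hu.le
    rw [hue]
    refine le_min ?_ ?_
    · norm_num; linarith
    · norm_num; linarith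
  have hσl : σ ≤ 0.2049 := by
    refine le_of_sq_le_sq ?_ (by norm_num)
    norm_num
    linarith
  have hwp : 0 < w := by linarith
  have a1 := last_angle hul hσ hσl
  have b0 := arctan_div_le (a := √12 * r0) (by positivity) hu huw
  have b1 := arctan_div_le (a := √12 * r1) (by positivity) hu huw
  have m1 := mono_u hul huw hwl hσ hσl hK
  have t1 : 1.21 * σ / w ≤ 2.1531 * (r0 + r1) := by
    rw [div_le_iff₀ hwp]
    have : 2.1531 * (r0 + r1) * 0.562 ≤ 2.1531 * (r0 + r1) * w :=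
      mul_le_mul_of_nonneg_left hwl (by positivity)
    linarith
  have hedge := hedge w
  rw [hw2] at hedge
  have f0 := S5 h0 hr0 c0
  have f1 := S5 h1 hr1 c1
  have u0 := scale_w hwl hr0
  have u1 := scale_w hwl hr1
  have hpi1 := Real.pi_gt_d6
  have hpi2 := Real.pi_lt_d6
  have g1 := pi_sq_hi
  have g2 := pi_sq_lo
  have g3 : 4 * Real.pi ^ 2 / 15 * e ≤ 2.63191 * V - 2.631 * (r0 ^ 2 + r1 ^ 2) := by
    have g4 : 4 * Real.pi ^ 2 / 15 * V ≤ 2.63191 * V := mul_le_mul_of_nonneg_right g1 (by linarith)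
    have g5 : 2.631 * (r0 ^ 2 + r1 ^ 2) ≤ 4 * Real.pi ^ 2 / 15 * (r0 ^ 2 + r1 ^ 2) :=
      mul_le_mul_of_nonneg_right g2 (by positivity)
    rw [he]
    linarith only [g4, g5]
  linarith only [hpi, a1, b0, b1, m1, t1, hedge, f0, f1, u0, u1, g3, hE, hV, hpi1]

lemma K_ge : (3.1498 : ℝ) ≤ 2 * Real.pi * √(2 * Real.pi) / 5 := by
  have hs := sqrt_two_pi_gt
  have hpi1 := Real.pi_gt_d6
  have : (3.141592 : ℝ) * 2.5066282 ≤ Real.pi * √(2 * Real.pi) :=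
    mul_le_mul hpi1.le hs.le (by norm_num) (by positivity)
  norm_num at this ⊢
  linarith

variable {E : Type*} [NormedAddCommGroup E] [InnerProductSpace ℝ E] [FiniteDimensional ℝ E]
  [MeasurableSpace E] [BorelSpace E]

theorem isEmpty_crit_five : IsEmpty (Crit E (Fin 5)) := by
  refine ⟨fun c => ?_⟩
  set τ : Equiv.Perm (Fin 5) := Tuple.sort c.p with hτ
  have hmono : Monotone (c.p ∘ τ) := Tuple.monotone_sort c.p
  have hcC := cC_gt
  have hcC' := cC_lt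
  have hcell : ∀ i, Cell 3.49 (c.p i) (‖c.z i‖ ^ 2) := by
    intro i
    refine c.cell_facts (by simp) ?_ i
    simp only [Fintype.card_fin]
    norm_num at *
    linarith
  have hsum : c.p (τ 0) + c.p (τ 1) + c.p (τ 2) + c.p (τ 3) + c.p (τ 4) = 1 := by
    rw [← c.sum_p, ← Equiv.sum_comp τ c.p, Fin.sum_univ_five]
  have hVsum : ‖c.z (τ 0)‖ ^ 2 + ‖c.z (τ 1)‖ ^ 2 + ‖c.z (τ 2)‖ ^ 2 + ‖c.z (τ 3)‖ ^ 2
      + ‖c.z (τ 4)‖ ^ 2 = c.V := by
    rw [← c.sumsq, ← Equiv.sum_comp τ (fun i => ‖c.z i‖ ^ 2), Fin.sum_univ_five]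
  have m01 : c.p (τ 0) ≤ c.p (τ 1) := hmono (by decide)
  have m12 : c.p (τ 1) ≤ c.p (τ 2) := hmono (by decide)
  have m23 : c.p (τ 2) ≤ c.p (τ 3) := hmono (by decide)
  have m34 : c.p (τ 3) ≤ c.p (τ 4) := hmono (by decide)
  have hVgt := c.V_gt
  have hbig : Phi (-0.915) ≤ c.p (τ 2) := by
    obtain ⟨m, hm1, hm2, hm3⟩ := three_big (η := 3.49) (by norm_num) hcell c.sum_p
      (by rw [c.sumsq]; exact hVgt.le) (τ 4) (τ 3)
    obtain ⟨y, rfl⟩ := τ.surjective m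
    have hy4 : y ≠ 4 := fun h => hm1 (by rw [h])
    have hy3 : y ≠ 3 := fun h => hm2 (by rw [h])
    have hyy : ∀ y : Fin 5, y ≠ 4 → y ≠ 3 → y ≤ 2 := by decide
    have hy := hyy y hy4 hy3
    exact hm3.le.trans (hmono hy)
  obtain ⟨k0, k1, k2, k3, k4, k5, k6, k7⟩ := energy5 (hcell (τ 0)) (hcell (τ 1)) (hcell (τ 2))
    (hcell (τ 3)) (hcell (τ 4)) m01 m12 m23 m34 hsum (by rw [hVsum]; linarith) hbig
  rw [hVsum] at k3
  have hne : ∀ a b : Fin 5, a ≠ b → τ a ≠ τ b := fun a b h h' => h (τ.injective h')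
  set S : Finset (Fin 5) := ((Finset.univ.erase (τ 4)).erase (τ 3)).erase (τ 2) with hS
  have hS2 : S = {τ 0, τ 1} := by
    ext x
    obtain ⟨y, rfl⟩ := τ.surjective x
    simp only [hS, Finset.mem_erase, Finset.mem_univ, and_true, Finset.mem_insert,
      Finset.mem_singleton, EmbeddingLike.apply_eq_iff_eq, ne_eq]
    revert y
    decide
  have hR : ∀ i, ‖c.z i‖ ^ 2 ≤ 0.15916 := fun i => (hcell i).e1'
  have hsumS : ∀ f : Fin 5 → ℝ, ∑ i ∈ S, f i = f (τ 0) + f (τ 1) := by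
    intro f
    rw [hS2, Finset.sum_pair (hne 0 1 (by decide))]
  obtain ⟨a, ha, u, hu, hu2, hpi⟩ := BBGeo.bb_geo c (j := τ 4) (l := τ 3) (m := τ 2)
    (e := c.V - (‖c.z (τ 0)‖ ^ 2 + ‖c.z (τ 1)‖ ^ 2)) (σ := ‖c.z (τ 0)‖ ^ 2 + ‖c.z (τ 1)‖ ^ 2)
    (hne _ _ (by decide)) (hne _ _ (by decide)) (hne _ _ (by decide)) (by linarith)
    (by
      have hl : ∀ b ∈ ({τ 4, τ 3, τ 2} : Finset (Fin 5)), 0.0398 ≤ ‖c.z b‖ ^ 2 := by
        intro b hb
        simp only [Finset.mem_insert, Finset.mem_singleton] at hb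
        rcases hb with rfl | rfl | rfl <;> assumption
      intro a _ b hb
      have := hR a
      have := hl b hb
      linarith)
    hS (hsumS (fun i => ‖c.z i‖ ^ 2)).symm
    (by
      intro a _
      have := hR a
      linarith)
    (by linarith)
  rw [hsumS] at hpi
  have hsz : ∑ i ∈ S, c.z i = c.z (τ 0) + c.z (τ 1) := by
    rw [hS2, Finset.sum_pair (hne 0 1 (by decide))]
  have hn1 : ‖∑ i ∈ S, c.z i‖ ≤ ‖c.z (τ 0)‖ + ‖c.z (τ 1)‖ := by
    rw [hsz]; exact norm_add_le _ _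
  have hn2 : ‖∑ i ∈ S, c.z i‖ ^ 2 ≤ ‖c.z (τ 0)‖ ^ 2 + ‖c.z (τ 1)‖ ^ 2 := by
    have := BBGeo.norm_sum_sq_le c S
    rw [hsumS] at this
    exact this
  refine final5 (hcell (τ 0)) (hcell (τ 1)) (norm_nonneg _) (norm_nonneg _) k1 k2 hu
    (by linarith) (hR a) k3 k4 hu2 (norm_nonneg _) hn1 hn2 K_ge edge_le ?_
  simpa using hpi

end Crest.Agent.R215.K5
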