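import Mathlib

/-!
# Row 215, five cells: the final real inequality
-/

set_option autoImplicit false

namespace Crest.Agent.R215.K5

lemma X_ge_aux {a1 a2 a3 t q U C : ℝ} (h1 : a1 ≤ U) (h12 : a2 ≤ a1) (h3 : a3 ≤ a2)
    (hT : C ≤ a1 + a2 + a3 + t + q)
    (hq : 0 ≤ q)
    (hK : 8 * t + 3 * q ≤ 2 * (3 * U - (a1 + a2 + a3))) (hU : 2 * t + q ≤ 2 * U) :
    (6 * U - C) * (C - 2 * U - q) - (2 * t + q) ^ 2 ≤
      (2 * (a1 + a2) - a3 - (t + q)) * (a3 + t) - (a1 - a2 + 2 * t + q) ^ 2 := by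
  obtain ⟨x, rfl⟩ : ∃ x, a1 = U - x := ⟨U - a1, by ring⟩
  obtain ⟨d, rfl⟩ : ∃ d, a2 = U - x - d := ⟨U - x - a2, by ring⟩
  obtain ⟨y, rfl⟩ : ∃ y, a3 = U - x - d - y := ⟨U - x - d - a3, by ring⟩
  have hx : 0 ≤ x := by linarith
  have hd : 0 ≤ d := by linarith
  have hy : 0 ≤ y := by linarith
  set Tt := (U - x) + (U - x - d) + (U - x - d - y) with hTt
  have key : (2 * ((U - x) + (U - x - d)) - (U - x - d - y) - (t + q)) * (U - x - d - y + t)
      - ((U - x) - (U - x - d) + 2 * t + q) ^ 2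
      = (6 * U - Tt - (t + q)) * (Tt - 2 * U + t) - (2 * t + q) ^ 2
        + 2 * x * (6 * x + 5 * d + 4 * y - (t + q) - 3 * t)
        + d * (6 * x + 4 * d + 4 * y - (t + q) - 3 * t - 2 * (2 * t + q)) := by
    rw [hTt]; ring
  rw [key]
  have e1 : 0 ≤ 2 * x * (6 * x + 5 * d + 4 * y - (t + q) - 3 * t) := by
    apply mul_nonneg (by linarith)
    rw [hTt] at hK
    linarith
  have e2 : 0 ≤ d * (6 * x + 4 * d + 4 * y - (t + q) - 3 * t - 2 * (2 * t + q)) := by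
    apply mul_nonneg hd
    rw [hTt] at hK
    linarith
  have e3 : (6 * U - C) * (C - 2 * U - q) ≤ (6 * U - Tt - (t + q)) * (Tt - 2 * U + t) := by
    have h5 : 0 ≤ (Tt + (t + q) - C) * (8 * U - (t + q) - t - Tt - (C - (t + q))) := by
      apply mul_nonneg
      · rw [hTt]; linarith
      · have : Tt ≤ 3 * U := by rw [hTt]; linarith
        have h6 : C - (t + q) ≤ Tt := by rw [hTt]; linarith
        linarith
    nlinarith
  linarith

lemma X_ge {a1 a2 a3 t q U C : ℝ} (h1 : a1 ≤ U) (h2 : a2 ≤ U) (h3 : a3 ≤ a1) (h3' : a3 ≤ a2)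
    (hT : C ≤ a1 + a2 + a3 + t + q)
    (hq : 0 ≤ q)
    (hK : 8 * t + 3 * q ≤ 2 * (3 * U - (a1 + a2 + a3))) (hU : 2 * t + q ≤ 2 * U) :
    (6 * U - C) * (C - 2 * U - q) - (2 * t + q) ^ 2 ≤
      (2 * (a1 + a2) - a3 - (t + q)) * (a3 + t) - (|a1 - a2| + 2 * t + q) ^ 2 := by
  rcases le_total a2 a1 with h | h
  · rw [abs_of_nonneg (by linarith)]
    exact X_ge_aux h1 h h3' hT hq hK hU
  · rw [abs_of_nonpos (by linarith)]
    have := X_ge_aux (C := C) (a1 := a2) (a2 := a1) h2 h h3 (by linarith) hq (by linarith) hU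
    have e : -(a1 - a2) + 2 * t + q = a2 - a1 + 2 * t + q := by ring
    rw [e, add_comm a1 a2]
    exact this

/-- final inequality, small second cell -/
lemma F_small {t q C : ℝ} (hC : 0.358098 ≤ C) (hC' : C ≤ 0.3580988) (ht : 0 ≤ t) (htq : t ≤ q)
    (hw : 4.947 * (t + q) ≤ 0.052342) (hw' : 0.0038 ≤ t + q) :
    16 * t + q < 2.48 * ((6 * (0.17647 - 4.4582 * (t + q)) - C)
      * (C - 2 * (0.17647 - 4.4582 * (t + q)) - q) - (2 * t + q) ^ 2) := by
  nlinarith [mul_nonneg (sub_nonneg.2 hw) (sub_nonneg.2 hw'), mul_nonneg ht (sub_nonneg.2 htq),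
    mul_nonneg (sub_nonneg.2 hC) (sub_nonneg.2 hC')]

/-- final inequality, large second cell -/
lemma F_large {t q C : ℝ} (hC : 0.358098 ≤ C) (hC' : C ≤ 0.3580988) (ht : 0 ≤ t)
    (hq : 0.00533 ≤ q) (hw : 4.947 * t + 0.66422 * q ≤ 0.029476) :
    16 * t + q < 2.48 * ((6 * (0.155864 - 4.4582 * t - 0.5986 * q) - C)
      * (C - 2 * (0.155864 - 4.4582 * t - 0.5986 * q) - q) - (2 * t + q) ^ 2) := by
  nlinarith [mul_nonneg (sub_nonneg.2 hw) (sub_nonneg.2 hq), mul_nonneg ht (sub_nonneg.2 hq),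
    mul_nonneg (sub_nonneg.2 hw) ht,
    mul_nonneg (sub_nonneg.2 hC) (sub_nonneg.2 hC')]

/-- final inequality, both cells tiny -/
lemma F_cap {t q C : ℝ} (hC : 0.358098 ≤ C) (hC' : C ≤ 0.3580988) (ht : 0 ≤ t) (htq : t ≤ q)
    (hw : t + q ≤ 0.0039) :
    16 * t + q < 2.48 * ((6 * 0.15916 - C) * (C - 2 * 0.15916 - q) - (2 * t + q) ^ 2) := by
  nlinarith [mul_nonneg (sub_nonneg.2 hC) (sub_nonneg.2 hC')]

/-- the real inequality for five cells -/
theorem real5 {a1 a2 a3 t q p1 p2 p3 pi po C : ℝ} (hC : 0.358098 ≤ C) (hC' : C ≤ 0.3580988)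
    (hsa : C ≤ a1 + a2 + a3 + t + q) (hsp : p1 + p2 + p3 + pi + po = 1)
    (b1 : a1 ≤ 0.568 * p1 - 0.05252) (b2 : a2 ≤ 0.568 * p2 - 0.05252)
    (b3 : a3 ≤ 0.568 * p3 - 0.05252)
    (c1 : a1 ≤ 0.04306 + 0.26922 * p1) (c2 : a2 ≤ 0.04306 + 0.26922 * p2)
    (d1 : a1 ≤ 0.15916) (d2 : a2 ≤ 0.15916)
    (h31 : a3 ≤ a1) (h32 : a3 ≤ a2) (ht : 0 < t) (htq : t ≤ q)
    (hi : t ≤ 0.0955 * pi ∨ (0.0559173 ≤ pi ∧ t ≤ 0.3413 * pi - 0.01374))
    (ho : q ≤ 0.0955 * po ∨ (0.0559173 ≤ po ∧ q ≤ 0.3413 * po - 0.01374)) :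
    16 * t + q < 2.48 * ((2 * (a1 + a2) - a3 - (t + q)) * (a3 + t)
      - (|a1 - a2| + 2 * t + q) ^ 2) ∧ a3 + t ≤ 0.2 := by
  have hG : 0.568 * (pi + po) - (t + q) ≤ 0.052342 := by linarith
  have hi' : t ≤ 0.0955 * pi := by
    rcases hi with h | ⟨h, h'⟩
    · exact h
    · rcases le_or_gt t 0.00534 with h1 | h1
      · linarith
      · exfalso
        rcases ho with h2 | ⟨h2, h2'⟩ <;> linarith
  have ht' : t ≤ 0.0054 := by
    rcases ho with h2 | ⟨h2, h2'⟩ <;> linarith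
  -- reduce to two types for `q`
  have ho' : q ≤ 0.0955 * po ∨ (0.00533 ≤ q ∧ q ≤ 0.3413 * po - 0.01374) := by
    rcases ho with h2 | ⟨h2, h2'⟩
    · exact Or.inl h2
    · rcases le_or_gt 0.00533 q with h3 | h3
      · exact Or.inr ⟨h3, h2'⟩
      · left; linarith
  refine ⟨?_, by linarith⟩
  rcases ho' with hq | ⟨hq0, hq⟩
  · rcases le_total (t + q) 0.0039 with hw | hw
    · have hX := X_ge (U := 0.15916) (C := C) (a1 := a1) (a2 := a2) (a3 := a3) (t := t) (q := q)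
        d1 d2 h31 h32 hsa (ht.le.trans htq) (by linarith) (by linarith)
      have := F_cap hC hC' ht.le htq hw
      linarith
    · have hX := X_ge (U := 0.17647 - 4.4582 * (t + q)) (C := C) (a1 := a1) (a2 := a2) (a3 := a3)
        (t := t) (q := q) (by linarith) (by linarith) h31 h32 hsa (ht.le.trans htq)
        (by linarith) (by linarith)
      have := F_small hC hC' ht.le htq (by linarith) (by linarith)
      linarith
  · have hX := X_ge (U := 0.155864 - 4.4582 * t - 0.5986 * q) (C := C) (a1 := a1) (a2 := a2)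
      (a3 := a3) (t := t) (q := q) (by linarith) (by linarith) h31 h32 hsa (ht.le.trans htq)
      (by linarith) (by linarith)
    have := F_large hC hC' ht.le hq0 (by linarith)
    linarith

end Crest.Agent.R215.K5
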