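import Crest.Agent.R215.NumNodes5
import Crest.Agent.R215.NumNodes
import Crest.Agent.R215.EnergyGen

/-!
# Row 215, five cells: energy inequalities for one cell
-/

set_option autoImplicit false

open MeasureTheory ProbabilityTheory Set Filter Topology
open Crest.Agent.Lib.Ehrhard
open scoped RealInnerProductSpace

namespace Crest.Agent.R215.K5

open Crest.Agent.R215.Num

lemma cC_gt : (0.358098 : ℝ) < cC := by
  unfold cC
  rw [lt_div_iff₀ (by positivity)]
  have := Real.pi_lt_d6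
  norm_num at this ⊢
  linarith

lemma cC_lt : cC < (0.3580988 : ℝ) := by
  unfold cC
  rw [div_lt_iff₀ (by positivity)]
  have := Real.pi_gt_d6
  norm_num at this ⊢
  linarith

/-- enclosure for `XX` -/
lemma XX_bounds {b P0 P1 f0 f1 : ℝ} (hb : b ≤ 0) (h1 : P0 ≤ Phi b) (h2 : Phi b ≤ P1)
    (h3 : f0 ≤ phi b) (h4 : phi b ≤ f1) (hf : 0 ≤ f0) (hW : 0 ≤ b * P1 + f0) :
    f0 * (b * P1 + f0) ≤ XX b ∧ XX b ≤ f1 * (b * P0 + f1) := by
  unfold XX
  constructor
  · apply mul_le_mul h3 _ hW (hf.trans h3)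
    nlinarith
  · apply mul_le_mul h4 _ (W_nonneg b) (hf.trans (h3.trans h4))
    nlinarith

lemma XX_1_59 : 0.0026815 ≤ XX (-1.59) ∧ XX (-1.59) ≤ 0.0026822 := by
  have := XX_bounds (b := -1.59) (by norm_num) Phi_lo_1_59 Phi_hi_1_59 phi_lo_1_59 phi_hi_1_59
    (by norm_num) (by norm_num)
  norm_num at this ⊢
  constructor <;> linarith [this.1, this.2]

lemma XX_0_95 : 0.0232603 ≤ XX (-0.95) ∧ XX (-0.95) ≤ 0.0232608 := by
  have := XX_bounds (b := -0.95) (by norm_num) Phi_lo_0_95 Phi_hi_0_95 phi_lo_0_95 phi_hi_0_95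
    (by norm_num) (by norm_num)
  norm_num at this ⊢
  constructor <;> linarith [this.1, this.2]

lemma XX_0_483 : 0.072101 ≤ XX (-0.483) ∧ XX (-0.483) ≤ 0.072103 := by
  have := XX_bounds (b := -0.483) (by norm_num) Phi_lo_0_483 Phi_hi_0_483 phi_lo_0_483 phi_hi_0_483
    (by norm_num) (by norm_num)
  norm_num at this ⊢
  constructor <;> linarith [this.1, this.2]

/-- upper bound for `hb (5/4)` -/
lemma hb_le {b x0 x1 : ℝ} (h : x0 ≤ XX b ∧ XX b ≤ x1) (h0 : 0 ≤ x0) :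
    hb (5 / 4) b ≤ 2 * x1 - 5 / 4 * x0 ^ 2 / 0.3580988 := by
  unfold hb
  have h1 : 5 / 4 * x0 ^ 2 / 0.3580988 ≤ 5 / 4 * XX b ^ 2 / cC := by
    have hC := cC_pos
    have := cC_lt
    have h2 := h.1
    gcongr
  linarith [h.2]

lemma hb_1_59 : hb (5 / 4) (-1.59) ≤ 0.0053395 := by
  refine (hb_le XX_1_59 (by norm_num)).trans ?_
  norm_num

lemma hb_0_95 : hb (5 / 4) (-0.95) ≤ 0.0446332 := by
  refine (hb_le XX_0_95 (by norm_num)).trans ?_
  norm_num

lemma hb_0_483 : hb (5 / 4) (-0.483) ≤ 0.12606 := by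
  refine (hb_le XX_0_483 (by norm_num)).trans ?_
  norm_num

lemma conv_0_483 : ConvAt (5 / 4) (-0.483) := by
  unfold ConvAt
  have h1 := XX_0_483
  have h2 := Phi_lo_0_483
  have h3 := Phi_hi_0_483
  have h4 := phi_lo_0_483
  have h5 := phi_hi_0_483
  have hC := cC_gt
  have hs : sig (-0.483) = Phi (-0.483) + 0.483 * (-0.483 * Phi (-0.483) + phi (-0.483)) := by
    unfold sig; ring
  have hs0 : 0 ≤ sig (-0.483) := sig_nonneg (by norm_num)
  have hs1 : sig (-0.483) ≤ 0.41268 := by rw [hs]; nlinarith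
  have hs2 : sig (-0.483) ^ 2 ≤ 0.41268 ^ 2 := by
    apply pow_le_pow_left₀ hs0 hs1
  have e1 : XX (-0.483) * (-2 * -0.483 * Phi (-0.483)) ≤ 0.072103 * (0.966 * 0.314549) := by
    have : (-2 : ℝ) * -0.483 = 0.966 := by norm_num
    rw [this]
    apply mul_le_mul h1.2 _ (by positivity) (by norm_num)
    linarith
  have e2 : sig (-0.483) ^ 2 * phi (-0.483) ≤ 0.41268 ^ 2 * 0.355020 :=
    mul_le_mul hs2 h5 (phi_nonneg _) (by norm_num)
  have e3 : 0.358098 * (0.966 * 0.314547) ≤ cC * (-2 * -0.483 * Phi (-0.483)) := by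
    have : (-2 : ℝ) * -0.483 = 0.966 := by norm_num
    rw [this]
    apply mul_le_mul hC.le _ (by norm_num) cC_pos.le
    linarith
  refine le_trans ?_ e3
  calc 5 / 4 * (XX (-0.483) * (-2 * -0.483 * Phi (-0.483)) + sig (-0.483) ^ 2 * phi (-0.483))
      ≤ 5 / 4 * (0.072103 * (0.966 * 0.314549) + 0.41268 ^ 2 * 0.355020) := by linarith
    _ ≤ _ := by norm_num

variable {E : Type*} [NormedAddCommGroup E] [InnerProductSpace ℝ E] [FiniteDimensional ℝ E]
  [MeasurableSpace E] [BorelSpace E]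

/-- threshold between small and big cells -/
noncomputable def T : ℝ := Phi (-0.95)

/-- threshold for tiny cells -/
noncomputable def PS : ℝ := Phi (-1.59)

lemma T_bounds : 0.1710561 ≤ T ∧ T ≤ 0.1710562 := ⟨Phi_lo_0_95, Phi_hi_0_95⟩

lemma PS_bounds : 0.0559173 ≤ PS ∧ PS ≤ 0.0559175 := ⟨Phi_lo_1_59, Phi_hi_1_59⟩

section cell

variable (c : Crit E (Fin 5)) (x : Fin 5)

lemma p_pos : 0 < c.p x := c.p_pos (by simp) x

lemma p_le : c.p x ≤ 1 / 2 := c.p_le_half (by simp) x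

lemma Psi_nonpos : Psi (c.p x) ≤ 0 := by
  have h1 := p_pos c x
  have h2 := p_le c x
  rw [Psi_le_iff h1 (by linarith), Phi_zero]
  exact h2

/-- half-space bound -/
lemma sq_le : ‖c.z x‖ ^ 2 ≤ phi (Psi (c.p x)) ^ 2 :=
  pow_le_pow_left₀ (norm_nonneg _) (c.norm_z_le (by simp) x) 2

lemma sq_le_top : ‖c.z x‖ ^ 2 ≤ 0.15916 := by
  refine (sq_le c x).trans ?_
  have h1 : phi (Psi (c.p x)) ≤ c0 := by
    rw [phi_eq_c0]
    have : Real.exp (-(Psi (c.p x) ^ 2 / 2)) ≤ 1 := by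
      rw [Real.exp_le_one_iff]
      have := sq_nonneg (Psi (c.p x))
      linarith
    have h0 := c0_pos
    nlinarith
  have h2 : phi (Psi (c.p x)) ^ 2 ≤ c0 ^ 2 := pow_le_pow_left₀ (phi_nonneg _) h1 2
  have h3 : c0 ^ 2 ≤ 0.3989423 ^ 2 := pow_le_pow_left₀ c0_pos.le c0_lt.le 2
  refine (h2.trans h3).trans (by norm_num)

/-- energy bound (deletion + Ehrhard) -/
lemma sq_le_hb (h : c.p x ≤ Phi (-0.483)) : ‖c.z x‖ ^ 2 ≤ hb (5 / 4) (Psi (c.p x)) := by
  have h1 := p_pos c x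
  have h2 := p_le c x
  have hb0 : Psi (c.p x) ≤ -0.483 := (Psi_le_iff h1 (by linarith)).2 h
  have hX : chi (c.p x) = XX (Psi (c.p x)) := chi_eq_XX' h1 (by linarith)
  have hX2 : XX (Psi (c.p x)) ≤ XX (-0.483) := XX_mono hb0 (by norm_num)
  have := c.energy_h (by simp) x (κ := 5 / 4) (by simp; norm_num) (by
    rw [hX]
    have := XX_0_483.2
    have := cC_gt
    linarith)
  rw [hX] at this
  exact this

/-- the four linear bounds -/
lemma cell_big (h : T ≤ c.p x) : ‖c.z x‖ ^ 2 ≤ 0.568 * c.p x - 0.05252 := by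
  have h1 := p_pos c x
  have h2 := p_le c x
  have hΦ : Phi (Psi (c.p x)) = c.p x := Phi_Psi h1 (by linarith)
  rcases le_total (c.p x) (Phi (-0.483)) with h3 | h3
  · refine (sq_le_hb c x h3).trans ?_
    have hb1 : -0.95 ≤ Psi (c.p x) := (le_Psi_iff h1 (by linarith)).2 h
    have hb2 : Psi (c.p x) ≤ -0.483 := (Psi_le_iff h1 (by linarith)).2 h3
    have := hb_chord (κ := 5 / 4) (b0 := -0.483) (b1 := -0.95) (b2 := -0.483) (m := 0.568)
      (k := -0.05252) (by norm_num) (by norm_num) conv_0_483 le_rfl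
      (by have := hb_0_95; have := Phi_lo_0_95; linarith)
      (by have := hb_0_483; have := Phi_lo_0_483; linarith) hb1 hb2
    rw [hΦ] at this
    linarith
  · refine (sq_le c x).trans ?_
    have hb2 : -0.483 ≤ Psi (c.p x) := (le_Psi_iff h1 (by linarith)).2 h3
    have hb3 := Psi_nonpos c x
    have := phi_sq_le_tangent (b := Psi (c.p x)) (b0 := -0.483) (by linarith) (by linarith)
      (by norm_num) (by norm_num)
    rw [hΦ] at this
    have e1 := phi_hi_0_483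
    have e0 := phi_nonneg (-0.483)
    have e2 : phi (-0.483) ^ 2 ≤ 0.355020 ^ 2 := pow_le_pow_left₀ e0 e1 2
    have e3 := Phi_lo_0_483
    have e4 : phi (-0.483) * (c.p x - Phi (-0.483)) ≤ 0.355020 * (c.p x - Phi (-0.483)) :=
      mul_le_mul_of_nonneg_right e1 (by linarith)
    nlinarith

lemma cell_tan (h : T ≤ c.p x) : ‖c.z x‖ ^ 2 ≤ 0.04306 + 0.26922 * c.p x := by
  have h1 := p_pos c x
  have h2 := p_le c x
  have hΦ : Phi (Psi (c.p x)) = c.p x := Phi_Psi h1 (by linarith)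
  refine (sq_le c x).trans ?_
  have hb1 : -0.95 ≤ Psi (c.p x) := (le_Psi_iff h1 (by linarith)).2 h
  have hb3 := Psi_nonpos c x
  have := phi_sq_le_tangent (b := Psi (c.p x)) (b0 := -0.36) (by linarith) (by linarith)
    (by norm_num) (by norm_num)
  rw [hΦ] at this
  have e1 := phi_hi_0_36
  have e1' := phi_lo_0_36
  have e0 := phi_nonneg (-0.36)
  have e2 : phi (-0.36) ^ 2 ≤ 0.3739107 ^ 2 := pow_le_pow_left₀ e0 e1 2
  have e3 := Phi_lo_0_36
  have e5 := Phi_hi_0_36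
  have e4 : phi (-0.36) * c.p x ≤ 0.3739107 * c.p x := mul_le_mul_of_nonneg_right e1 h1.le
  have e6 : 0.3739105 * 0.3594235 ≤ phi (-0.36) * Phi (-0.36) :=
    mul_le_mul e1' e3 (by norm_num) e0
  nlinarith

lemma cell_small (h : c.p x ≤ T) : ‖c.z x‖ ^ 2 ≤ 0.26922 * c.p x := by
  have h1 := p_pos c x
  have h2 := p_le c x
  have hΦ : Phi (Psi (c.p x)) = c.p x := Phi_Psi h1 (by linarith)
  have hT := T_bounds.2
  have e := Phi_lo_0_483
  refine (sq_le_hb c x (by linarith)).trans ?_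
  have hb2 : Psi (c.p x) ≤ -0.95 := (Psi_le_iff h1 (by linarith)).2 h
  have := hb_half (κ := 5 / 4) (b0 := -0.483) (b2 := -0.95) (m := 0.26922)
    (k := 0) (by norm_num) (by norm_num) conv_0_483 (by norm_num) le_rfl
    (by have := hb_0_95; have := Phi_lo_0_95; linarith) hb2
  rw [hΦ] at this
  linarith

lemma cell_tiny (h : c.p x ≤ PS) : ‖c.z x‖ ^ 2 ≤ 0.0955 * c.p x := by
  have h1 := p_pos c x
  have h2 := p_le c x
  have hΦ : Phi (Psi (c.p x)) = c.p x := Phi_Psi h1 (by linarith)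
  have hT := PS_bounds.2
  have e := Phi_lo_0_483
  refine (sq_le_hb c x (by linarith)).trans ?_
  have hb2 : Psi (c.p x) ≤ -1.59 := (Psi_le_iff h1 (by linarith)).2 h
  have := hb_half (κ := 5 / 4) (b0 := -0.483) (b2 := -1.59) (m := 0.0955)
    (k := 0) (by norm_num) (by norm_num) conv_0_483 (by norm_num) le_rfl
    (by have := hb_1_59; have := Phi_lo_1_59; linarith) hb2
  rw [hΦ] at this
  linarith

lemma cell_mid (h0 : PS ≤ c.p x) (h : c.p x ≤ T) : ‖c.z x‖ ^ 2 ≤ 0.3413 * c.p x - 0.01374 := by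
  have h1 := p_pos c x
  have h2 := p_le c x
  have hΦ : Phi (Psi (c.p x)) = c.p x := Phi_Psi h1 (by linarith)
  have hT := T_bounds.2
  have e := Phi_lo_0_483
  refine (sq_le_hb c x (by linarith)).trans ?_
  have hb1 : -1.59 ≤ Psi (c.p x) := (le_Psi_iff h1 (by linarith)).2 h0
  have hb2 : Psi (c.p x) ≤ -0.95 := (Psi_le_iff h1 (by linarith)).2 h
  have := hb_chord (κ := 5 / 4) (b0 := -0.483) (b1 := -1.59) (b2 := -0.95) (m := 0.3413)
    (k := -0.01374) (by norm_num) (by norm_num) conv_0_483 (by norm_num)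
    (by have := hb_1_59; have := Phi_lo_1_59; linarith)
    (by have := hb_0_95; have := Phi_lo_0_95; linarith) hb1 hb2
  rw [hΦ] at this
  linarith

end cell

end Crest.Agent.R215.K5
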