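import Crest.Agent.R215.TieSB

/-!
# Row 215, five cells: the S-B tie inequality in terms of the norms
-/

set_option autoImplicit false

open MeasureTheory ProbabilityTheory Set Filter Topology
open scoped RealInnerProductSpace

namespace Crest.Agent.R215.K5

open Crest.Agent.R215.Tie

variable {E : Type*} [NormedAddCommGroup E] [InnerProductSpace ℝ E] [FiniteDimensional ℝ E]
  [MeasurableSpace E] [BorelSpace E]

set_option maxHeartbeats 2000000 in
/-- `i, o` the two small cells (`i` the smallest), `j, l, m` the three big ones -/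
theorem geo5 (c : Crit E (Fin 5)) {i o j l m : Fin 5}
    (hio : i ≠ o) (hij : i ≠ j) (hil : i ≠ l) (him : i ≠ m) (hoj : o ≠ j) (hol : o ≠ l)
    (hom : o ≠ m) (hjl : j ≠ l) (hjm : j ≠ m) (hlm : l ≠ m)
    (hsum : ∀ f : Fin 5 → ℝ, ∑ x, f x = f i + f o + f j + f l + f m)
    {X R : ℝ} (hX0 : 0 < X)
    (hR : R = 16 * ‖c.z i‖ ^ 2 + ‖c.z o‖ ^ 2)
    (hX : X ≤ (2 * (‖c.z l‖ ^ 2 + ‖c.z m‖ ^ 2) - ‖c.z j‖ ^ 2 - (‖c.z i‖ ^ 2 + ‖c.z o‖ ^ 2))
        * (‖c.z j‖ ^ 2 + ‖c.z i‖ ^ 2)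
        - (|‖c.z l‖ ^ 2 - ‖c.z m‖ ^ 2| + 2 * ‖c.z i‖ ^ 2 + ‖c.z o‖ ^ 2) ^ 2)
    (h2 : 2 * R * (‖c.z j‖ ^ 2 + ‖c.z i‖ ^ 2) ≤ X) :
    2 * Real.pi ^ 3 * X ≤ 25 * R := by
  have hpi := Real.pi_pos
  -- Gram relations
  have hrow : ∀ y : Fin 5, ⟪c.z y, c.z i⟫ + ⟪c.z y, c.z o⟫ + ⟪c.z y, c.z j⟫ + ⟪c.z y, c.z l⟫
      + ⟪c.z y, c.z m⟫ = 0 := by
    intro y
    rw [← hsum fun x => ⟪c.z y, c.z x⟫, ← inner_sum, c.sum_z, inner_zero_right]
  have ri := hrow i
  have ro := hrow o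
  have rj := hrow j
  have rl := hrow l
  have rm := hrow m
  rw [real_inner_self_eq_norm_sq] at ri ro rj rl rm
  rw [real_inner_comm (c.z i) (c.z o)] at ro
  rw [real_inner_comm (c.z i) (c.z j), real_inner_comm (c.z o) (c.z j)] at rj
  rw [real_inner_comm (c.z i) (c.z l), real_inner_comm (c.z o) (c.z l),
    real_inner_comm (c.z j) (c.z l)] at rl
  rw [real_inner_comm (c.z i) (c.z m), real_inner_comm (c.z o) (c.z m),
    real_inner_comm (c.z j) (c.z m), real_inner_comm (c.z l) (c.z m)] at rm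
  have gio := c.inner_lt hio
  have gij := c.inner_lt hij
  have gil := c.inner_lt hil
  have gim := c.inner_lt him
  have goj := c.inner_lt hoj
  have gol := c.inner_lt hol
  have gom := c.inner_lt hom
  have gjl := c.inner_lt hjl
  have gjm := c.inner_lt hjm
  have glm := c.inner_lt hlm
  have hd2 : ‖c.z i - c.z j‖ ^ 2 = ‖c.z i‖ ^ 2 + ‖c.z j‖ ^ 2 - 2 * ⟪c.z i, c.z j⟫ := by
    rw [norm_sub_sq_real]; ring
  have hN : ‖c.z l - c.z m‖ ^ 2 = ‖c.z l‖ ^ 2 + ‖c.z m‖ ^ 2 - 2 * ⟪c.z l, c.z m⟫ := by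
    rw [norm_sub_sq_real]; ring
  have hI : ⟪c.z i - c.z j, c.z l - c.z m⟫ = ⟪c.z i, c.z l⟫ - ⟪c.z i, c.z m⟫ - ⟪c.z j, c.z l⟫
      + ⟪c.z j, c.z m⟫ := by
    rw [inner_sub_left, inner_sub_right, inner_sub_right]; ring
  have hfoot := norm_foot_sq c hij
  have hdpos := norm_sub_pos c hij
  have hY' : ∑ n ∈ (((Finset.univ.erase i).erase j).erase l).erase m, ‖c.z n‖ ^ 2
      = ‖c.z o‖ ^ 2 := by
    have hjmem : j ∈ Finset.univ.erase i := by simp [hij.symm]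
    have hlmem : l ∈ (Finset.univ.erase i).erase j := by simp [hil.symm, hjl.symm]
    have hmmem : m ∈ ((Finset.univ.erase i).erase j).erase l := by
      simp [him.symm, hjm.symm, hlm.symm]
    have h1 := hsum fun x => ‖c.z x‖ ^ 2
    rw [← Finset.add_sum_erase _ _ (Finset.mem_univ i), ← Finset.add_sum_erase _ _ hjmem,
      ← Finset.add_sum_erase _ _ hlmem, ← Finset.add_sum_erase _ _ hmmem] at h1
    linarith
  have hai : 0 < ‖c.z i‖ ^ 2 := by
    have := norm_pos_iff.2 (c.z_ne_zero i (by simp)); positivity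
  have haj : 0 < ‖c.z j‖ ^ 2 := by
    have := norm_pos_iff.2 (c.z_ne_zero j (by simp)); positivity
  have hao : 0 < ‖c.z o‖ ^ 2 := by
    have := norm_pos_iff.2 (c.z_ne_zero o (by simp)); positivity
  -- abbreviations
  set t := ‖c.z i‖ ^ 2 with ht
  set q := ‖c.z o‖ ^ 2 with hq
  set a3 := ‖c.z j‖ ^ 2 with ha3
  set a1 := ‖c.z l‖ ^ 2 with ha1
  set a2 := ‖c.z m‖ ^ 2 with ha2
  set d := ‖c.z i - c.z j‖ with hd
  set f := ‖foot c.z i j‖ ^ 2 with hf
  set I := ⟪c.z i - c.z j, c.z l - c.z m⟫ with hIdef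
  set N := ‖c.z l - c.z m‖ ^ 2 with hNdef
  set I0 := |a1 - a2| + 2 * t + q with hI0
  have hf0 : 0 ≤ f := by positivity
  have hd3 : a3 + t ≤ d ^ 2 := by linarith
  have hd3' : 0 < a3 + t := by linarith
  have hft : f ≤ t := by
    have h1 : f * d ^ 2 ≤ t * d ^ 2 := by
      rw [hfoot]
      nlinarith [sq_nonneg ⟪c.z i, c.z j⟫]
    exact le_of_mul_le_mul_right h1 (by positivity)
  have hN0 : 2 * (a1 + a2) - a3 - (t + q) ≤ N := by linarith
  have hI1 : |I| ≤ I0 := by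
    have e : I = (a1 - a2) + 2 * (⟪c.z i, c.z l⟫ - ⟪c.z i, c.z m⟫)
        + (⟪c.z o, c.z l⟫ - ⟪c.z o, c.z m⟫) := by rw [hI]; linarith
    have h1 := le_abs_self (a1 - a2)
    have h2 := neg_abs_le (a1 - a2)
    rw [hI0, e, abs_le]
    constructor <;> linarith
  have hI2 : I ^ 2 ≤ I0 ^ 2 := by
    rw [← sq_abs I]
    exact pow_le_pow_left₀ (abs_nonneg _) hI1 2
  have hRpos : 0 < R := by rw [hR]; linarith
  have hDsq : (√(X / (a3 + t))) ^ 2 = X / (a3 + t) := Real.sq_sqrt (by positivity)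
  have hYsq : (√R) ^ 2 = R := Real.sq_sqrt hRpos.le
  have key := sb_tie c hij (l := l) (m := m) hil.symm hjl.symm him.symm hjm.symm hlm
    (Y := √R) (D := √(X / (a3 + t)))
    (by rw [hYsq, hR, hY']; linarith)
    (by
      rw [hDsq, ← hIdef, ← hNdef, ← hd]
      have h3 : I ^ 2 / d ^ 2 ≤ I0 ^ 2 / (a3 + t) := by
        apply div_le_div₀ (by positivity) hI2 hd3' hd3
      have h4 : X / (a3 + t) ≤ (2 * (a1 + a2) - a3 - (t + q)) - I0 ^ 2 / (a3 + t) := by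
        rw [le_sub_iff_add_le, ← add_div, div_le_iff₀ hd3']
        linarith
      linarith)
    (by positivity) (by positivity)
    (by
      rw [hYsq, hDsq, le_div_iff₀ hd3']
      linarith)
  rw [← hd] at key
  simp only [Fintype.card_fin, Nat.cast_ofNat] at key
  -- square
  have hD0 : 0 < √(X / (a3 + t)) := by positivity
  rw [div_le_div_iff₀ (by norm_num) (by positivity)] at key
  have hs : (√(2 * Real.pi)) ^ 2 = 2 * Real.pi := Real.sq_sqrt (by positivity)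
  have h5 := pow_le_pow_left₀ (by positivity) key 2
  have e1 : (√(2 * Real.pi) * d * (Real.pi * √(X / (a3 + t)))) ^ 2
      = 2 * Real.pi ^ 3 * (d ^ 2 * (X / (a3 + t))) := by
    rw [mul_pow, mul_pow, mul_pow, hs, hDsq]; ring
  have e2 : (√R * 5) ^ 2 = 25 * R := by rw [mul_pow, hYsq]; ring
  rw [e1, e2] at h5
  refine le_trans ?_ h5
  have h6 : X ≤ d ^ 2 * (X / (a3 + t)) := by
    rw [mul_div_assoc', le_div_iff₀ hd3', mul_comm X]
    exact mul_le_mul_of_nonneg_right hd3 hX0.le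
  exact mul_le_mul_of_nonneg_left h6 (by positivity)

end Crest.Agent.R215.K5
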