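import Crest.Agent.R215.EnergyCore
import Crest.Agent.R215.ArctanNum

/-!
# Row 215: five cells, the real inequalities
-/

set_option autoImplicit false

open Crest.Agent.Lib.Ehrhard

open Crest.Agent.R215 Crest.Agent.R215.Num

namespace Crest.Agent.R215.K5

lemma r_le {r s : ℝ} (hs : 0 < s) : r ≤ r ^ 2 / (2 * s) + s / 2 := by
  have h : r ^ 2 / (2 * s) + s / 2 - r = (r - s) ^ 2 / (2 * s) := by
    field_simp
    ring
  have : 0 ≤ (r - s) ^ 2 / (2 * s) := by positivity
  linarith

/-- inequality for the small cells -/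
lemma S5 {p r : ℝ} (h : Cell 3.49 p (r ^ 2)) (hr : 0 ≤ r) (hp : p ≤ 0.165) :
    Real.arctan (6.164 * r) + 2.1531 * r ≤ 23.5 * (0.579 * p - r ^ 2) + 2.631 * r ^ 2 := by
  have hp0 := h.pos
  have hy : 0 ≤ 6.164 * r := by positivity
  rcases le_total p (Phi (-1.695)) with h1 | h1
  · have h2 := Phi_hi_1_695
    have h3 := h.small (by norm_num) (by linarith)
    have h4 : r ≤ 1.41422 * p := by
      refine le_of_sq_le_sq (h3.trans ?_) (by positivity)
      nlinarith [sq_nonneg p]
    rcases le_total p 0.04 with h5 | h5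
    · have h6 := arctan_le_self' hy
      nlinarith
    · have h6 := arctan_le_tangent (y0 := 0.2) hy (by norm_num)
      have h7 := arctan_0_2
      norm_num at h6
      nlinarith
  rcases le_total p (Phi (-1.405)) with h2 | h2
  · have g1 := Phi_lo_1_695
    have g2 := Phi_hi_1_405
    have hc := chord_1_695_1_405 h1 h2
    have hR := h.lin (L0 := 0.002) (by norm_num) hc (by linarith) (by norm_num)
    have h6 := arctan_le_tangent (y0 := 0.5) hy (by norm_num)
    have h7 := arctan_0_5
    have h8 := r_le (r := r) (s := 0.08) (by norm_num)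
    norm_num at *
    linarith
  rcases le_total p (Phi (-1.175)) with h3 | h3
  · have g1 := Phi_lo_1_405
    have g2 := Phi_hi_1_175
    have hc := chord_1_405_1_175 h2 h3
    have hR := h.lin (L0 := 0.008) (by norm_num) hc (by linarith) (by norm_num)
    have h6 := arctan_le_tangent (y0 := 0.8) hy (by norm_num)
    have h7 := arctan_0_8
    have h8 := r_le (r := r) (s := 0.13) (by norm_num)
    norm_num at *
    linarith
  rcases le_total p (Phi (-1.036)) with h4 | h4
  · have g1 := Phi_lo_1_175
    have g2 := Phi_hi_1_036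
    have hc := chord_1_175_1_036 h3 h4
    have hR := h.lin (L0 := 0.018) (by norm_num) hc (by linarith) (by norm_num)
    have h6 := arctan_le_tangent (y0 := 1.1) hy (by norm_num)
    have h7 := arctan_1_1
    have h8 := r_le (r := r) (s := 0.18) (by norm_num)
    norm_num at *
    linarith
  · have g1 := Phi_lo_1_036
    have g2 := Phi_lo_0_915
    have hc := chord_1_036_0_915 h4 (by linarith)
    have hR := h.lin (L0 := 0.022) (by norm_num) hc (by linarith) (by norm_num)
    have h6 := arctan_le_tangent (y0 := 1.3) hy (by norm_num)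
    have h7 := arctan_1_3
    have h8 := r_le (r := r) (s := 0.21) (by norm_num)
    norm_num at *
    linarith

lemma line_small {p R : ℝ} (h : Cell 3.49 p R) (hp : p ≤ Phi (-1.036)) : R ≤ 0.2345 * p := by
  have hp0 := h.pos
  have g1 := Phi_hi_1_036
  rcases le_total p 0.117 with h1 | h1
  · have := h.small (by norm_num) (by linarith)
    nlinarith
  rcases le_total p (Phi (-1.175)) with h2 | h2
  · have g2 := Phi_hi_1_405
    have g3 := Phi_hi_1_175
    have hc := chord_1_405_1_175 (by linarith) h2
    have hR := h.lin (L0 := 0.011) (by norm_num) hc (by linarith) (by norm_num)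
    norm_num at *
    linarith
  · have hc := chord_1_175_1_036 h2 hp
    have hR := h.lin (L0 := 0.018) (by norm_num) hc (by linarith) (by norm_num)
    norm_num at *
    linarith

lemma line_mid {p R : ℝ} (h : Cell 3.49 p R) (hp : Phi (-1.036) ≤ p) (hp' : p ≤ Phi (-0.878)) :
    R ≤ 0.473 * p - 0.03585 := by
  have g1 := Phi_lo_1_036
  have g2 := Phi_hi_0_915
  have g3 := Phi_lo_0_915
  have g4 := Phi_hi_0_878
  rcases le_total p (Phi (-0.915)) with h2 | h2
  · have hc := chord_1_036_0_915 hp h2
    have hR := h.lin (L0 := 0.019) (by norm_num) hc (by linarith) (by norm_num)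
    norm_num at *
    linarith
  · have hc := chord_0_915_0_878 h2 hp'
    have hR := h.lin (L0 := 0.028) (by norm_num) hc (by linarith) (by norm_num)
    norm_num at *
    linarith

lemma line_019 {p R : ℝ} (h : Cell 3.49 p R) (hp : p ≤ Phi (-0.878)) : R ≤ 0.2843 * p := by
  have hp0 := h.pos
  rcases le_total p (Phi (-1.036)) with h2 | h2
  · have := line_small h h2
    linarith
  · have := line_mid h h2 hp
    have g4 := Phi_hi_0_878
    linarith

/-- the main line for the big cells -/
lemma N1 {p R : ℝ} (h : Cell 3.49 p R) (hp : Phi (-0.878) ≤ p) : R ≤ 0.579 * p - 0.0559 := by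
  have hp0 := h.pos
  rcases le_total p (Phi (-0.842)) with h1 | h1
  · have g1 := Phi_lo_0_878
    have g2 := Phi_hi_0_842
    have hc := chord_0_878_0_842 hp h1
    have hR := h.lin (L0 := 0.03) (by norm_num) hc (by linarith) (by norm_num)
    norm_num at *
    linarith
  rcases le_total p (Phi (-0.675)) with h2 | h2
  · have g1 := Phi_lo_0_842
    have g2 := Phi_hi_0_675
    have hc := chord_0_842_0_675 h1 h2
    have hR := h.quad (by norm_num) hc (by linarith) (by linarith)
    nlinarith [sq_nonneg (p - 0.225)]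
  rcases le_total p (Phi (-0.483)) with h3 | h3
  · have g1 := Phi_lo_0_675
    have g2 := Phi_hi_0_483
    have hc := chord_0_675_0_483 h2 h3
    have hR := h.quad (by norm_num) hc (by linarith) (by linarith)
    nlinarith [sq_nonneg (p - 0.31)]
  · have g1 := Phi_lo_0_483
    have g2 := Phi_one_le
    have := h.e1.trans (tan_0_483 (by linarith) h.le_half)
    linarith

/-- small cells: deficiency is nonnegative -/
lemma def_nonneg {p R : ℝ} (h : Cell 3.49 p R) : 0 ≤ 0.579 * p - R := by
  have hp0 := h.pos
  rcases le_total p (Phi (-0.878)) with h1 | h1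
  · have := line_019 h h1; linarith
  · have := N1 h h1; linarith

/-- a cell with small deficiency has `p ≤ 0.165` -/
lemma p_le_of_def {p R : ℝ} (h : Cell 3.49 p R) (hd : 0.579 * p - R ≤ 0.0533) : p ≤ 0.165 := by
  by_contra hcon
  have hcon := (not_le.1 hcon).le
  have hp0 := h.pos
  rcases le_total p (Phi (-0.915)) with h1 | h1
  · have g1 := Phi_hi_1_036
    have g2 := Phi_hi_0_915
    have hc := chord_1_036_0_915 (by linarith) h1
    have hR := h.lin (L0 := 0.0218) (by norm_num) hc (by linarith) (by norm_num)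
    norm_num at *
    linarith
  rcases le_total p (Phi (-0.878)) with h2 | h2
  · have g1 := Phi_lo_0_915
    have g2 := Phi_hi_0_878
    have hc := chord_0_915_0_878 h1 h2
    have hR := h.lin (L0 := 0.0256) (by norm_num) hc (by linarith) (by norm_num)
    norm_num at *
    linarith
  · have := N1 h h2
    linarith

lemma line_165 {p R : ℝ} (h : Cell 3.49 p R) (hp : p ≤ 0.165) : R ≤ 0.2553 * p := by
  have hp0 := h.pos
  rcases le_total p (Phi (-1.036)) with h2 | h2
  · have := line_small h h2
    linarith
  · have g1 := Phi_lo_1_036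
    have g2 := Phi_lo_0_915
    have hc := chord_1_036_0_915 h2 (by linarith)
    have hR := h.lin (L0 := 0.0218) (by norm_num) hc (by linarith) (by norm_num)
    norm_num at *
    linarith

/-- energy analysis for five cells -/
theorem energy5 {p0 p1 p2 p3 p4 R0 R1 R2 R3 R4 : ℝ} (h0 : Cell 3.49 p0 R0) (h1 : Cell 3.49 p1 R1)
    (h2 : Cell 3.49 p2 R2) (h3 : Cell 3.49 p3 R3) (h4 : Cell 3.49 p4 R4)
    (h01 : p0 ≤ p1) (h12 : p1 ≤ p2) (h23 : p2 ≤ p3) (h34 : p3 ≤ p4)
    (hsum : p0 + p1 + p2 + p3 + p4 = 1) (hV : 0.358098 ≤ R0 + R1 + R2 + R3 + R4)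
    (hbig : Phi (-0.915) ≤ p2) :
    Phi (-0.878) ≤ p2 ∧ p0 ≤ 0.165 ∧ p1 ≤ 0.165 ∧
    (0.579 * p0 - R0) + (0.579 * p1 - R1) ≤ 0.4113 - (R0 + R1 + R2 + R3 + R4) ∧
    R0 + R1 ≤ 0.04197 ∧ 0.0398 ≤ R2 ∧ 0.0398 ≤ R3 ∧ 0.0398 ≤ R4 := by
  have q0 := h0.pos
  have q1 := h1.pos
  have g0 := Phi_one_le
  have g1 := Phi_lo_0_915
  have g2 := Phi_hi_0_878
  have key : Phi (-0.878) ≤ p2 := by
    by_contra hcon
    have hcon := (not_le.1 hcon).le
    rcases le_total p3 (Phi (-0.878)) with a3 | a3
    · have e0 := line_019 h0 (by linarith)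
      have e1 := line_019 h1 (by linarith)
      have e2 := line_019 h2 hcon
      have e3 := line_019 h3 a3
      have e4 := h4.le_tan (by linarith)
      linarith
    · have g3 := Phi_hi_1_036
      have e2 := line_mid h2 (by linarith) hcon
      have n3 := N1 h3 a3
      have n4 := N1 h4 (by linarith)
      have t3 := h3.e1.trans (tan_0_385 (by linarith) h3.le_half)
      have t4 := h4.e1.trans (tan_0_385 (by linarith) h4.le_half)
      have s3 := h3.e1.trans (tan_0_25 (by linarith) h3.le_half)
      have s4 := h4.e1.trans (tan_0_25 (by linarith) h4.le_half)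
      rcases le_total p1 (Phi (-1.036)) with a1 | a1
      · have e1 := line_small h1 a1
        have e0 := line_small h0 (by linarith)
        rcases le_total (p0 + p1) 0.06 with b | b <;> linarith
      · have e1 := line_mid h1 a1 (by linarith)
        have g4 := Phi_lo_1_036
        rcases le_total p0 (Phi (-1.036)) with a0 | a0
        · have e0 := line_small h0 a0
          rcases le_total (p1 + p2) 0.365 with b | b <;> linarith
        · have e0 := line_mid h0 a0 (by linarith)
          linarith
  have n2 := N1 h2 key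
  have n3 := N1 h3 (by linarith)
  have n4 := N1 h4 (by linarith)
  have d0 := def_nonneg h0
  have d1 := def_nonneg h1
  have hE : (0.579 * p0 - R0) + (0.579 * p1 - R1) ≤ 0.4113 - (R0 + R1 + R2 + R3 + R4) := by
    linarith
  have c0 : p0 ≤ 0.165 := p_le_of_def h0 (by linarith)
  have c1 : p1 ≤ 0.165 := p_le_of_def h1 (by linarith)
  have l0 := line_165 h0 c0
  have l1 := line_165 h1 c1
  have s2 := h2.e1.trans (tan_0_25 (by linarith) h2.le_half)
  have s3 := h3.e1.trans (tan_0_25 (by linarith) h3.le_half)
  have s4 := h4.e1.trans (tan_0_25 (by linarith) h4.le_half)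
  have g5 := Phi_lo_0_878
  refine ⟨key, c0, c1, hE, ?_, ?_, ?_, ?_⟩ <;> linarith

end Crest.Agent.R215.K5
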