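import Crest.Agent.R215.K5Cell
import Crest.Agent.R215.K5Geo
import Crest.Agent.R215.K5Alg

/-!
# Row 215: no critical configuration with five cells
-/

set_option autoImplicit false

open MeasureTheory ProbabilityTheory Set Filter Topology
open scoped RealInnerProductSpace

namespace Crest.Agent.R215.K5

variable {E : Type*} [NormedAddCommGroup E] [InnerProductSpace ℝ E] [FiniteDimensional ℝ E]
  [MeasurableSpace E] [BorelSpace E]

/-- contradiction once the cells are ordered -/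
theorem ordered (c : Crit E (Fin 5)) {i o j l m : Fin 5}
    (hio : i ≠ o) (hij : i ≠ j) (hil : i ≠ l) (him : i ≠ m) (hoj : o ≠ j) (hol : o ≠ l)
    (hom : o ≠ m) (hjl : j ≠ l) (hjm : j ≠ m) (hlm : l ≠ m)
    (hsum : ∀ f : Fin 5 → ℝ, ∑ x, f x = f i + f o + f j + f l + f m)
    (hj : T ≤ c.p j) (hl : T ≤ c.p l) (hm : T ≤ c.p m)
    (hjl' : ‖c.z j‖ ^ 2 ≤ ‖c.z l‖ ^ 2) (hjm' : ‖c.z j‖ ^ 2 ≤ ‖c.z m‖ ^ 2)
    (hio' : ‖c.z i‖ ^ 2 ≤ ‖c.z o‖ ^ 2) : False := by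
  have hV := c.V_gt
  have hsa : cC ≤ ‖c.z l‖ ^ 2 + ‖c.z m‖ ^ 2 + ‖c.z j‖ ^ 2 + ‖c.z i‖ ^ 2 + ‖c.z o‖ ^ 2 := by
    have h1 := hsum fun x => ‖c.z x‖ ^ 2
    rw [c.sumsq] at h1
    linarith
  have hsp : c.p l + c.p m + c.p j + c.p i + c.p o = 1 := by
    have h1 := hsum fun x => c.p x
    rw [c.sum_p] at h1
    linarith
  have bl := cell_big c l hl
  have bm := cell_big c m hm
  have bj := cell_big c j hj
  have tl := cell_tan c l hl
  have tm := cell_tan c m hm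
  have ul := sq_le_top c l
  have um := sq_le_top c m
  have hai : 0 < ‖c.z i‖ ^ 2 := by
    have := norm_pos_iff.2 (c.z_ne_zero i (by simp)); positivity
  have hao : 0 < ‖c.z o‖ ^ 2 := by
    have := norm_pos_iff.2 (c.z_ne_zero o (by simp)); positivity
  have hC := cC_gt
  have hC' := cC_lt
  have hPS := PS_bounds
  -- the small cells
  have small : ∀ x y, x ≠ l → c.p l + c.p m + c.p j + c.p x + c.p y = 1 →
      cC ≤ ‖c.z l‖ ^ 2 + ‖c.z m‖ ^ 2 + ‖c.z j‖ ^ 2 + ‖c.z x‖ ^ 2 + ‖c.z y‖ ^ 2 →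
      ‖c.z x‖ ^ 2 ≤ 0.0955 * c.p x ∨ (0.0559173 ≤ c.p x ∧ ‖c.z x‖ ^ 2 ≤ 0.3413 * c.p x - 0.01374) := by
    intro x y _ hp ha
    rcases le_total (c.p x) PS with h1 | h1
    · exact Or.inl (cell_tiny c x h1)
    · rcases le_total (c.p x) T with h2 | h2
      · exact Or.inr ⟨hPS.1.trans h1, cell_mid c x h1 h2⟩
      · exfalso
        have h3 := cell_big c x h2
        have h4 : ‖c.z y‖ ^ 2 ≤ 0.568 * c.p y := by
          have hp0 := p_pos c y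
          rcases le_total (c.p y) T with h5 | h5
          · have := cell_small c y h5; linarith
          · have := cell_big c y h5; linarith
        linarith
  have hi := small i o hil (by linarith) (by linarith)
  have ho := small o i hol (by linarith) (by linarith)
  obtain ⟨key, k2⟩ := real5 (C := cC) hC.le hC'.le hsa hsp bl bm bj tl tm ul um hjl' hjm' hai hio' hi ho
  set X := (2 * (‖c.z l‖ ^ 2 + ‖c.z m‖ ^ 2) - ‖c.z j‖ ^ 2 - (‖c.z i‖ ^ 2 + ‖c.z o‖ ^ 2))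
        * (‖c.z j‖ ^ 2 + ‖c.z i‖ ^ 2)
        - (|‖c.z l‖ ^ 2 - ‖c.z m‖ ^ 2| + 2 * ‖c.z i‖ ^ 2 + ‖c.z o‖ ^ 2) ^ 2 with hX
  have hX0 : 0 < X := by linarith
  have hgeo := geo5 c hio hij hil him hoj hol hom hjl hjm hlm hsum hX0 rfl hX.le (by
    have h1 : (16 * ‖c.z i‖ ^ 2 + ‖c.z o‖ ^ 2) * (‖c.z j‖ ^ 2 + ‖c.z i‖ ^ 2) ≤ (2.48 * X) * 0.2 :=
      mul_le_mul key.le k2 (by positivity) (by positivity)
    linarith)
  have hpi : (31 : ℝ) < Real.pi ^ 3 := by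
    have h1 : (3.1415 : ℝ) ^ 3 < Real.pi ^ 3 := by
      apply pow_lt_pow_left₀ Real.pi_gt_d4 (by norm_num) (by norm_num)
    linarith [show (31:ℝ) < 3.1415 ^ 3 by norm_num]
  have h3 : 31 * X < Real.pi ^ 3 * X := mul_lt_mul_of_pos_right hpi hX0
  linarith

/-- at least three cells have `p ≥ T` -/
lemma three_big (c : Crit E (Fin 5)) {σ : Equiv.Perm (Fin 5)} (hσ : Monotone (c.p ∘ σ)) :
    T ≤ c.p (σ 2) := by
  by_contra hcon
  push Not at hcon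
  have h0 : c.p (σ 0) ≤ c.p (σ 2) := hσ (by decide)
  have h1 : c.p (σ 1) ≤ c.p (σ 2) := hσ (by decide)
  have e0 := cell_small c (σ 0) (h0.trans hcon.le)
  have e1 := cell_small c (σ 1) (h1.trans hcon.le)
  have e2 := cell_small c (σ 2) hcon.le
  have any : ∀ x, ‖c.z x‖ ^ 2 ≤ 0.04306 + 0.26922 * c.p x := by
    intro x
    rcases le_total (c.p x) T with h5 | h5
    · have := cell_small c x h5; linarith
    · exact cell_tan c x h5
  have e3 := any (σ 3)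
  have e4 := any (σ 4)
  have hV := c.V_gt
  have hC := cC_gt
  have s1 : ∑ x, ‖c.z (σ x)‖ ^ 2 = c.V := by
    rw [← c.sumsq]; exact Equiv.sum_comp σ fun x => ‖c.z x‖ ^ 2
  have s2 : ∑ x, c.p (σ x) = 1 := by
    rw [← c.sum_p]; exact Equiv.sum_comp σ fun x => c.p x
  rw [Fin.sum_univ_five] at s1 s2
  linarith

/-- **no critical configuration with five cells** -/
theorem isEmpty_crit_five_sb : IsEmpty (Crit E (Fin 5)) := by
  refine ⟨fun c => ?_⟩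
  obtain ⟨σ, hσ⟩ : ∃ σ : Equiv.Perm (Fin 5), Monotone (c.p ∘ σ) :=
    ⟨Tuple.sort c.p, Tuple.monotone_sort c.p⟩
  have h2 := three_big c hσ
  have h3 : T ≤ c.p (σ 3) := h2.trans (hσ (by decide))
  have h4 : T ≤ c.p (σ 4) := h2.trans (hσ (by decide))
  have hs : ∀ f : Fin 5 → ℝ, ∑ x, f x = f (σ 0) + f (σ 1) + f (σ 2) + f (σ 3) + f (σ 4) := by
    intro f
    rw [← Equiv.sum_comp σ f, Fin.sum_univ_five]
  have hne : ∀ {a b : Fin 5}, a ≠ b → σ a ≠ σ b := fun h h' => h (σ.injective h')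
  have n01 : σ 0 ≠ σ 1 := hne (by decide)
  have n02 : σ 0 ≠ σ 2 := hne (by decide)
  have n03 : σ 0 ≠ σ 3 := hne (by decide)
  have n04 : σ 0 ≠ σ 4 := hne (by decide)
  have n12 : σ 1 ≠ σ 2 := hne (by decide)
  have n13 : σ 1 ≠ σ 3 := hne (by decide)
  have n14 : σ 1 ≠ σ 4 := hne (by decide)
  have n23 : σ 2 ≠ σ 3 := hne (by decide)
  have n24 : σ 2 ≠ σ 4 := hne (by decide)
  have n34 : σ 3 ≠ σ 4 := hne (by decide)
  -- order the two small cells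
  obtain ⟨i, o, hio, hi2, hi3, hi4, ho2, ho3, ho4, hso, hio'⟩ : ∃ i o : Fin 5, i ≠ o ∧
      i ≠ σ 2 ∧ i ≠ σ 3 ∧ i ≠ σ 4 ∧ o ≠ σ 2 ∧ o ≠ σ 3 ∧ o ≠ σ 4 ∧
      (∀ f : Fin 5 → ℝ, ∑ x, f x = f i + f o + f (σ 2) + f (σ 3) + f (σ 4)) ∧
      ‖c.z i‖ ^ 2 ≤ ‖c.z o‖ ^ 2 := by
    rcases le_total (‖c.z (σ 0)‖ ^ 2) (‖c.z (σ 1)‖ ^ 2) with h | h
    · exact ⟨σ 0, σ 1, n01, n02, n03, n04, n12, n13, n14, hs, h⟩
    · exact ⟨σ 1, σ 0, n01.symm, n12, n13, n14, n02, n03, n04, fun f => by rw [hs]; ring, h⟩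
  -- the smallest big cell
  rcases le_total (‖c.z (σ 2)‖ ^ 2) (‖c.z (σ 3)‖ ^ 2) with a | a
  · rcases le_total (‖c.z (σ 2)‖ ^ 2) (‖c.z (σ 4)‖ ^ 2) with b | b
    · exact ordered c hio hi2 hi3 hi4 ho2 ho3 ho4 n23 n24 n34 hso h2 h3 h4 a b hio'
    · exact ordered c (j := σ 4) (l := σ 2) (m := σ 3) hio hi4 hi2 hi3 ho4 ho2 ho3 n24.symm
        n34.symm n23 (fun f => by rw [hso]; ring) h4 h2 h3 b (b.trans a) hio'
  · rcases le_total (‖c.z (σ 3)‖ ^ 2) (‖c.z (σ 4)‖ ^ 2) with b | b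
    · exact ordered c (j := σ 3) (l := σ 2) (m := σ 4) hio hi3 hi2 hi4 ho3 ho2 ho4 n23.symm
        n34 n24 (fun f => by rw [hso]; ring) h3 h2 h4 a b hio'
    · exact ordered c (j := σ 4) (l := σ 2) (m := σ 3) hio hi4 hi2 hi3 ho4 ho2 ho3 n24.symm
        n34.symm n23 (fun f => by rw [hso]; ring) h4 h2 h3 (b.trans a) b hio'

end Crest.Agent.R215.K5
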