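import Crest.Agent.R215.KGen

/-!
# Row 215: there is no critical configuration with six cells
-/

set_option autoImplicit false

open MeasureTheory ProbabilityTheory Set Filter Topology
open Crest.Agent.Lib.Ehrhard
open scoped RealInnerProductSpace

open Crest.Agent.R215 Crest.Agent.R215.Num Crest.Agent.R215.KGen

namespace Crest.Agent.R215.K6

/-- inequality for the small cells -/
lemma Scell {p r : ℝ} (h : Cell 3.35 p (r ^ 2)) (hr : 0 ≤ r) (hp : p ≤ Phi (-0.842)) :
    Real.arctan (6.8598 * r) + 2.4306 * r ≤ 28.0 * (0.579 * p - r ^ 2) + 2.193 * r ^ 2 := by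
  have hp0 := h.pos
  have hy : 0 ≤ 6.8598 * r := by positivity
  rcases le_total p (Phi (-1.695)) with h1 | h1
  · have h2 := Phi_hi_1_695
    have h3 := h.small (by norm_num) (by linarith)
    have h4 : r ≤ 1.41422 * p := by
      refine le_of_sq_le_sq (h3.trans ?_) (by positivity)
      nlinarith [sq_nonneg p]
    have h6 := arctan_le_self' hy
    nlinarith
  rcases le_total p (Phi (-1.405)) with g0 | g0
  · have a1 := Phi_lo_1_695
    have a2 := Phi_hi_1_405
    have hc := chord_1_695_1_405 h1 g0
    have hR := h.lin (L0 := 0.002) (by norm_num) hc (by linarith) (by norm_num)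
    have h6 := arctan_le_tangent (y0 := 0.5) hy (by norm_num)
    have h7 := arctan_0_5
    have h8 := r_le (r := r) (s := 0.08) (by norm_num)
    norm_num at *
    linarith
  rcases le_total p (Phi (-1.175)) with g1 | g1
  · have a1 := Phi_lo_1_405
    have a2 := Phi_hi_1_175
    have hc := chord_1_405_1_175 g0 g1
    have hR := h.lin (L0 := 0.006) (by norm_num) hc (by linarith) (by norm_num)
    have h6 := arctan_le_tangent (y0 := 0.8) hy (by norm_num)
    have h7 := arctan_0_8
    have h8 := r_le (r := r) (s := 0.13) (by norm_num)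
    norm_num at *
    linarith
  rcases le_total p (Phi (-1.036)) with g2 | g2
  · have a1 := Phi_lo_1_175
    have a2 := Phi_hi_1_036
    have hc := chord_1_175_1_036 g1 g2
    have hR := h.lin (L0 := 0.014) (by norm_num) hc (by linarith) (by norm_num)
    have h6 := arctan_le_tangent (y0 := 1.2) hy (by norm_num)
    have h7 := arctan_1_2
    have h8 := r_le (r := r) (s := 0.18) (by norm_num)
    norm_num at *
    linarith
  rcases le_total p (Phi (-0.915)) with g3 | g3
  · have a1 := Phi_lo_1_036
    have a2 := Phi_hi_0_915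
    have hc := chord_1_036_0_915 g2 g3
    have hR := h.lin (L0 := 0.026) (by norm_num) hc (by linarith) (by norm_num)
    have h6 := arctan_le_tangent (y0 := 1.5) hy (by norm_num)
    have h7 := arctan_1_5
    have h8 := r_le (r := r) (s := 0.22) (by norm_num)
    norm_num at *
    linarith
  · have a1 := Phi_lo_0_915
    have a2 := Phi_hi_0_842
    have hc := chord_0_915_0_842 g3 hp
    have hR := h.lin (L0 := 0.031) (by norm_num) hc (by linarith) (by norm_num)
    have h6 := arctan_le_tangent (y0 := 1.8) hy (by norm_num)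
    have h7 := arctan_1_8
    have h8 := r_le (r := r) (s := 0.24) (by norm_num)
    norm_num at *
    linarith

lemma line_tau0 {p R : ℝ} (h : Cell 3.35 p R) (hp : p ≤ Phi (-0.842)) : R ≤ 0.2975 * p := by
  have hp0 := h.pos
  have q1 := Phi_hi_1_036
  have q2 := Phi_hi_0_915
  have q3 := Phi_hi_0_842
  have q4 := Phi_lo_1_036
  have q5 := Phi_lo_0_915
  rcases le_total p 0.14 with h1 | h1
  · have := h.small (by norm_num) (by linarith)
    nlinarith
  rcases le_total p (Phi (-1.036)) with h2 | h2
  · have g2 := Phi_hi_1_175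
    have hc := chord_1_175_1_036 (by linarith) h2
    have hR := h.lin (L0 := 0.018) (by norm_num) hc (by linarith) (by norm_num)
    norm_num at *
    linarith
  rcases le_total p (Phi (-0.915)) with h3 | h3
  · have hc := chord_1_036_0_915 h2 h3
    have hR := h.lin (L0 := 0.024) (by norm_num) hc (by linarith) (by norm_num)
    norm_num at *
    linarith
  · have hc := chord_0_915_0_842 h3 hp
    have hR := h.lin (L0 := 0.03) (by norm_num) hc (by linarith) (by norm_num)
    norm_num at *
    linarith

/-- the main line for the big cells -/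
lemma N1 {p R : ℝ} (h : Cell 3.35 p R) (hp : Phi (-0.915) ≤ p) : R ≤ 0.579 * p - 0.0551 := by
  have hp0 := h.pos
  rcases le_total p (Phi (-0.842)) with h1 | h1
  · have g1 := Phi_lo_0_915
    have g2 := Phi_hi_0_842
    have hc := chord_0_915_0_842 hp h1
    have hR := h.lin (L0 := 0.026) (by norm_num) hc (by linarith) (by norm_num)
    norm_num at *
    linarith
  rcases le_total p (Phi (-0.675)) with h2 | h2
  · have g1 := Phi_lo_0_842
    have g2 := Phi_hi_0_675
    have hc := chord_0_842_0_675 h1 h2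
    have hR := h.quad (by norm_num) hc (by linarith) (by linarith)
    nlinarith [sq_nonneg (p - 0.225)]
  rcases le_total p (Phi (-0.483)) with h3 | h3
  · have g1 := Phi_lo_0_675
    have g2 := Phi_hi_0_483
    have hc := chord_0_675_0_483 h2 h3
    have hR := h.quad (by norm_num) hc (by linarith) (by linarith)
    nlinarith [sq_nonneg (p - 0.31)]
  · have g1 := Phi_lo_0_483
    have g2 := Phi_one_le
    have := h.e1.trans (tan_0_483 (by linarith) h.le_half)
    linarith

lemma def_nonneg {p R : ℝ} (h : Cell 3.35 p R) : 0 ≤ 0.579 * p - R := by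
  have hp0 := h.pos
  rcases le_total p (Phi (-0.842)) with h1 | h1
  · have := line_tau0 h h1; linarith
  · have g1 := Phi_lo_0_842
    have g2 := Phi_hi_0_915
    have := N1 h (by linarith); linarith

/-- a cell with small deficiency has `p ≤ Φ(-0.842)` -/
lemma p_le_of_def {p R : ℝ} (h : Cell 3.35 p R) (hp : p ≤ 1 / 4) (hd : 0.579 * p - R ≤ 0.0557) :
    p ≤ Phi (-0.842) := by
  by_contra hcon
  have hcon := (not_le.1 hcon).le
  have g1 := Phi_lo_0_842
  rcases le_total p (Phi (-0.675)) with h2 | h2
  · have g2 := Phi_hi_0_675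
    have hc := chord_0_842_0_675 hcon h2
    have hR := h.quad (by norm_num) hc (by linarith) (by linarith)
    nlinarith [sq_nonneg (p - 0.225)]
  · have g2 := Phi_lo_0_483
    have g3 := Phi_lo_0_675
    have hc := chord_0_675_0_483 h2 (by linarith)
    have hR := h.lin (L0 := 0.047) (by norm_num) hc (by linarith) (by norm_num)
    norm_num at *
    linarith

variable {E : Type*} [NormedAddCommGroup E] [InnerProductSpace ℝ E] [FiniteDimensional ℝ E]
  [MeasurableSpace E] [BorelSpace E]
variable {ι : Type*} [Fintype ι] [DecidableEq ι]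

theorem false_of_crit (c : Crit E ι) (hk : Fintype.card ι = 6) : False := by
  have hcC := cC_gt
  have hcC' := cC_lt
  have hη : (3.35 : ℝ) * cC ≤ 1 + ((Fintype.card ι : ℝ) - 1)⁻¹ := by
    rw [hk]
    norm_num at *
    linarith
  have hcell : ∀ i, Cell 3.35 (c.p i) (‖c.z i‖ ^ 2) := fun i => c.cell_facts (by omega) hη i
  obtain ⟨j, l, m, hjl, hmj, hml, hlj, hml', hbig, hSm⟩ := exists_big c (by omega) (by norm_num) hη
  obtain ⟨S, hS⟩ : ∃ S, S = ((Finset.univ.erase j).erase l).erase m := ⟨_, rfl⟩
  rw [← hS] at hSm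
  have hV : 0.358098 ≤ c.V := by have := c.V_gt; linarith
  have sp := sum_split hjl hmj hml c.p
  have sR := sum_split hjl hmj hml (fun i => ‖c.z i‖ ^ 2)
  rw [← hS, c.sum_p] at sp
  rw [← hS, c.sumsq] at sR
  have nj := N1 (hcell j) (by linarith)
  have nl := N1 (hcell l) (by linarith)
  have nm := N1 (hcell m) hbig
  have hdef : ∑ i ∈ S, (0.579 * c.p i - ‖c.z i‖ ^ 2) ≤ 0.4137 - c.V := by
    rw [Finset.sum_sub_distrib, ← Finset.mul_sum]
    linarith
  have hp4 : ∀ i ∈ S, c.p i ≤ Phi (-0.842) := by
    intro i hi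
    have h1 := four_p_le c hjl hmj hml hlj hml' (by rw [← hS]; exact hi) (hSm i hi)
    refine p_le_of_def (hcell i) h1 ?_
    have h2 : 0.579 * c.p i - ‖c.z i‖ ^ 2 ≤ ∑ i ∈ S, (0.579 * c.p i - ‖c.z i‖ ^ 2) :=
      Finset.single_le_sum (fun i _ => def_nonneg (hcell i)) hi
    linarith
  have hτ : ∑ i ∈ S, ‖c.z i‖ ^ 2 ≤ 0.2975 * ∑ i ∈ S, c.p i := by
    rw [Finset.mul_sum]
    exact Finset.sum_le_sum fun i hi => line_tau0 (hcell i) (hp4 i hi)
  rw [Finset.sum_sub_distrib, ← Finset.mul_sum] at hdef
  have hE := hdef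
  obtain ⟨RS, hRS⟩ : ∃ x, x = ∑ i ∈ S, ‖c.z i‖ ^ 2 := ⟨_, rfl⟩
  obtain ⟨PS, hPS⟩ : ∃ x, x = ∑ i ∈ S, c.p i := ⟨_, rfl⟩
  rw [← hRS, ← hPS] at hτ hE
  rw [← hRS] at sR
  rw [← hPS] at sp
  have g1 := Phi_lo_0_915
  have g2 := Phi_one_le
  have sj := (hcell j).e1.trans (tan_0_25 (by linarith) (hcell j).le_half)
  have sl := (hcell l).e1.trans (tan_0_25 (by linarith) (hcell l).le_half)
  have sm := (hcell m).e1.trans (tan_0_25 (by linarith) (hcell m).le_half)
  have tj := (hcell j).e1.trans (tan_0_483 (by linarith) (hcell j).le_half)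
  have tl := (hcell l).e1.trans (tan_0_483 (by linarith) (hcell l).le_half)
  have tm := (hcell m).e1.trans (tan_0_483 (by linarith) (hcell m).le_half)
  have hpi1 := Real.pi_gt_d6
  have hpi2 := Real.pi_lt_d6
  refine gen_final c hjl hmj hml hS (k0 := 6) (by norm_num) hk.ge (Λ := 28) (β := 0.579)
    (κ := 2.193) (A := 6.8598) (B := 2.4306) (D := 0.4137) (u0 := 0.505) (cc := 1.063) (t0 := 0.5547)
    (ρ := 0.0588) (by norm_num) ?_ (by norm_num) ?_ ?_ (fun i => (hcell i).e1') ?_ (by norm_num) ?_ ?_
    (by norm_num) (by norm_num) (by norm_num) (by norm_num) (by norm_num) (by norm_num)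
    (by norm_num) (by norm_num) ?_ ?_
  · intro i hi
    have := Scell (hcell i) (norm_nonneg _) (hp4 i hi)
    norm_num at this ⊢
    linarith
  · rw [Finset.sum_sub_distrib, ← Finset.mul_sum]
    exact hdef
  · intro b hb
    simp only [Finset.mem_insert, Finset.mem_singleton] at hb
    rcases hb with rfl | rfl | rfl <;> linarith
  · rw [← hRS]; linarith
  · rw [← hRS]; norm_num; linarith
  · intro a ha
    rw [← hRS]
    simp only [Finset.mem_insert, Finset.mem_singleton] at ha
    norm_num
    rcases ha with rfl | rfl | rfl <;> linarith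
  · have g3 := pi_sq_lo
    norm_num at g3 ⊢
    linarith
  · have g3 : 4 * Real.pi ^ 2 / (3 * (6:ℕ)) ≤ 2.19325 := by
      have g3 := pi_sq_hi
      norm_num at g3 ⊢
      linarith
    have g4 : 4 * Real.pi ^ 2 / (3 * (6:ℕ)) * c.V ≤ 2.19325 * c.V :=
      mul_le_mul_of_nonneg_right g3 (by linarith)
    norm_num at g4 hV hpi1 hpi2 ⊢
    linarith only [g4, hV, hpi1, hpi2]

theorem isEmpty_crit_six : IsEmpty (Crit E (Fin 6)) := ⟨fun c => false_of_crit c (by simp)⟩

end Crest.Agent.R215.K6
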