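import Crest.Agent.R215.Skel

/-!
# Row 215: the case `k = 6`
-/

set_option autoImplicit false

open MeasureTheory ProbabilityTheory Set Filter Topology
open Crest.Agent.Lib.Ehrhard
open scoped RealInnerProductSpace

namespace Crest.Agent.R215.K6six

open Crest.Agent.R215.Num

lemma hB {p R : ℝ} (h : Cell 3.35 p R) (hp : Phi (-0.915) < p) : R ≤ 0.5775 * p - 0.0548 := by
  have g1 := Phi_lo_0_915
  have g2 := Phi_hi_0_842
  have g3 := Phi_hi_0_675
  have g3' := Phi_lo_0_675
  have g4 := Phi_lo_0_483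
  rcases le_total p (Phi (-0.842)) with h1 | h1
  · have h4 := chord_0_915_0_842 hp.le h1
    have := h.lin (L0 := 0.0256) (by norm_num) h4 (by linarith) (by norm_num)
    linarith
  rcases le_total p (Phi (-0.675)) with h2 | h2
  · have h4 := chord_0_842_0_675 h1 h2
    have := h.lin (L0 := 0.0312) (by norm_num) h4 (by linarith) (by norm_num)
    have := Phi_lo_0_842
    linarith
  rcases le_total p 0.3112 with h3 | h3
  · have h4 := chord_0_675_0_483 h2 (h3.trans (by linarith))
    have := h.lin (L0 := 0.0708) (by norm_num) h4 (by linarith) (by norm_num)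
    linarith
  · have h5 : Phi (-1) ≤ p := by
      have := Phi_one_le
      linarith
    have := h.e1.trans (tan_0_483 h5 h.le_half)
    linarith

lemma hτ {p R : ℝ} (h : Cell 3.35 p R) (hp : p ≤ Phi (-0.842)) : R ≤ 0.2962 * p := by
  have g1 := Phi_hi_0_842
  have hp0 := h.pos
  rcases le_total p 0.145 with h1 | h1
  · have := h.small (by norm_num) (by linarith)
    nlinarith
  rcases le_total p (Phi (-1.036)) with h2 | h2
  · have h3 : Phi (-1.175) ≤ p := by
      have := Phi_hi_1_175
      linarith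
    have h4 := chord_1_175_1_036 h3 h2
    have h5 := Phi_hi_1_036
    have := h.lin (L0 := 0.0181) (by norm_num) h4 (by linarith) (by norm_num)
    linarith
  rcases le_total p (Phi (-0.915)) with h3 | h3
  · have h4 := chord_1_036_0_915 h2 h3
    have h5 := Phi_hi_0_915
    have := h.lin (L0 := 0.0256) (by norm_num) h4 (by linarith) (by norm_num)
    linarith
  · have h4 := chord_0_915_0_842 h3 hp
    have := h.lin (L0 := 0.0312) (by norm_num) h4 (by linarith) (by norm_num)
    linarith

lemma hA {p R : ℝ} (h : Cell 3.35 p R) : R ≤ 0.03375 + 0.2962 * p := by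
  rcases le_total (Phi (-1)) p with h1 | h1
  · have h2 := h.e1.trans (tan_0_385 h1 h.le_half)
    have h3 := h.e1.trans (tan_0_483 h1 h.le_half)
    have h4 := Phi_one_ge
    linarith
  · have h2 := Phi_one_le
    have h3 := Phi_lo_0_842
    have := hτ h (h1.trans (by linarith))
    linarith

lemma hM {p R : ℝ} (h : Cell 3.35 p R) (hp : Phi (-0.842) ≤ p) (hp' : p ≤ 1 / 4) :
    0.5775 - 3 * 0.0548 - cC < 0.5775 * p - R := by
  have g1 := Phi_lo_0_842
  have hC := cC_gt
  rcases le_total p (Phi (-0.675)) with h2 | h2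
  · have h4 := chord_0_842_0_675 hp h2
    have := h.lin (L0 := 0.0312) (by norm_num) h4 (by linarith) (by norm_num)
    linarith
  · have g2 := Phi_lo_0_675
    have h4 := chord_0_675_0_517 h2 (by have := Phi_lo_0_517; linarith)
    have := h.lin (L0 := 0.047) (by norm_num) h4 (by linarith) (by norm_num)
    linarith

/-- final step of the `S` inequality -/
lemma hS_fin {p R s Rl : ℝ} (hs : 0 < s) (h0 : 0 ≤ R) (h1 : R ≤ Rl)
    (h2 : 0.78539825 + (6.798 * ((Rl + s ^ 2) / (2 * s)) - 1) / 2 + 2.4 * ((Rl + s ^ 2) / (2 * s))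
        + (28.5 - 2.193) * Rl ≤ 28.5 * (0.5775 * p) ∨
      1.0471977 + (6.798 * ((Rl + s ^ 2) / (2 * s)) - 1.732) / 4 + 2.4 * ((Rl + s ^ 2) / (2 * s))
        + (28.5 - 2.193) * Rl ≤ 28.5 * (0.5775 * p)) :
    Real.arctan (6.798 * √R) + 2.4 * √R + (28.5 - 2.193) * R ≤ 28.5 * (0.5775 * p) := by
  have hr0 := Real.sqrt_nonneg R
  have hr : √R ^ 2 = R := Real.sq_sqrt h0
  have hr1 : √R ≤ (Rl + s ^ 2) / (2 * s) := by
    rw [le_div_iff₀ (by positivity)]
    nlinarith [sq_nonneg (√R - s)]
  have hy : 0 ≤ 6.798 * √R := by positivity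
  have t1 := arctan_le_one hy
  have t2 := arctan_le_sqrt_three hy
  have hpi := Real.pi_lt_d6
  set r := √R
  set q := (Rl + s ^ 2) / (2 * s)
  rcases h2 with h2 | h2
  · linarith
  · linarith

lemma hS {p R : ℝ} (h : Cell 3.35 p R) (hp : p ≤ Phi (-0.842)) :
    Real.arctan (6.798 * √R) + 2.4 * √R + (28.5 - 2.193) * R ≤ 28.5 * (0.5775 * p) := by
  have hp0 := h.pos
  have g1 := Phi_hi_0_842
  rcases le_total p 0.065 with h1 | h1
  · have h2 := h.small (by norm_num) (by linarith)
    have h3 : √R ≤ 1.41422 * p := by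
      rw [Real.sqrt_le_left (by positivity)]
      nlinarith
    have h4 : Real.arctan (6.798 * √R) ≤ 6.798 * √R := by
      have := arctan_le_tangent (y := 6.798 * √R) (y0 := 0) (by positivity) le_rfl
      simpa using this
    nlinarith
  rcases le_total p (Phi (-1.405)) with h2 | h2
  · have h4 := chord_1_695_1_405 (by have := Phi_hi_1_695; linarith) h2
    have h5 := Phi_hi_1_405
    refine hS_fin (s := 0.087) (by norm_num) h.nonneg
      (h.lin (L0 := 0.0038) (by norm_num) h4 (by linarith) (by norm_num)) (Or.inl ?_)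
    norm_num
    linarith
  rcases le_total p (Phi (-1.175)) with h3 | h3
  · have h4 := chord_1_405_1_175 h2 h3
    have h5 := Phi_hi_1_175
    have h6 := Phi_lo_1_405
    refine hS_fin (s := 0.111) (by norm_num) h.nonneg
      (h.lin (L0 := 0.0067) (by norm_num) h4 (by linarith) (by norm_num)) (Or.inl ?_)
    norm_num
    linarith
  rcases le_total p (Phi (-1.036)) with h4 | h4
  · have h4 := chord_1_175_1_036 h3 h4
    have h5 := Phi_hi_1_036
    have h6 := Phi_lo_1_175
    refine hS_fin (s := 0.188) (by norm_num) h.nonneg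
      (h.lin (L0 := 0.0181) (by norm_num) h4 (by linarith) (by norm_num)) (Or.inl ?_)
    norm_num
    linarith
  rcases le_total p (Phi (-0.915)) with h5 | h5
  · have h4 := chord_1_036_0_915 h4 h5
    have h5 := Phi_hi_0_915
    have h6 := Phi_lo_1_036
    refine hS_fin (s := 0.215) (by norm_num) h.nonneg
      (h.lin (L0 := 0.0245) (by norm_num) h4 (by linarith) (by norm_num)) (Or.inr ?_)
    norm_num
    linarith
  · have h4 := chord_0_915_0_842 h5 hp
    have h6 := Phi_lo_0_915
    refine hS_fin (s := 0.243) (by norm_num) h.nonneg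
      (h.lin (L0 := 0.0312) (by norm_num) h4 (by linarith) (by norm_num)) (Or.inr ?_)
    norm_num
    linarith

variable {E : Type*} [NormedAddCommGroup E] [InnerProductSpace ℝ E] [FiniteDimensional ℝ E]
  [MeasurableSpace E] [BorelSpace E]

/-- **the case `k = 6`** -/
theorem isEmpty_crit_six : IsEmpty (Crit E (Fin 6)) := by
  refine ⟨fun c => ?_⟩
  have hC := cC_gt
  have hC' := cC_lt
  have hpi := Real.pi_gt_d6
  have hpi' := Real.pi_lt_d6
  refine skeleton c (k0 := 6) (η := 3.35) (β := 0.5775) (e0 := 0.0548) (Λ := 28.5) (kap := 2.193)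
    (τ := 0.2962) (A := 0.03375) (P := Phi (-0.842)) (U := 0.2597) (yc := 6.798) (gc := 2.4)
    (γ := 1.223) (ρ := 0.2235) (σ0 := 0.058) (by simp) (by norm_num) (by simp) (by norm_num)
    ?_ (fun p R h => hB h) (fun p R h => hS h) (fun p R h => hM h) (fun p R h => hτ h)
    (fun p R h => hA h) ?_ ?_ ?_ ?_ ?_ ?_ ?_ ?_ ?_ ?_ ?_ ?_ ?_ ?_ ?_ ?_ ?_ ?_ ?_ ?_ ?_ ?_
  · simp only [Fintype.card_fin]
    norm_num
    linarith
  all_goals norm_num
  all_goals linarith

end Crest.Agent.R215.K6six
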