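import Crest.Agent.R215.EnergyCore

/-!
# Row 215: one more node (generated)
-/

set_option autoImplicit false

open Crest.Agent.Lib.Ehrhard

namespace Crest.Agent.R215.Num

lemma Phi_hi_0_755 : Phi (-0.755) ≤ 0.225125 := by
  have h := Phi_neg_le (n := 5) (by decide) (x := 0.755) (by norm_num)
  have h2 : (0.68901068 : ℝ) ≤ phiT 5 0.755 := by
    norm_num [phiT, Finset.sum_range_succ, Nat.factorial]
  have h3 := c0_gt
  nlinarith [mul_le_mul h3.le h2 (by norm_num) c0_pos.le]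

lemma Phi_lo_0_755 : 0.225124 ≤ Phi (-0.755) := by
  have h := le_Phi_neg (n := 4) (by decide) (x := 0.755) (by norm_num)
  have h2 : phiT 4 0.755 ≤ (0.68901176 : ℝ) := by
    norm_num [phiT, Finset.sum_range_succ, Nat.factorial]
  have h3 := c0_lt
  have h4 : c0 * phiT 4 0.755 ≤ 0.3989423 * 0.68901176 := by
    refine (mul_le_mul_of_nonneg_left h2 c0_pos.le).trans ?_
    exact mul_le_mul_of_nonneg_right h3.le (by norm_num)
  norm_num at h4 h ⊢
  linarith

lemma phi_hi_0_755 : phi (-0.755) ≤ 0.300007 := by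
  rw [phi_eq_c0]
  have e : ((-0.755 : ℝ)) ^ 2 / 2 = 0.755 ^ 2 / 2 := by norm_num
  rw [e]
  have h := exp_le_expT (n := 6) (by decide) (u := 0.755 ^ 2 / 2) (by norm_num)
  have h2 : expT 6 (0.755 ^ 2 / 2) ≤ (0.75200489 : ℝ) := by
    norm_num [expT, Finset.sum_range_succ, Nat.factorial]
  have h3 := c0_lt
  have h5 := h.trans h2
  have h4 : c0 * Real.exp (-(0.755 ^ 2 / 2)) ≤ 0.3989423 * 0.75200489 := by
    refine (mul_le_mul_of_nonneg_left h5 c0_pos.le).trans ?_
    exact mul_le_mul_of_nonneg_right h3.le (by norm_num)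
  refine h4.trans ?_
  norm_num

lemma phi_lo_0_755 : 0.300006 ≤ phi (-0.755) := by
  rw [phi_eq_c0]
  have e : ((-0.755 : ℝ)) ^ 2 / 2 = 0.755 ^ 2 / 2 := by norm_num
  rw [e]
  have h := expT_le_exp (n := 5) (by decide) (u := 0.755 ^ 2 / 2) (by norm_num)
  have h2 : (0.75200413 : ℝ) ≤ expT 5 (0.755 ^ 2 / 2) := by
    norm_num [expT, Finset.sum_range_succ, Nat.factorial]
  have h3 := c0_gt
  have h5 := h2.trans h
  refine le_trans ?_ (mul_le_mul h3.le h5 (by norm_num) c0_pos.le)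
  norm_num

end Crest.Agent.R215.Num

namespace Crest.Agent.R215

open Num

/-- chord of `chi` on `[Φ(-0.842), Φ(-0.755)]` (p = 0.19989 .. 0.22512) -/
lemma chord_0_842_0_755 {p : ℝ} (h1 : Phi (-0.842) ≤ p) (h2 : p ≤ Phi (-0.755)) :
    chi p ≤ 0.30870 * p + (-0.030483) := by
  refine chi_le_of_chord (b1 := -0.842) (b2 := -0.755) (by norm_num) ?_ ?_ h1 h2
  · refine (chi_node (by norm_num) phi_hi_0_842 Phi_lo_0_842).trans ?_
    have := Phi_lo_0_842
    norm_num at this ⊢
    linarith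
  · refine (chi_node (by norm_num) phi_hi_0_755 Phi_lo_0_755).trans ?_
    have := Phi_lo_0_755
    norm_num at this ⊢
    linarith

/-- chord of `chi` on `[Φ(-0.755), Φ(-0.675)]` (p = 0.22512 .. 0.24984) -/
lemma chord_0_755_0_675 {p : ℝ} (h1 : Phi (-0.755) ≤ p) (h2 : p ≤ Phi (-0.675)) :
    chi p ≤ 0.33703 * p + (-0.036861) := by
  refine chi_le_of_chord (b1 := -0.755) (b2 := -0.675) (by norm_num) ?_ ?_ h1 h2
  · refine (chi_node (by norm_num) phi_hi_0_755 Phi_lo_0_755).trans ?_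
    have := Phi_lo_0_755
    norm_num at this ⊢
    linarith
  · refine (chi_node (by norm_num) phi_hi_0_675 Phi_lo_0_675).trans ?_
    have := Phi_lo_0_675
    norm_num at this ⊢
    linarith

end Crest.Agent.R215
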