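import Crest.Agent.R215.K7Num

/-!
# Row 215: per-cell inequalities for `k ≥ 7` (`κ = 1`)
-/

set_option autoImplicit false

open MeasureTheory ProbabilityTheory Set Filter Topology
open Crest.Agent.Lib.Ehrhard
open scoped RealInnerProductSpace

namespace Crest.Agent.R215.K7

/-- tangent bound for `arctan` -/
lemma arctan_le_tangent {y y0 : ℝ} (hy : 0 ≤ y) (hy0 : 0 ≤ y0) :
    Real.arctan y ≤ Real.arctan y0 + (y - y0) / (1 + y0 ^ 2) := by
  set g : ℝ → ℝ := fun y => Real.arctan y0 + (y - y0) / (1 + y0 ^ 2) - Real.arctan y with hg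
  have hd : ∀ x, HasDerivAt g (1 / (1 + y0 ^ 2) - 1 / (1 + x ^ 2)) x := by
    intro x
    exact ((((hasDerivAt_id x).sub_const y0).div_const (1 + y0 ^ 2)).const_add
      (Real.arctan y0)).fun_sub (Real.hasDerivAt_arctan x)
  have hc : Continuous g := continuous_iff_continuousAt.2 fun x => (hd x).continuousAt
  have h0 : g y0 = 0 := by simp [hg]
  suffices h : 0 ≤ g y by simp only [hg] at h; linarith
  rcases le_total y y0 with h | h
  · have : AntitoneOn g (Icc y y0) := by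
      refine antitoneOn_of_deriv_nonpos (convex_Icc _ _) hc.continuousOn
        (fun x _ => (hd x).differentiableAt.differentiableWithinAt) ?_
      intro x hx
      rw [interior_Icc] at hx
      rw [(hd x).deriv]
      have hx0 : 0 < x := lt_of_le_of_lt hy hx.1
      have : 1 / (1 + y0 ^ 2) ≤ 1 / (1 + x ^ 2) :=
        one_div_le_one_div_of_le (by positivity) (by nlinarith [hx.2])
      linarith
    have h3 := this (left_mem_Icc.2 h) (right_mem_Icc.2 h) h
    rw [h0] at h3; exact h3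
  · have : MonotoneOn g (Icc y0 y) := by
      refine monotoneOn_of_deriv_nonneg (convex_Icc _ _) hc.continuousOn
        (fun x _ => (hd x).differentiableAt.differentiableWithinAt) ?_
      intro x hx
      rw [interior_Icc] at hx
      rw [(hd x).deriv]
      have : 1 / (1 + x ^ 2) ≤ 1 / (1 + y0 ^ 2) :=
        one_div_le_one_div_of_le (by positivity) (by nlinarith [hx.1])
      linarith
    have h3 := this (left_mem_Icc.2 h) (right_mem_Icc.2 h) h
    rw [h0] at h3; exact h3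

lemma arctan_le_one {y : ℝ} (hy : 0 ≤ y) : Real.arctan y ≤ 0.2855 + y / 2 := by
  have h := arctan_le_tangent hy (y0 := 1) (by norm_num)
  rw [Real.arctan_one] at h
  have := Real.pi_lt_d6
  norm_num at h ⊢
  linarith

lemma arctan_le_sixth {y : ℝ} (hy : 0 ≤ y) : Real.arctan y ≤ 0.0906 + 0.75 * y := by
  have h3 : (0:ℝ) < √3 := by positivity
  have h := arctan_le_tangent hy (y0 := (√3)⁻¹) (by positivity)
  rw [Real.arctan_inv_sqrt_three] at h
  have e1 : ((√3)⁻¹ : ℝ) ^ 2 = 1 / 3 := by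
    rw [inv_pow, Real.sq_sqrt (by norm_num)]; norm_num
  have e2 : ((√3)⁻¹ : ℝ) = √3 / 3 := by
    rw [inv_eq_one_div, div_eq_div_iff h3.ne' (by norm_num), Real.mul_self_sqrt (by norm_num)]
    norm_num
  have e3 : (1.73205 : ℝ) ≤ √3 := by
    apply Real.le_sqrt_of_sq_le; norm_num
  rw [e1, e2] at h
  have := Real.pi_lt_d6
  norm_num at h ⊢
  linarith

variable {E : Type*} [NormedAddCommGroup E] [InnerProductSpace ℝ E] [FiniteDimensional ℝ E]
  [MeasurableSpace E] [BorelSpace E] {ι : Type*} [Fintype ι] [DecidableEq ι]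

variable (c : Crit E ι) (hk : 2 ≤ Fintype.card ι) (i : ι)

include hk

lemma cell_cap : ‖c.z i‖ ^ 2 ≤ 0.15916 := by
  have h := c.norm_z_le hk i
  have h2 : phi (Psi (c.p i)) ≤ 0.3989423 := by
    rw [Num.phi_eq_c0]
    have h3 : Real.exp (-((Psi (c.p i)) ^ 2 / 2)) ≤ 1 := Real.exp_le_one_iff.2 (by
      have := sq_nonneg (Psi (c.p i)); linarith)
    have h4 := Num.c0_pos
    have h5 := Num.c0_lt
    nlinarith
  have h3 : ‖c.z i‖ ^ 2 ≤ 0.3989423 ^ 2 := pow_le_pow_left₀ (norm_nonneg _) (h.trans h2) 2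
  norm_num at h3 ⊢
  linarith

lemma Phi_Psi_p : Phi (Psi (c.p i)) = c.p i :=
  Phi_Psi (c.p_pos hk i) (lt_of_le_of_lt (c.p_le_half hk i) (by norm_num))

lemma le_Psi_p {b : ℝ} (h : Phi b ≤ c.p i) : b ≤ Psi (c.p i) :=
  (le_Psi_iff (c.p_pos hk i) (lt_of_le_of_lt (c.p_le_half hk i) (by norm_num))).2 h

lemma Psi_p_le {b : ℝ} (h : c.p i ≤ Phi b) : Psi (c.p i) ≤ b :=
  (Psi_le_iff (c.p_pos hk i) (lt_of_le_of_lt (c.p_le_half hk i) (by norm_num))).2 h

lemma Psi_p_nonpos : Psi (c.p i) ≤ 0 := by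
  apply Psi_p_le c hk i
  rw [Num.Phi_zero]
  exact c.p_le_half hk i

lemma cell_h (hp : c.p i ≤ Phi (-0.517)) : ‖c.z i‖ ^ 2 ≤ hb 1 (Psi (c.p i)) := by
  have h0 := c.p_pos hk i
  have h1 : c.p i < 1 := lt_of_le_of_lt (c.p_le_half hk i) (by norm_num)
  have e : chi (c.p i) = XX (Psi (c.p i)) := chi_eq_XX' h0 h1
  have hX : XX (Psi (c.p i)) ≤ XX (-0.517) := XX_mono (Psi_p_le c hk i hp) (by norm_num)
  have h2 := X0517
  have h3 := cC_gt
  have h4 := c.energy_h hk i (κ := 1) (by linarith) (by rw [e]; linarith)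
  rw [e] at h4
  unfold hb
  exact h4

lemma cell_I : ‖c.z i‖ ^ 2 ≤ phi (Psi (c.p i)) ^ 2 :=
  pow_le_pow_left₀ (norm_nonneg _) (c.norm_z_le hk i) 2

lemma cell_L (hp : Phi (-0.915) ≤ c.p i) : ‖c.z i‖ ^ 2 ≤ 0.591 * c.p i + (-0.05697) := by
  have e := Phi_Psi_p c hk i
  have hb1 := le_Psi_p c hk i hp
  rcases le_total (c.p i) (Phi (-0.517)) with h | h
  · have hb2 := Psi_p_le c hk i h
    refine (cell_h c hk i h).trans ?_
    have := hb_chord (κ := 1) (b0 := -0.517) (b1 := -0.915) (b2 := -0.517) (m := 0.591)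
      (k := -0.05697) (by norm_num) (by norm_num) conv le_rfl ?_ ?_ hb1 hb2
    · rw [e] at this; exact this
    · have h1 := h0915; have h2 := Num.Phi_lo_0_915; linarith
    · have h1 := h0517; have h2 := Num.Phi_lo_0_517; linarith
  · have hb2 := le_Psi_p c hk i h
    have hb3 := Psi_p_nonpos c hk i
    refine (cell_I c hk i).trans ?_
    have h1 := phi_sq_le_tangent (b := Psi (c.p i)) (b0 := -0.517) (by linarith) (by linarith)
      (by norm_num) (by norm_num)
    rw [e] at h1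
    refine h1.trans ?_
    have h2 := Num.phi_hi_0_517
    have h3 := Num.phi_lo_0_517
    have h4 := Num.Phi_lo_0_517
    have h5 : phi (-0.517) ^ 2 ≤ 0.349036 ^ 2 := pow_le_pow_left₀ (phi_nonneg _) h2 2
    have h6 : -2 * -0.517 * phi (-0.517) * (c.p i - Phi (-0.517)) ≤
        0.591 * (c.p i - Phi (-0.517)) := by
      apply mul_le_mul_of_nonneg_right _ (by linarith)
      linarith
    have e2 : phi (-0.517) ^ 2 - 2 * -0.517 * phi (-0.517) * (c.p i - Phi (-0.517))
        = phi (-0.517) ^ 2 + -2 * -0.517 * phi (-0.517) * (c.p i - Phi (-0.517)) := by ring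
    rw [e2]
    norm_num at h5 h6 ⊢
    linarith

lemma cell_T (hp : Phi (-0.915) ≤ c.p i) : ‖c.z i‖ ^ 2 ≤ 0.2757 * c.p i + 0.04074 := by
  have e := Phi_Psi_p c hk i
  have hb1 := le_Psi_p c hk i hp
  have hb3 := Psi_p_nonpos c hk i
  refine (cell_I c hk i).trans ?_
  have h1 := phi_sq_le_tangent (b := Psi (c.p i)) (b0 := -0.37) (by linarith) (by linarith)
    (by norm_num) (by norm_num)
  rw [e] at h1
  refine h1.trans ?_
  have h2 := phi_hi_0_37
  have h3 := phi_lo_0_37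
  have h4 := Phi_lo_0_37
  have h4' := Phi_hi_0_37
  have hp0 := c.p_pos hk i
  have h5 : phi (-0.37) ^ 2 ≤ 0.372549 ^ 2 := pow_le_pow_left₀ (phi_nonneg _) h2 2
  have h6 : 0.74 * phi (-0.37) * c.p i ≤ 0.2757 * c.p i := by
    apply mul_le_mul_of_nonneg_right _ hp0.le
    linarith
  have h7 : (0.74 * 0.372547) * 0.355690 ≤ 0.74 * phi (-0.37) * Phi (-0.37) :=
    mul_le_mul (by linarith) h4 (by norm_num) (by nlinarith)
  norm_num at h5 h6 h7 ⊢
  nlinarith

lemma cell_r (hp : c.p i ≤ Phi (-0.915)) : ‖c.z i‖ ^ 2 ≤ 0.2747 * c.p i := by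
  have e := Phi_Psi_p c hk i
  have hb2 := Psi_p_le c hk i hp
  have hp' : c.p i ≤ Phi (-0.517) := hp.trans (strictMono_Phi.monotone (by norm_num))
  refine (cell_h c hk i hp').trans ?_
  have := hb_half (κ := 1) (b0 := -0.517) (b2 := -0.915) (m := 0.2747) (k := 0) (by norm_num)
    (by norm_num) conv (by norm_num) le_rfl ?_ hb2
  · rw [e, add_zero] at this; exact this
  · have h1 := h0915; have h2 := Num.Phi_lo_0_915; linarith

lemma cell_sq (hp : c.p i ≤ Phi (-0.517)) : ‖c.z i‖ ^ 2 ≤ 2 * c.p i ^ 2 := by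
  have h0 := c.p_pos hk i
  have h1 : c.p i < 1 := lt_of_le_of_lt (c.p_le_half hk i) (by norm_num)
  have h2 := chi_le_sq h0 h1
  rw [chi_eq_XX' h0 h1] at h2
  refine (cell_h c hk i hp).trans ?_
  unfold hb
  have h3 : 0 ≤ 1 * XX (Psi (c.p i)) ^ 2 / cC := by
    have := cC_pos; positivity
  linarith

lemma cell_II (h1 : Phi (-1.695) ≤ c.p i) (h2 : c.p i ≤ Phi (-1.175)) :
    ‖c.z i‖ ^ 2 ≤ 0.2632 * c.p i + (-0.00834) := by
  have e := Phi_Psi_p c hk i
  have hp' : c.p i ≤ Phi (-0.517) := h2.trans (strictMono_Phi.monotone (by norm_num))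
  refine (cell_h c hk i hp').trans ?_
  have := hb_chord (κ := 1) (b0 := -0.517) (b1 := -1.695) (b2 := -1.175) (m := 0.2632)
    (k := -0.00834) (by norm_num) (by norm_num) conv (by norm_num) ?_ ?_ (le_Psi_p c hk i h1)
    (Psi_p_le c hk i h2)
  · rw [e] at this; exact this
  · have h1 := h1695; have h2 := Num.Phi_lo_1_695; linarith
  · have h1 := h1175; have h2 := Num.Phi_lo_1_175; linarith

lemma cell_III (h1 : Phi (-1.175) ≤ c.p i) (h2 : c.p i ≤ Phi (-0.915)) :
    ‖c.z i‖ ^ 2 ≤ 0.4363 * c.p i + (-0.02911) := by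
  have e := Phi_Psi_p c hk i
  have hp' : c.p i ≤ Phi (-0.517) := h2.trans (strictMono_Phi.monotone (by norm_num))
  refine (cell_h c hk i hp').trans ?_
  have := hb_chord (κ := 1) (b0 := -0.517) (b1 := -1.175) (b2 := -0.915) (m := 0.4363)
    (k := -0.02911) (by norm_num) (by norm_num) conv (by norm_num) ?_ ?_ (le_Psi_p c hk i h1)
    (Psi_p_le c hk i h2)
  · rw [e] at this; exact this
  · have h1 := h1175; have h2 := Num.Phi_lo_1_175; linarith
  · have h1 := h0915; have h2 := Num.Phi_lo_0_915; linarith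

/-- the angle of a small cell, in terms of its energy deficit -/
lemma cell_atan (hp : c.p i ≤ Phi (-0.915)) {u : ℝ} (hu : 0 < u) (hu2 : 0.2665 ≤ u ^ 2) :
    Real.arctan (√12 * ‖c.z i‖ / u) ≤ 19.5 * (0.591 * c.p i - ‖c.z i‖ ^ 2) := by
  have hp0 := c.p_pos hk i
  set y := √12 * ‖c.z i‖ / u with hy
  have hy0 : 0 ≤ y := by positivity
  have hya : y ^ 2 * u ^ 2 = 12 * ‖c.z i‖ ^ 2 := by
    rw [hy, div_pow, mul_pow, Real.sq_sqrt (by norm_num)]
    field_simp
  have hy2 : 0.2665 * y ^ 2 ≤ 12 * ‖c.z i‖ ^ 2 := by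
    rw [← hya]; nlinarith [sq_nonneg y]
  set a := ‖c.z i‖ ^ 2 with ha
  have ha0 : 0 ≤ a := sq_nonneg _
  rcases le_total (c.p i) (Phi (-1.695)) with h | h
  · -- tiny cells
    have h1 := Num.Phi_hi_1_695
    have h2 : a ≤ 2 * c.p i ^ 2 :=
      cell_sq c hk i (hp.trans (strictMono_Phi.monotone (by norm_num)))
    have h3 : y ≤ 9.49 * c.p i := by
      have h4 : y ^ 2 ≤ (9.49 * c.p i) ^ 2 := by
        have h5 : 0.2665 * y ^ 2 ≤ 24 * c.p i ^ 2 := by linarith
        nlinarith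
      exact le_of_sq_le_sq h4 (by positivity)
    have h5 : Real.arctan y ≤ y := by
      have := arctan_le_tangent hy0 (y0 := 0) le_rfl
      simpa using this
    have h6 : c.p i ≤ 0.045039 := h.trans h1
    nlinarith
  rcases le_total (c.p i) (Phi (-1.175)) with h' | h'
  · have h1 : a ≤ 0.2632 * c.p i + (-0.00834) := cell_II c hk i h h'
    have h2 := arctan_le_sixth hy0
    have h3 : (0.018726 : ℝ) + 1.2454 * a ≤ 0.591 * c.p i - a := by linarith
    have h4 : 0.0906 + 0.75 * y ≤ 19.5 * (0.018726 + 1.2454 * a) := by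
      nlinarith [sq_nonneg (y - 0.695)]
    linarith
  · have h1 : a ≤ 0.4363 * c.p i + (-0.02911) := cell_III c hk i h' hp
    have h2 := arctan_le_one hy0
    have h3 : (0.03943 : ℝ) + 0.3545 * a ≤ 0.591 * c.p i - a := by linarith
    have h4 : 0.2855 + y / 2 ≤ 19.5 * (0.03943 + 0.3545 * a) := by
      nlinarith [sq_nonneg (y - 1.628)]
    linarith

end Crest.Agent.R215.K7
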