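import Crest.Agent.R215.EnergyGen
import Crest.Agent.R215.NumNodes

/-!
# Row 215: numerical data for `k ≥ 7` (`κ = 1`)
-/

set_option autoImplicit false

open MeasureTheory ProbabilityTheory Set Filter Topology
open Crest.Agent.Lib.Ehrhard
open scoped RealInnerProductSpace

namespace Crest.Agent.R215.K7

open Num

lemma Phi_hi_0_37 : Phi (-0.37) ≤ 0.355692 := by
  have h := Phi_neg_le (n := 7) (by decide) (x := 0.37) (by norm_num)
  have h2 : (0.361728 : ℝ) ≤ phiT 7 0.37 := by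
    norm_num [phiT, Finset.sum_range_succ, Nat.factorial]
  have h3 := c0_gt
  nlinarith [mul_le_mul h3.le h2 (by norm_num) c0_pos.le]

lemma Phi_lo_0_37 : 0.355690 ≤ Phi (-0.37) := by
  have h := le_Phi_neg (n := 8) (by decide) (x := 0.37) (by norm_num)
  have h2 : phiT 8 0.37 ≤ (0.361730 : ℝ) := by
    norm_num [phiT, Finset.sum_range_succ, Nat.factorial]
  have h3 := c0_lt
  have h4 : c0 * phiT 8 0.37 ≤ 0.3989423 * 0.361730 := by
    refine (mul_le_mul_of_nonneg_left h2 c0_pos.le).trans ?_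
    exact mul_le_mul_of_nonneg_right h3.le (by norm_num)
  norm_num at h4 h ⊢
  linarith

lemma phi_hi_0_37 : phi (-0.37) ≤ 0.372549 := by
  rw [phi_eq_c0]
  have e : ((-0.37 : ℝ)) ^ 2 / 2 = 0.37 ^ 2 / 2 := by norm_num
  rw [e]
  have h := exp_le_expT (n := 6) (by decide) (u := 0.37 ^ 2 / 2) (by norm_num)
  have h2 : expT 6 (0.37 ^ 2 / 2) ≤ (0.9338407 : ℝ) := by
    norm_num [expT, Finset.sum_range_succ, Nat.factorial]
  have h3 := c0_lt
  have h5 := h.trans h2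
  have h4 : c0 * Real.exp (-(0.37 ^ 2 / 2)) ≤ 0.3989423 * 0.9338407 := by
    refine (mul_le_mul_of_nonneg_left h5 c0_pos.le).trans ?_
    exact mul_le_mul_of_nonneg_right h3.le (by norm_num)
  refine h4.trans ?_
  norm_num

lemma phi_lo_0_37 : 0.372547 ≤ phi (-0.37) := by
  rw [phi_eq_c0]
  have e : ((-0.37 : ℝ)) ^ 2 / 2 = 0.37 ^ 2 / 2 := by norm_num
  rw [e]
  have h := expT_le_exp (n := 7) (by decide) (u := 0.37 ^ 2 / 2) (by norm_num)
  have h2 : (0.9338400 : ℝ) ≤ expT 7 (0.37 ^ 2 / 2) := by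
    norm_num [expT, Finset.sum_range_succ, Nat.factorial]
  have h3 := c0_gt
  have h5 := h2.trans h
  refine le_trans ?_ (mul_le_mul h3.le h5 (by norm_num) c0_pos.le)
  norm_num

lemma cC_lt : cC < 0.358099 := by
  unfold cC
  rw [div_lt_iff₀ (by positivity)]
  have := Real.pi_gt_d6
  linarith

lemma cC_gt : 0.358098 < cC := by
  unfold cC
  rw [lt_div_iff₀ (by positivity)]
  have := Real.pi_lt_d6
  linarith

lemma XX_hi {x f F X : ℝ} (hx : 0 ≤ x) (h1 : phi (-x) ≤ f) (h2 : F ≤ Phi (-x))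
    (h3 : f * (f - x * F) ≤ X) : XX (-x) ≤ X := by
  refine le_trans ?_ h3
  unfold XX
  have h4 := W_nonneg (-x)
  have h5 := phi_nonneg (-x)
  have h6 : -x * Phi (-x) + phi (-x) ≤ f - x * F := by nlinarith
  exact mul_le_mul h1 h6 h4 (h5.trans h1)

lemma hb1_hi {b X h : ℝ} (h1 : XX b ≤ X) (h2 : X ≤ 0.35) (h3 : 2 * X - X ^ 2 / 0.3581 ≤ h) :
    hb 1 b ≤ h := by
  refine le_trans ?_ h3
  unfold hb
  have hC := cC_lt
  have hC' := cC_gt
  have h0 := XX_nonneg b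
  have e1 : XX b ^ 2 / 0.3581 ≤ 1 * XX b ^ 2 / cC := by
    rw [one_mul]
    exact div_le_div_of_nonneg_left (by positivity) cC_pos (by linarith)
  have e2 : 2 * XX b - XX b ^ 2 / 0.3581 ≤ 2 * X - X ^ 2 / 0.3581 := by
    have : 0 ≤ (X - XX b) * (2 - (X + XX b) / 0.3581) := by
      apply mul_nonneg (by linarith)
      have : (X + XX b) / 0.3581 ≤ 2 := by
        rw [div_le_iff₀ (by norm_num)]; linarith
      linarith
    have e : (X - XX b) * (2 - (X + XX b) / 0.3581) = 2 * X - X ^ 2 / 0.3581 - (2 * XX b - XX b ^ 2 / 0.3581) := by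
      ring
    linarith
  linarith

lemma X1695 : XX (-1.695) ≤ 0.001757 :=
  XX_hi (by norm_num) phi_hi_1_695 Phi_lo_1_695 (by norm_num)
lemma X1175 : XX (-1.175) ≤ 0.011811 :=
  XX_hi (by norm_num) phi_hi_1_175 Phi_lo_1_175 (by norm_num)
lemma X0915 : XX (-0.915) ≤ 0.025646 :=
  XX_hi (by norm_num) phi_hi_0_915 Phi_lo_0_915 (by norm_num)
lemma X0517 : XX (-0.517) ≤ 0.067226 :=
  XX_hi (by norm_num) phi_hi_0_517 Phi_lo_0_517 (by norm_num)

lemma h1695 : hb 1 (-1.695) ≤ 0.003506 := hb1_hi X1695 (by norm_num) (by norm_num)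
lemma h1175 : hb 1 (-1.175) ≤ 0.023233 := hb1_hi X1175 (by norm_num) (by norm_num)
lemma h0915 : hb 1 (-0.915) ≤ 0.049456 := hb1_hi X0915 (by norm_num) (by norm_num)
lemma h0517 : hb 1 (-0.517) ≤ 0.121832 := hb1_hi X0517 (by norm_num) (by norm_num)

lemma conv : ConvAt 1 (-0.517) := by
  unfold ConvAt
  have h1 := X0517
  have h2 := Phi_hi_0_517
  have h3 := Phi_lo_0_517
  have h4 := phi_hi_0_517
  have h5 := phi_lo_0_517
  have h6 := cC_gt
  have hs : sig (-0.517) ≤ 0.4027 := by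
    unfold sig
    nlinarith
  have hs0 : 0 ≤ sig (-0.517) := sig_nonneg (by norm_num)
  have h7 : sig (-0.517) ^ 2 ≤ 0.4027 ^ 2 := pow_le_pow_left₀ hs0 hs 2
  have h8 : sig (-0.517) ^ 2 * phi (-0.517) ≤ 0.4027 ^ 2 * 0.349036 :=
    mul_le_mul h7 h4 (phi_nonneg _) (by norm_num)
  have h9 : XX (-0.517) * (-2 * -0.517 * Phi (-0.517)) ≤ 0.067226 * (-2 * -0.517 * 0.302579) := by
    refine mul_le_mul h1 (by nlinarith) ?_ (by norm_num)
    have := Phi_nonneg (-0.517)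
    nlinarith
  have h10 : (0.358098 : ℝ) * (-2 * -0.517 * 0.302578) ≤ cC * (-2 * -0.517 * Phi (-0.517)) := by
    refine mul_le_mul h6.le (by nlinarith) (by norm_num) cC_pos.le
  norm_num at h8 h9 h10 ⊢
  linarith

end Crest.Agent.R215.K7
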