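import Crest.Agent.R215.EnergyCore
import Crest.Agent.R215.ArctanNum
import Crest.Agent.R215.BBGeo

/-!
# Row 215: generic final argument for six or more cells
-/

set_option autoImplicit false

open MeasureTheory ProbabilityTheory Set Filter Topology
open Crest.Agent.Lib.Ehrhard
open scoped RealInnerProductSpace

open Crest.Agent.R215 Crest.Agent.R215.Num

namespace Crest.Agent.R215.KGen

lemma sqrt12_le : √12 ≤ 3.46411 := by
  rw [Real.sqrt_le_left (by norm_num)]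
  norm_num

lemma sqrt3_ge : 1.73205 ≤ √3 := by
  rw [Real.le_sqrt (by norm_num) (by norm_num)]
  norm_num

/-- the term with the length of the edge -/
lemma edge_le {k0 : ℝ} (hk0 : 0 < k0) (w : ℝ) :
    2 * Real.pi * √(2 * Real.pi) / k0 * w ≤
      3 * Real.pi / (2 * k0) + 4 * Real.pi ^ 2 / (3 * k0) * w ^ 2 := by
  have h1 : √(2 * Real.pi) ^ 2 = 2 * Real.pi := Real.sq_sqrt (by positivity)
  have hpi := Real.pi_pos
  set a := √(2 * Real.pi) with ha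
  have h2 : 3 * Real.pi / (2 * k0) + 4 * Real.pi ^ 2 / (3 * k0) * w ^ 2 - 2 * Real.pi * a / k0 * w
      = 3 * Real.pi / (2 * k0) * (1 - 2 / 3 * (a * w)) ^ 2 := by
    have : (1 - 2 / 3 * (a * w)) ^ 2 = 1 - 4 / 3 * (a * w) + 4 / 9 * (a ^ 2 * w ^ 2) := by ring
    rw [this, h1]
    field_simp
    ring
  have h3 : 0 ≤ 3 * Real.pi / (2 * k0) * (1 - 2 / 3 * (a * w)) ^ 2 := by positivity
  linarith

variable {E : Type*} [NormedAddCommGroup E] [InnerProductSpace ℝ E] [FiniteDimensional ℝ E]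
  [MeasurableSpace E] [BorelSpace E]
variable {ι : Type*} [Fintype ι] [DecidableEq ι]

/-- three indices with the largest values -/
lemma exists_three (p : ι → ℝ) (h : 3 ≤ Fintype.card ι) :
    ∃ j l m : ι, j ≠ l ∧ m ≠ j ∧ m ≠ l ∧ p l ≤ p j ∧ p m ≤ p l ∧
      ∀ i ∈ ((Finset.univ.erase j).erase l).erase m, p i ≤ p m := by
  have c0 : (Finset.univ : Finset ι).card = Fintype.card ι := Finset.card_univ
  obtain ⟨j, -, hj⟩ := Finset.exists_max_image (Finset.univ : Finset ι) p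
    (Finset.card_pos.1 (by omega))
  have c1 : (Finset.univ.erase j).card = Fintype.card ι - 1 := by
    rw [Finset.card_erase_of_mem (Finset.mem_univ j), c0]
  obtain ⟨l, hl, hl'⟩ := Finset.exists_max_image (Finset.univ.erase j) p
    (Finset.card_pos.1 (by omega))
  have c2 : ((Finset.univ.erase j).erase l).card = Fintype.card ι - 1 - 1 := by
    rw [Finset.card_erase_of_mem hl, c1]
  obtain ⟨m, hm, hm'⟩ := Finset.exists_max_image ((Finset.univ.erase j).erase l) p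
    (Finset.card_pos.1 (by omega))
  refine ⟨j, l, m, (Finset.ne_of_mem_erase hl).symm,
    Finset.ne_of_mem_erase (Finset.mem_of_mem_erase hm), Finset.ne_of_mem_erase hm,
    hj l (Finset.mem_univ l), hl' m (Finset.mem_of_mem_erase hm), fun i hi => ?_⟩
  exact hm' i (Finset.mem_of_mem_erase hi)

lemma sum_split {j l m : ι} (hjl : j ≠ l) (hmj : m ≠ j) (hml : m ≠ l) (f : ι → ℝ) :
    f j + f l + f m + ∑ i ∈ ((Finset.univ.erase j).erase l).erase m, f i = ∑ i, f i := by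
  rw [← Finset.add_sum_erase Finset.univ f (Finset.mem_univ j),
    ← Finset.add_sum_erase (Finset.univ.erase j) f
      (Finset.mem_erase.2 ⟨hjl.symm, Finset.mem_univ l⟩),
    ← Finset.add_sum_erase ((Finset.univ.erase j).erase l) f
      (Finset.mem_erase.2 ⟨hml, Finset.mem_erase.2 ⟨hmj, Finset.mem_univ m⟩⟩)]
  ring

/-- **generic final argument** -/
theorem gen_final (c : Crit E ι) {j l m : ι} (hjl : j ≠ l) (hmj : m ≠ j) (hml : m ≠ l)
    {S : Finset ι} (hS : S = ((Finset.univ.erase j).erase l).erase m) {k0 : ℕ} (hk0 : 0 < k0)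
    (hk : k0 ≤ Fintype.card ι) {Λ β κ A B D u0 cc t0 ρ : ℝ} (hA0 : 0 ≤ A)
    (hcell : ∀ i ∈ S, Real.arctan (A * ‖c.z i‖) + B * ‖c.z i‖ ≤
      Λ * (β * c.p i - ‖c.z i‖ ^ 2) + κ * ‖c.z i‖ ^ 2)
    (hΛ : 0 ≤ Λ) (hE : ∑ i ∈ S, (β * c.p i - ‖c.z i‖ ^ 2) ≤ D - c.V)
    (hratio : ∀ b ∈ ({j, l, m} : Finset ι), 0.0398 ≤ ‖c.z b‖ ^ 2)
    (hR : ∀ i, ‖c.z i‖ ^ 2 ≤ 0.15916)
    (hρ : ∑ i ∈ S, ‖c.z i‖ ^ 2 ≤ ρ) (hu0 : 0 < u0)
    (hu1 : u0 ^ 2 ≤ c.V - ∑ i ∈ S, ‖c.z i‖ ^ 2)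
    (hu2 : ∀ a ∈ ({j, l, m} : Finset ι), u0 ^ 2 ≤ 3 / 2 * (c.V - ∑ i ∈ S, ‖c.z i‖ ^ 2 - ‖c.z a‖ ^ 2))
    (hA : 3.46411 ≤ A * u0) (hB : 2 * cc ≤ B * (1.73205 * u0)) (ht : 4 * ρ ≤ (t0 * (1.73205 * u0)) ^ 2)
    (ht00 : 0 ≤ t0) (ht0 : t0 < 1) (hcc : 1 ≤ cc) (hcc1 : cc * t0 ≤ 1)
    (hcc2 : cc ^ 3 * t0 ^ 2 ≤ 6 * (cc - 1)) (hκ : κ ≤ 4 * Real.pi ^ 2 / (3 * k0))
    (hfin : Λ * (D - c.V) + 3 * Real.pi / (2 * k0) + 4 * Real.pi ^ 2 / (3 * k0) * c.V < Real.pi) :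
    False := by
  obtain ⟨RS, hRS⟩ : ∃ x, x = ∑ i ∈ S, ‖c.z i‖ ^ 2 := ⟨_, rfl⟩
  have hRS0 : 0 ≤ RS := by rw [hRS]; exact Finset.sum_nonneg fun i _ => by positivity
  rw [← hRS] at hρ hu1
  simp_rw [← hRS] at hu2
  have hsplit := sum_split hjl hmj hml (fun i => ‖c.z i‖ ^ 2)
  rw [← hS, c.sumsq, ← hRS] at hsplit
  have s3 := sqrt3_ge
  have s12 := sqrt12_le
  have hs3 : √3 ^ 2 = 3 := Real.sq_sqrt (by norm_num)
  have h4ρ : 4 * ρ < 3 * u0 ^ 2 := by
    have h1 : t0 * (1.73205 * u0) < 1 * (√3 * u0) := by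
      have : 1.73205 * u0 ≤ √3 * u0 := mul_le_mul_of_nonneg_right s3 hu0.le
      have h2 : 0 < √3 * u0 := by positivity
      calc t0 * (1.73205 * u0) ≤ t0 * (√3 * u0) := mul_le_mul_of_nonneg_left this ht00
        _ < 1 * (√3 * u0) := mul_lt_mul_of_pos_right ht0 h2
    have h3 : (t0 * (1.73205 * u0)) ^ 2 < (1 * (√3 * u0)) ^ 2 := by gcongr
    have h5 : (1 * (√3 * u0)) ^ 2 = 3 * u0 ^ 2 := by rw [one_mul, mul_pow, hs3]
    rw [h5] at h3
    linarith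
  obtain ⟨a, ha, u, hu, hu', hpi⟩ := BBGeo.bb_geo c hjl hmj hml (e := c.V - RS) (σ := RS)
    (by linarith) (by
      intro a _ b hb
      have h1 := hR a
      have h2 := hratio b hb
      linarith) hS hRS (by
      intro a ha
      have := hu2 a ha
      linarith) (by linarith)
  have hu0u : u0 ≤ u := by
    refine le_of_sq_le_sq ?_ hu.le
    rw [hu']
    exact le_min hu1 (hu2 a ha)
  have hue : u ^ 2 ≤ c.V - RS := by rw [hu']; exact min_le_left _ _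
  -- norm of the sum
  set σ := ‖∑ i ∈ S, c.z i‖ with hσ
  have hσ0 : 0 ≤ σ := norm_nonneg _
  have hσ1 : σ ≤ ∑ i ∈ S, ‖c.z i‖ := norm_sum_le _ _
  have hσ2 : σ ^ 2 ≤ RS := by rw [hRS]; exact BBGeo.norm_sum_sq_le c S
  have h2σ : 2 * σ ≤ t0 * (√3 * u) := by
    have h1 : (2 * σ) ^ 2 ≤ (t0 * (1.73205 * u0)) ^ 2 := by nlinarith
    have h2 : 2 * σ ≤ t0 * (1.73205 * u0) := le_of_sq_le_sq h1 (by positivity)
    refine h2.trans (mul_le_mul_of_nonneg_left ?_ ht00)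
    exact mul_le_mul s3 hu0u hu0.le (by positivity)
  have b1 : Real.arctan (2 * σ / √(3 * u ^ 2 - 4 * σ ^ 2)) ≤ B * σ := by
    refine (arctan_sigma_le hσ0 hu h2σ ht0 hcc hcc1 hcc2).trans ?_
    have e1 : cc * (2 * σ / (√3 * u)) = (2 * cc / (√3 * u)) * σ := by
      field_simp
    rw [e1]
    refine mul_le_mul_of_nonneg_right ?_ hσ0
    rw [div_le_iff₀ (by positivity)]
    have hB0 : 0 ≤ B := by
      by_contra hcon
      have h3 : B * (1.73205 * u0) < 0 := mul_neg_of_neg_of_pos (not_le.1 hcon) (by positivity)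
      linarith
    refine hB.trans (mul_le_mul_of_nonneg_left ?_ hB0)
    exact mul_le_mul s3 hu0u hu0.le (by positivity)
  have b2 : ∀ i ∈ S, Real.arctan (√12 * ‖c.z i‖ / u) ≤ Real.arctan (A * ‖c.z i‖) := by
    intro i _
    refine Real.arctan_strictMono.monotone ?_
    rw [div_le_iff₀ hu]
    have h1 : √12 ≤ A * u := by
      have : A * u0 ≤ A * u := mul_le_mul_of_nonneg_left hu0u hA0
      linarith
    calc √12 * ‖c.z i‖ ≤ (A * u) * ‖c.z i‖ := mul_le_mul_of_nonneg_right h1 (norm_nonneg _)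
      _ = A * ‖c.z i‖ * u := by ring
  have hB0 : 0 ≤ B := by
    by_contra hcon
    have h3 : B * (1.73205 * u0) < 0 := mul_neg_of_neg_of_pos (not_le.1 hcon) (by positivity)
    linarith
  have b3 : ∑ i ∈ S, Real.arctan (√12 * ‖c.z i‖ / u) + B * σ ≤ Λ * (D - c.V) + κ * RS := by
    have h1 : ∑ i ∈ S, Real.arctan (√12 * ‖c.z i‖ / u) ≤ ∑ i ∈ S, Real.arctan (A * ‖c.z i‖) :=
      Finset.sum_le_sum b2
    have h2 : B * σ ≤ ∑ i ∈ S, B * ‖c.z i‖ := by
      rw [← Finset.mul_sum]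
      exact mul_le_mul_of_nonneg_left hσ1 hB0
    have h3 : ∑ i ∈ S, (Real.arctan (A * ‖c.z i‖) + B * ‖c.z i‖) ≤
        ∑ i ∈ S, (Λ * (β * c.p i - ‖c.z i‖ ^ 2) + κ * ‖c.z i‖ ^ 2) := Finset.sum_le_sum hcell
    rw [Finset.sum_add_distrib, Finset.sum_add_distrib, ← Finset.mul_sum S _ Λ,
      ← Finset.mul_sum S _ κ, ← hRS] at h3
    have h4 : Λ * ∑ i ∈ S, (β * c.p i - ‖c.z i‖ ^ 2) ≤ Λ * (D - c.V) :=
      mul_le_mul_of_nonneg_left hE hΛ
    linarith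
  -- the edge term
  have hk0' : (0:ℝ) < k0 := by exact_mod_cast hk0
  have hkk : (k0:ℝ) ≤ Fintype.card ι := by exact_mod_cast hk
  have b4 : 2 * Real.pi * √(2 * Real.pi) / Fintype.card ι * u ≤
      3 * Real.pi / (2 * k0) + 4 * Real.pi ^ 2 / (3 * k0) * (c.V - RS) := by
    have h1 : 2 * Real.pi * √(2 * Real.pi) / Fintype.card ι * u ≤
        2 * Real.pi * √(2 * Real.pi) / k0 * u := by
      gcongr
    have h2 := edge_le hk0' u
    have h3 : 4 * Real.pi ^ 2 / (3 * k0) * u ^ 2 ≤ 4 * Real.pi ^ 2 / (3 * k0) * (c.V - RS) :=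
      mul_le_mul_of_nonneg_left hue (by positivity)
    linarith
  have b5 : κ * RS ≤ 4 * Real.pi ^ 2 / (3 * k0) * RS := mul_le_mul_of_nonneg_right hκ hRS0
  have b6 : 4 * Real.pi ^ 2 / (3 * k0) * (c.V - RS) =
      4 * Real.pi ^ 2 / (3 * k0) * c.V - 4 * Real.pi ^ 2 / (3 * k0) * RS := by ring
  linarith only [hpi, b1, b3, b4, b5, b6, hfin]

end Crest.Agent.R215.KGen

namespace Crest.Agent.R215.KGen

lemma r_le {r s : ℝ} (hs : 0 < s) : r ≤ r ^ 2 / (2 * s) + s / 2 := by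
  have h : r ^ 2 / (2 * s) + s / 2 - r = (r - s) ^ 2 / (2 * s) := by
    field_simp
    ring
  have : 0 ≤ (r - s) ^ 2 / (2 * s) := by positivity
  linarith

lemma arctan_hi_gt_one' {y x : ℝ} (hx : 0 ≤ x) (hx1 : x < 1)
    (h : (1 + x) / (1 - x) = y) : Real.arctan y ≤ Real.pi / 4 + (x - x ^ 3 / 3 + x ^ 5 / 5) := by
  have h1 := Real.arctan_add (x := 1) (y := x) (by linarith)
  rw [one_mul, h, Real.arctan_one] at h1
  have := arctan_le_quintic hx
  linarith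

lemma arctan_1_2 : Real.arctan 1.2 ≤ 0.8761 := by
  have := arctan_hi_gt_one' (y := 1.2) (x := 1 / 11) (by norm_num) (by norm_num) (by norm_num)
  have := Real.pi_lt_d6
  norm_num at *
  linarith

lemma arctan_1_5 : Real.arctan 1.5 ≤ 0.9829 := by
  have := arctan_hi_gt_one' (y := 1.5) (x := 1 / 5) (by norm_num) (by norm_num) (by norm_num)
  have := Real.pi_lt_d6
  norm_num at *
  linarith

lemma arctan_1_8 : Real.arctan 1.8 ≤ 1.0638 := by
  have := arctan_hi_gt_one' (y := 1.8) (x := 2 / 7) (by norm_num) (by norm_num) (by norm_num)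
  have := Real.pi_lt_d6
  norm_num at *
  linarith

lemma arctan_2_2 : Real.arctan 2.2 ≤ 1.1445 := by
  have := arctan_hi_gt_one' (y := 2.2) (x := 3 / 8) (by norm_num) (by norm_num) (by norm_num)
  have := Real.pi_lt_d6
  norm_num at *
  linarith

variable {E : Type*} [NormedAddCommGroup E] [InnerProductSpace ℝ E] [FiniteDimensional ℝ E]
  [MeasurableSpace E] [BorelSpace E]
variable {ι : Type*} [Fintype ι] [DecidableEq ι]

lemma pi_sq_lo : 9.8695 ≤ Real.pi ^ 2 := by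
  have := Real.pi_gt_d6
  nlinarith

lemma pi_sq_hi : Real.pi ^ 2 ≤ 9.86961 := by
  have := Real.pi_gt_d6
  have := Real.pi_lt_d6
  nlinarith

/-- the three big cells and the elementary facts about them -/
theorem exists_big (c : Crit E ι) (hk : 4 ≤ Fintype.card ι) {η : ℝ} (hη : 2.79 ≤ η)
    (hη' : η * cC ≤ 1 + ((Fintype.card ι : ℝ) - 1)⁻¹) :
    ∃ j l m : ι, j ≠ l ∧ m ≠ j ∧ m ≠ l ∧ c.p l ≤ c.p j ∧ c.p m ≤ c.p l ∧ Phi (-0.915) ≤ c.p m ∧
      ∀ i ∈ ((Finset.univ.erase j).erase l).erase m, c.p i ≤ c.p m := by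
  obtain ⟨j, l, m, hjl, hmj, hml, hlj, hml', hS⟩ := exists_three c.p (by omega)
  refine ⟨j, l, m, hjl, hmj, hml, hlj, hml', ?_, hS⟩
  obtain ⟨i, hij, hil, hi⟩ := three_big hη (fun i => c.cell_facts hk hη' i) c.sum_p
    (by rw [c.sumsq]; exact c.V_gt.le) j l
  by_cases him : i = m
  · rw [← him]; exact hi.le
  · exact hi.le.trans (hS i (by simp [hij, hil, him]))

/-- cells which are not among the three biggest have `p ≤ 1/4` -/
lemma four_p_le (c : Crit E ι) {j l m i : ι} (hjl : j ≠ l) (hmj : m ≠ j) (hml : m ≠ l)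
    (h1 : c.p l ≤ c.p j) (h2 : c.p m ≤ c.p l)
    (hi : i ∈ ((Finset.univ.erase j).erase l).erase m) (h3 : c.p i ≤ c.p m) : c.p i ≤ 1 / 4 := by
  have h4 := sum_split hjl hmj hml c.p
  rw [c.sum_p] at h4
  have h5 : c.p i ≤ ∑ i ∈ ((Finset.univ.erase j).erase l).erase m, c.p i :=
    Finset.single_le_sum (fun i _ => c.p_nonneg i) hi
  linarith

end Crest.Agent.R215.KGen
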