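import Crest.Agent.R215.CritGain

/-!
# Row 215: numerics of the normal density and distribution function

* `expT n u = ∑_{k ≤ n} (-u)^k / k!` and `exp (-u)` is between consecutive partial sums (`u ≥ 0`).
* `phiT n x = ∑_{k ≤ n} (-1)^k x^(2k+1) / (2^k k! (2k+1))`: partial sums of `∫_0^x exp(-t²/2)`.
* bounds for `φ(0) = 1/√(2π)`.
-/

set_option autoImplicit false

open MeasureTheory ProbabilityTheory Set Filter Topology
open Crest.Agent.Lib.Ehrhard

namespace Crest.Agent.R215.Num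

/-- partial sums of `exp (-u)` -/
noncomputable def expT (n : ℕ) (u : ℝ) : ℝ := ∑ k ∈ Finset.range (n + 1), (-u) ^ k / (k.factorial : ℝ)

lemma expT_zero (u : ℝ) : expT 0 u = 1 := by simp [expT]

lemma hasDerivAt_expT (n : ℕ) (u : ℝ) : HasDerivAt (expT (n + 1)) (-expT n u) u := by
  have h : ∀ k ∈ Finset.range (n + 2), HasDerivAt (fun u : ℝ => (-u) ^ k / (k.factorial : ℝ))
      (if k = 0 then 0 else -((-u) ^ (k - 1) / ((k - 1).factorial : ℝ))) u := by
    intro k _
    rcases k with _ | k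
    · simpa using hasDerivAt_const u (1 : ℝ)
    · have h1 : HasDerivAt (fun u : ℝ => -u) (-1) u := (hasDerivAt_id u).neg
      have h2 := (h1.fun_pow (k + 1)).div_const ((k + 1).factorial : ℝ)
      refine h2.congr_deriv ?_
      simp only [Nat.add_sub_cancel, Nat.succ_ne_zero, if_false, Nat.factorial_succ]
      push_cast
      have : ((k:ℝ) + 1) ≠ 0 := by positivity
      have h3 : (k.factorial : ℝ) ≠ 0 := by positivity
      field_simp
  have h2 := HasDerivAt.fun_sum h
  unfold expT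
  refine h2.congr_deriv ?_
  rw [Finset.sum_range_succ']
  simp

lemma exp_sub_expT (n : ℕ) : ∀ u : ℝ, 0 ≤ u → 0 ≤ (-1) ^ (n + 1) * (Real.exp (-u) - expT n u) := by
  induction n with
  | zero =>
    intro u hu
    rw [expT_zero]
    have : Real.exp (-u) ≤ 1 := Real.exp_le_one_iff.2 (by linarith)
    simp only [zero_add, pow_one]
    linarith
  | succ n ih =>
    intro u hu
    set K : ℝ → ℝ := fun u => (-1) ^ (n + 1 + 1) * (Real.exp (-u) - expT (n + 1) u) with hK
    have hd : ∀ x, HasDerivAt K ((-1) ^ (n + 1) * (Real.exp (-x) - expT n x)) x := by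
      intro x
      have h1 : HasDerivAt (fun u : ℝ => Real.exp (-u)) (-Real.exp (-x)) x := by
        simpa using ((hasDerivAt_id x).neg).exp
      refine ((h1.fun_sub (hasDerivAt_expT n x)).const_mul ((-1) ^ (n + 1 + 1))).congr_deriv ?_
      rw [pow_succ]; ring
    have hc : Continuous K := continuous_iff_continuousAt.2 fun x => (hd x).continuousAt
    have hmono : MonotoneOn K (Ici 0) := by
      refine monotoneOn_of_deriv_nonneg (convex_Ici 0) hc.continuousOn
        (fun x _ => (hd x).differentiableAt.differentiableWithinAt) ?_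
      intro x hx
      rw [interior_Ici] at hx
      rw [(hd x).deriv]
      exact ih x (le_of_lt hx)
    have h0 : K 0 = 0 := by
      simp only [hK, neg_zero, Real.exp_zero]
      have : expT (n + 1) 0 = 1 := by
        unfold expT
        rw [Finset.sum_range_succ']
        simp
      rw [this]; ring
    have := hmono (mem_Ici.2 le_rfl) (mem_Ici.2 hu) hu
    rw [h0] at this
    exact this

lemma exp_le_expT {n : ℕ} (hn : Even n) {u : ℝ} (hu : 0 ≤ u) : Real.exp (-u) ≤ expT n u := by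
  have := exp_sub_expT n u hu
  rw [hn.add_one.neg_one_pow] at this
  linarith

lemma expT_le_exp {n : ℕ} (hn : Odd n) {u : ℝ} (hu : 0 ≤ u) : expT n u ≤ Real.exp (-u) := by
  have := exp_sub_expT n u hu
  rw [hn.add_one.neg_one_pow] at this
  linarith

/-- partial sums of `∫_0^x exp (-t²/2) dt` -/
noncomputable def phiT (n : ℕ) (x : ℝ) : ℝ :=
  ∑ k ∈ Finset.range (n + 1), (-1) ^ k * x ^ (2 * k + 1) / (2 ^ k * (k.factorial : ℝ) * (2 * k + 1))

lemma hasDerivAt_phiT (n : ℕ) (x : ℝ) : HasDerivAt (phiT n) (expT n (x ^ 2 / 2)) x := by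
  have h : ∀ k ∈ Finset.range (n + 1), HasDerivAt
      (fun x : ℝ => (-1) ^ k * x ^ (2 * k + 1) / (2 ^ k * (k.factorial : ℝ) * (2 * k + 1)))
      ((-(x ^ 2 / 2)) ^ k / (k.factorial : ℝ)) x := by
    intro k _
    have h2 := ((hasDerivAt_pow (2 * k + 1) x).const_mul ((-1 : ℝ) ^ k)).div_const
      (2 ^ k * (k.factorial : ℝ) * (2 * k + 1))
    refine h2.congr_deriv ?_
    have h3 : (k.factorial : ℝ) ≠ 0 := by positivity
    have h4 : (2 * (k:ℝ) + 1) ≠ 0 := by positivity
    have h5 : (-(x ^ 2 / 2)) ^ k = (-1) ^ k * (x ^ (2 * k) / 2 ^ k) := by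
      rw [neg_pow, div_pow, ← pow_mul]
    rw [h5]
    simp only [Nat.add_sub_cancel]
    push_cast
    field_simp
  unfold phiT expT
  exact HasDerivAt.fun_sum h

/-- `φ(0) = 1/√(2π)` -/
noncomputable def c0 : ℝ := (Real.sqrt (2 * Real.pi))⁻¹

lemma c0_pos : 0 < c0 := c_pos

lemma phi_eq_c0 (x : ℝ) : phi x = c0 * Real.exp (-(x ^ 2 / 2)) := by
  unfold phi c0; rw [neg_div]

lemma Phi_zero : Phi 0 = 1 / 2 := by
  have := Phi_neg 0
  rw [neg_zero] at this
  linarith

lemma phi_sub_phiT (n : ℕ) {x : ℝ} (hx : 0 ≤ x) :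
    0 ≤ (-1) ^ (n + 1) * (Phi x - 1 / 2 - c0 * phiT n x) := by
  set K : ℝ → ℝ := fun x => (-1) ^ (n + 1) * (Phi x - 1 / 2 - c0 * phiT n x) with hK
  have hd : ∀ x, HasDerivAt K ((-1) ^ (n + 1) * (phi x - c0 * expT n (x ^ 2 / 2))) x := by
    intro x
    exact (((hasDerivAt_Phi x).sub_const (1 / 2)).fun_sub
      ((hasDerivAt_phiT n x).const_mul c0)).const_mul _
  have hc : Continuous K := continuous_iff_continuousAt.2 fun x => (hd x).continuousAt
  have hmono : MonotoneOn K (Ici 0) := by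
    refine monotoneOn_of_deriv_nonneg (convex_Ici 0) hc.continuousOn
      (fun x _ => (hd x).differentiableAt.differentiableWithinAt) ?_
    intro x _
    rw [(hd x).deriv, phi_eq_c0]
    have h1 := exp_sub_expT n (x ^ 2 / 2) (by positivity)
    have h2 := mul_nonneg c0_pos.le h1
    calc (0:ℝ) ≤ c0 * ((-1) ^ (n + 1) * (Real.exp (-(x ^ 2 / 2)) - expT n (x ^ 2 / 2))) := h2
      _ = _ := by ring
  have h0 : K 0 = 0 := by
    simp only [hK, Phi_zero]
    have : phiT n 0 = 0 := by
      unfold phiT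
      refine Finset.sum_eq_zero fun k _ => ?_
      simp
    rw [this]; ring
  have := hmono (mem_Ici.2 le_rfl) (mem_Ici.2 hx) hx
  rw [h0] at this
  exact this

lemma Phi_le {n : ℕ} (hn : Even n) {x : ℝ} (hx : 0 ≤ x) : Phi x ≤ 1 / 2 + c0 * phiT n x := by
  have := phi_sub_phiT n hx
  rw [hn.add_one.neg_one_pow] at this
  linarith

lemma le_Phi {n : ℕ} (hn : Odd n) {x : ℝ} (hx : 0 ≤ x) : 1 / 2 + c0 * phiT n x ≤ Phi x := by
  have := phi_sub_phiT n hx
  rw [hn.add_one.neg_one_pow] at this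
  linarith

/-- values at negative points -/
lemma Phi_neg_le {n : ℕ} (hn : Odd n) {x : ℝ} (hx : 0 ≤ x) : Phi (-x) ≤ 1 / 2 - c0 * phiT n x := by
  rw [Phi_neg]; have := le_Phi hn hx; linarith

lemma le_Phi_neg {n : ℕ} (hn : Even n) {x : ℝ} (hx : 0 ≤ x) : 1 / 2 - c0 * phiT n x ≤ Phi (-x) := by
  rw [Phi_neg]; have := Phi_le hn hx; linarith

lemma sqrt_two_pi_gt : (2.5066282 : ℝ) < Real.sqrt (2 * Real.pi) := by
  rw [Real.lt_sqrt (by norm_num)]
  have := Real.pi_gt_d20
  norm_num at this ⊢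
  linarith

lemma sqrt_two_pi_lt : Real.sqrt (2 * Real.pi) < (2.5066283 : ℝ) := by
  rw [Real.sqrt_lt' (by norm_num)]
  have := Real.pi_lt_d20
  norm_num at this ⊢
  linarith

lemma c0_lt : c0 < 0.3989423 := by
  unfold c0
  rw [inv_lt_comm₀ (by positivity) (by norm_num)]
  refine lt_trans ?_ sqrt_two_pi_gt
  norm_num

lemma c0_gt : 0.3989422 < c0 := by
  unfold c0
  rw [lt_inv_comm₀ (by norm_num) (by positivity)]
  refine lt_trans sqrt_two_pi_lt ?_
  norm_num

end Crest.Agent.R215.Num
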