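import Crest.Agent.R215.Num

/-!
# Row 215: certified values of the normal density and distribution function (nodes for k = 5)
(generated)
-/

set_option autoImplicit false

open Crest.Agent.Lib.Ehrhard

namespace Crest.Agent.R215.Num

lemma Phi_hi_1_59 : Phi (-1.59) ≤ 0.0559175 := by
  have h := Phi_neg_le (n := 11) (by decide) (x := 1.59) (by norm_num)
  have h2 : (1.11314999 : ℝ) ≤ phiT 11 1.59 := by
    norm_num [phiT, Finset.sum_range_succ, Nat.factorial]
  have h3 := c0_gt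
  nlinarith [mul_le_mul h3.le h2 (by norm_num) c0_pos.le]

lemma Phi_lo_1_59 : 0.0559173 ≤ Phi (-1.59) := by
  have h := le_Phi_neg (n := 12) (by decide) (x := 1.59) (by norm_num)
  have h2 : phiT 12 1.59 ≤ (1.11315000 : ℝ) := by
    norm_num [phiT, Finset.sum_range_succ, Nat.factorial]
  have h3 := c0_lt
  have h4 : c0 * phiT 12 1.59 ≤ 0.3989423 * 1.11315000 := by
    refine (mul_le_mul_of_nonneg_left h2 c0_pos.le).trans ?_
    exact mul_le_mul_of_nonneg_right h3.le (by norm_num)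
  norm_num at h4 h ⊢
  linarith

lemma phi_hi_1_59 : phi (-1.59) ≤ 0.1127043 := by
  rw [phi_eq_c0]
  have e : ((-1.59 : ℝ)) ^ 2 / 2 = 1.59 ^ 2 / 2 := by norm_num
  rw [e]
  have h := exp_le_expT (n := 12) (by decide) (u := 1.59 ^ 2 / 2) (by norm_num)
  have h2 : expT 12 (1.59 ^ 2 / 2) ≤ (0.28250756 : ℝ) := by
    norm_num [expT, Finset.sum_range_succ, Nat.factorial]
  have h3 := c0_lt
  have h5 := h.trans h2
  have h4 : c0 * Real.exp (-(1.59 ^ 2 / 2)) ≤ 0.3989423 * 0.28250756 := by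
    refine (mul_le_mul_of_nonneg_left h5 c0_pos.le).trans ?_
    exact mul_le_mul_of_nonneg_right h3.le (by norm_num)
  refine h4.trans ?_
  norm_num

lemma phi_lo_1_59 : 0.1127041 ≤ phi (-1.59) := by
  rw [phi_eq_c0]
  have e : ((-1.59 : ℝ)) ^ 2 / 2 = 1.59 ^ 2 / 2 := by norm_num
  rw [e]
  have h := expT_le_exp (n := 13) (by decide) (u := 1.59 ^ 2 / 2) (by norm_num)
  have h2 : (0.28250755 : ℝ) ≤ expT 13 (1.59 ^ 2 / 2) := by
    norm_num [expT, Finset.sum_range_succ, Nat.factorial]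
  have h3 := c0_gt
  have h5 := h2.trans h
  refine le_trans ?_ (mul_le_mul h3.le h5 (by norm_num) c0_pos.le)
  norm_num

lemma Phi_hi_0_95 : Phi (-0.95) ≤ 0.1710562 := by
  have h := Phi_neg_le (n := 7) (by decide) (x := 0.95) (by norm_num)
  have h2 : (0.82454001 : ℝ) ≤ phiT 7 0.95 := by
    norm_num [phiT, Finset.sum_range_succ, Nat.factorial]
  have h3 := c0_gt
  nlinarith [mul_le_mul h3.le h2 (by norm_num) c0_pos.le]

lemma Phi_lo_0_95 : 0.1710561 ≤ Phi (-0.95) := by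
  have h := le_Phi_neg (n := 8) (by decide) (x := 0.95) (by norm_num)
  have h2 : phiT 8 0.95 ≤ (0.82454002 : ℝ) := by
    norm_num [phiT, Finset.sum_range_succ, Nat.factorial]
  have h3 := c0_lt
  have h4 : c0 * phiT 8 0.95 ≤ 0.3989423 * 0.82454002 := by
    refine (mul_le_mul_of_nonneg_left h2 c0_pos.le).trans ?_
    exact mul_le_mul_of_nonneg_right h3.le (by norm_num)
  norm_num at h4 h ⊢
  linarith

lemma phi_hi_0_95 : phi (-0.95) ≤ 0.2540591 := by
  rw [phi_eq_c0]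
  have e : ((-0.95 : ℝ)) ^ 2 / 2 = 0.95 ^ 2 / 2 := by norm_num
  rw [e]
  have h := exp_le_expT (n := 8) (by decide) (u := 0.95 ^ 2 / 2) (by norm_num)
  have h2 : expT 8 (0.95 ^ 2 / 2) ≤ (0.63683162 : ℝ) := by
    norm_num [expT, Finset.sum_range_succ, Nat.factorial]
  have h3 := c0_lt
  have h5 := h.trans h2
  have h4 : c0 * Real.exp (-(0.95 ^ 2 / 2)) ≤ 0.3989423 * 0.63683162 := by
    refine (mul_le_mul_of_nonneg_left h5 c0_pos.le).trans ?_
    exact mul_le_mul_of_nonneg_right h3.le (by norm_num)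
  refine h4.trans ?_
  norm_num

lemma phi_lo_0_95 : 0.2540590 ≤ phi (-0.95) := by
  rw [phi_eq_c0]
  have e : ((-0.95 : ℝ)) ^ 2 / 2 = 0.95 ^ 2 / 2 := by norm_num
  rw [e]
  have h := expT_le_exp (n := 9) (by decide) (u := 0.95 ^ 2 / 2) (by norm_num)
  have h2 : (0.63683161 : ℝ) ≤ expT 9 (0.95 ^ 2 / 2) := by
    norm_num [expT, Finset.sum_range_succ, Nat.factorial]
  have h3 := c0_gt
  have h5 := h2.trans h
  refine le_trans ?_ (mul_le_mul h3.le h5 (by norm_num) c0_pos.le)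
  norm_num

lemma Phi_hi_0_36 : Phi (-0.36) ≤ 0.3594236 := by
  have h := Phi_neg_le (n := 5) (by decide) (x := 0.36) (by norm_num)
  have h2 : (0.35237286 : ℝ) ≤ phiT 5 0.36 := by
    norm_num [phiT, Finset.sum_range_succ, Nat.factorial]
  have h3 := c0_gt
  nlinarith [mul_le_mul h3.le h2 (by norm_num) c0_pos.le]

lemma Phi_lo_0_36 : 0.3594235 ≤ Phi (-0.36) := by
  have h := le_Phi_neg (n := 4) (by decide) (x := 0.36) (by norm_num)
  have h2 : phiT 4 0.36 ≤ (0.35237287 : ℝ) := by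
    norm_num [phiT, Finset.sum_range_succ, Nat.factorial]
  have h3 := c0_lt
  have h4 : c0 * phiT 4 0.36 ≤ 0.3989423 * 0.35237287 := by
    refine (mul_le_mul_of_nonneg_left h2 c0_pos.le).trans ?_
    exact mul_le_mul_of_nonneg_right h3.le (by norm_num)
  norm_num at h4 h ⊢
  linarith

lemma phi_hi_0_36 : phi (-0.36) ≤ 0.3739107 := by
  rw [phi_eq_c0]
  have e : ((-0.36 : ℝ)) ^ 2 / 2 = 0.36 ^ 2 / 2 := by norm_num
  rw [e]
  have h := exp_le_expT (n := 6) (by decide) (u := 0.36 ^ 2 / 2) (by norm_num)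
  have h2 : expT 6 (0.36 ^ 2 / 2) ≤ (0.93725490 : ℝ) := by
    norm_num [expT, Finset.sum_range_succ, Nat.factorial]
  have h3 := c0_lt
  have h5 := h.trans h2
  have h4 : c0 * Real.exp (-(0.36 ^ 2 / 2)) ≤ 0.3989423 * 0.93725490 := by
    refine (mul_le_mul_of_nonneg_left h5 c0_pos.le).trans ?_
    exact mul_le_mul_of_nonneg_right h3.le (by norm_num)
  refine h4.trans ?_
  norm_num

lemma phi_lo_0_36 : 0.3739105 ≤ phi (-0.36) := by
  rw [phi_eq_c0]
  have e : ((-0.36 : ℝ)) ^ 2 / 2 = 0.36 ^ 2 / 2 := by norm_num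
  rw [e]
  have h := expT_le_exp (n := 5) (by decide) (u := 0.36 ^ 2 / 2) (by norm_num)
  have h2 : (0.93725489 : ℝ) ≤ expT 5 (0.36 ^ 2 / 2) := by
    norm_num [expT, Finset.sum_range_succ, Nat.factorial]
  have h3 := c0_gt
  have h5 := h2.trans h
  refine le_trans ?_ (mul_le_mul h3.le h5 (by norm_num) c0_pos.le)
  norm_num

end Crest.Agent.R215.Num
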