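import Crest.Agent.R215.EnergyCore
import Crest.Agent.R215.BBGeo

/-!
# Row 215: skeleton for the big-big tie argument, `k ≥ 6`
-/

set_option autoImplicit false

open MeasureTheory ProbabilityTheory Set Filter Topology
open Crest.Agent.Lib.Ehrhard
open scoped RealInnerProductSpace

namespace Crest.Agent.R215

/-- the three largest values -/
lemma top3 {ι : Type*} [Fintype ι] [DecidableEq ι] (h : 3 ≤ Fintype.card ι) (p : ι → ℝ) :
    ∃ j l m : ι, j ≠ l ∧ m ≠ j ∧ m ≠ l ∧ (∀ i, p i ≤ p j) ∧ (∀ i, i ≠ j → p i ≤ p l) ∧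
      (∀ i, i ≠ j → i ≠ l → p i ≤ p m) := by
  have h0 : (Finset.univ : Finset ι).Nonempty := by
    rw [Finset.univ_nonempty_iff]
    exact Fintype.card_pos_iff.1 (by omega)
  obtain ⟨j, _, hj⟩ := Finset.exists_max_image Finset.univ p h0
  have h1 : (Finset.univ.erase j).Nonempty := by
    rw [← Finset.card_pos, Finset.card_erase_of_mem (Finset.mem_univ _), Finset.card_univ]
    omega
  obtain ⟨l, hlm, hl⟩ := Finset.exists_max_image (Finset.univ.erase j) p h1
  have h2 : ((Finset.univ.erase j).erase l).Nonempty := by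
    rw [← Finset.card_pos, Finset.card_erase_of_mem hlm, Finset.card_erase_of_mem (Finset.mem_univ _),
      Finset.card_univ]
    omega
  obtain ⟨m, hmm, hm⟩ := Finset.exists_max_image ((Finset.univ.erase j).erase l) p h2
  refine ⟨j, l, m, ?_, ?_, ?_, fun i => hj i (Finset.mem_univ _), fun i hi => hl i ?_,
    fun i hi hi' => hm i ?_⟩
  · exact (Finset.ne_of_mem_erase hlm).symm
  · exact Finset.ne_of_mem_erase (Finset.mem_of_mem_erase hmm)
  · exact Finset.ne_of_mem_erase hmm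
  · simp [hi]
  · simp [hi, hi']

/-- `arctan (2 s / √(3 u² - 4 s²)) ≤ γ s / u` -/
lemma arc_aux {s u γ ρ : ℝ} (hu : 0 < u) (hs : 0 ≤ s) (hγ : 0 < γ) (h1 : s ^ 2 ≤ ρ * u ^ 2)
    (h2 : 4 * ρ < 3) (h3 : 0 ≤ 1 - γ ^ 2 * ρ / 6) (h4 : 4 / 3 ≤ (γ * (1 - γ ^ 2 * ρ / 6)) ^ 2)
    (h5 : γ ^ 2 * ρ ≤ 1) :
    Real.arctan (2 * s / √(3 * u ^ 2 - 4 * s ^ 2)) ≤ γ * (s / u) := by
  set x := s / u with hx
  have hx0 : 0 ≤ x := by positivity
  have hsx : s = x * u := by rw [hx]; field_simp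
  have hx2 : x ^ 2 ≤ ρ := by
    rw [hsx, mul_pow] at h1
    exact le_of_mul_le_mul_right h1 (by positivity)
  have hD : 0 < 3 - 4 * x ^ 2 := by linarith
  have e1 : √(3 * u ^ 2 - 4 * s ^ 2) = √(3 - 4 * x ^ 2) * u := by
    have : 3 * u ^ 2 - 4 * s ^ 2 = (3 - 4 * x ^ 2) * u ^ 2 := by rw [hsx]; ring
    rw [this, Real.sqrt_mul hD.le, Real.sqrt_sq hu.le]
  have hsD : 0 < √(3 - 4 * x ^ 2) := Real.sqrt_pos.2 hD
  have hsD2 : √(3 - 4 * x ^ 2) ^ 2 = 3 - 4 * x ^ 2 := Real.sq_sqrt hD.le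
  have e2 : 2 * s / √(3 * u ^ 2 - 4 * s ^ 2) = 2 * x / √(3 - 4 * x ^ 2) := by
    rw [e1, hsx]; field_simp
  rw [e2]
  set t := 2 * x / √(3 - 4 * x ^ 2) with ht
  have ht0 : 0 ≤ t := by positivity
  set θ := γ * x with hθ
  have hθ0 : 0 ≤ θ := by positivity
  have hθ1 : θ ^ 2 ≤ γ ^ 2 * ρ := by rw [hθ, mul_pow]; gcongr
  have hθ2 : θ ≤ 1 := by
    by_contra hcon
    push Not at hcon
    nlinarith
  have hpi := Real.pi_gt_three
  -- sin θ ≥ 2x/√3
  have e3 : 1 + t ^ 2 = 3 / (3 - 4 * x ^ 2) := by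
    rw [ht, div_pow, hsD2, eq_div_iff hD.ne', add_mul, div_mul_cancel₀ _ hD.ne']
    ring
  have e4 : Real.sin (Real.arctan t) = 2 * x / √3 := by
    rw [Real.sin_arctan, e3, Real.sqrt_div (by norm_num), ht]
    have h3' : 0 < √(3:ℝ) := by positivity
    rw [div_div_div_cancel_right₀ hsD.ne']
  have e5 : 2 * x / √3 ≤ Real.sin θ := by
    have h6 := Real.sin_ge_sub_cube hθ0
    refine le_trans ?_ h6
    have h7 : θ - θ ^ 3 / 6 = x * (γ * (1 - θ ^ 2 / 6)) := by rw [hθ]; ring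
    have h8 : γ * (1 - γ ^ 2 * ρ / 6) ≤ γ * (1 - θ ^ 2 / 6) := by
      apply mul_le_mul_of_nonneg_left _ hγ.le
      linarith
    have h9 : 2 / √3 ≤ γ * (1 - γ ^ 2 * ρ / 6) := by
      refine le_of_sq_le_sq ?_ (by positivity)
      rw [div_pow, Real.sq_sqrt (by norm_num)]
      refine le_trans ?_ h4
      norm_num
    rw [h7]
    calc 2 * x / √3 = x * (2 / √3) := by ring
      _ ≤ x * (γ * (1 - θ ^ 2 / 6)) := mul_le_mul_of_nonneg_left (h9.trans h8) hx0
  rw [← e4] at e5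
  by_contra hcon
  push Not at hcon
  have h10 : Real.sin θ < Real.sin (Real.arctan t) := by
    refine Real.sin_lt_sin_of_lt_of_le_pi_div_two ?_ (Real.arctan_lt_pi_div_two t).le hcon
    linarith
  linarith

/-- `arctan` is below its tangents on `[0, ∞)` -/
lemma arctan_le_tangent {y y0 : ℝ} (hy : 0 ≤ y) (hy0 : 0 ≤ y0) :
    Real.arctan y ≤ Real.arctan y0 + (y - y0) / (1 + y0 ^ 2) := by
  set K : ℝ → ℝ := fun y => (y - y0) / (1 + y0 ^ 2) - Real.arctan y with hK
  have hd : ∀ x, HasDerivAt K (1 / (1 + y0 ^ 2) - 1 / (1 + x ^ 2)) x := by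
    intro x
    exact (((hasDerivAt_id x).sub_const y0).div_const _).fun_sub (Real.hasDerivAt_arctan x)
  have hc : Continuous K := continuous_iff_continuousAt.2 fun x => (hd x).continuousAt
  have key : K y0 ≤ K y := by
    rcases le_total y0 y with h | h
    · have : MonotoneOn K (Icc y0 y) := by
        refine monotoneOn_of_deriv_nonneg (convex_Icc _ _) hc.continuousOn
          (fun x _ => (hd x).differentiableAt.differentiableWithinAt) ?_
        intro x hx
        rw [interior_Icc] at hx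
        rw [(hd x).deriv, sub_nonneg]
        have : y0 ^ 2 ≤ x ^ 2 := by nlinarith [hx.1]
        gcongr
      exact this (left_mem_Icc.2 h) (right_mem_Icc.2 h) h
    · have : AntitoneOn K (Icc y y0) := by
        refine antitoneOn_of_deriv_nonpos (convex_Icc _ _) hc.continuousOn
          (fun x _ => (hd x).differentiableAt.differentiableWithinAt) ?_
        intro x hx
        rw [interior_Icc] at hx
        rw [(hd x).deriv, sub_nonpos]
        have : x ^ 2 ≤ y0 ^ 2 := by nlinarith [hx.1, hx.2]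
        gcongr
      exact this (left_mem_Icc.2 h) (right_mem_Icc.2 h) h
  simp only [hK, sub_self, zero_div, zero_sub] at key
  linarith

/-- `arctan` tangent at `1` -/
lemma arctan_le_one {y : ℝ} (hy : 0 ≤ y) : Real.arctan y ≤ Real.pi / 4 + (y - 1) / 2 := by
  have := arctan_le_tangent hy zero_le_one
  rw [Real.arctan_one] at this
  norm_num at this
  linarith

/-- `arctan` tangent at `√3` -/
lemma arctan_le_sqrt_three {y : ℝ} (hy : 0 ≤ y) :
    Real.arctan y ≤ Real.pi / 3 + (y - 1.732) / 4 := by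
  have := arctan_le_tangent hy (Real.sqrt_nonneg 3)
  rw [Real.arctan_sqrt_three, Real.sq_sqrt (by norm_num)] at this
  have h3 : (1.732 : ℝ) ≤ √3 := Real.le_sqrt_of_sq_le (by norm_num)
  linarith

section crit

variable {E : Type*} [NormedAddCommGroup E] [InnerProductSpace ℝ E] [FiniteDimensional ℝ E]
  [MeasurableSpace E] [BorelSpace E]
variable {ι : Type*} [Fintype ι] [DecidableEq ι]

/-- sum over the complement of three indices -/
lemma sum_three {M : Type*} [AddCommMonoid M] (f : ι → M) {j l m : ι} (hjl : j ≠ l) (hmj : m ≠ j)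
    (hml : m ≠ l) : f j + (f l + (f m + ∑ i ∈ ((Finset.univ.erase j).erase l).erase m, f i))
      = ∑ i, f i := by
  rw [Finset.add_sum_erase _ _ (show m ∈ (Finset.univ.erase j).erase l by simp [hmj, hml]),
    Finset.add_sum_erase _ _ (show l ∈ Finset.univ.erase j by simp [hjl.symm]),
    Finset.add_sum_erase _ _ (Finset.mem_univ j)]

set_option maxHeartbeats 2000000 in
/-- **skeleton** of the big-big tie argument -/
theorem skeleton (c : Crit E ι) (hk : 4 ≤ Fintype.card ι) {k0 : ℝ} (hk0 : 0 < k0)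
    (hkk : k0 ≤ Fintype.card ι) {η β e0 Λ kap τ A P U yc gc γ ρ σ0 : ℝ}
    (hη0 : 2.79 ≤ η) (hη : η * cC ≤ 1 + ((Fintype.card ι : ℝ) - 1)⁻¹)
    (hB : ∀ p R, Cell η p R → Phi (-0.915) < p → R ≤ β * p - e0)
    (hS : ∀ p R, Cell η p R → p ≤ P →
      Real.arctan (yc * √R) + gc * √R + (Λ - kap) * R ≤ Λ * (β * p))
    (hM : ∀ p R, Cell η p R → P ≤ p → p ≤ 1 / 4 → β - 3 * e0 - cC < β * p - R)
    (hτ : ∀ p R, Cell η p R → p ≤ P → R ≤ τ * p)
    (hA : ∀ p R, Cell η p R → R ≤ A + τ * p)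
    (n1 : 0 < τ) (n2 : τ < β) (n3 : 0 ≤ β - 3 * e0 - cC)
    (n4 : 0.15916 ≤ 4 * (cC - 2 * A - τ + 0.18 * τ))
    (n5 : τ * (β - 3 * e0 - cC) ≤ σ0 * (β - τ))
    (n6 : U ≤ cC - σ0) (n7 : 2 / 3 * U * (β - τ) ≤ β * (cC - A - τ) + 2 * τ * e0)
    (n8 : σ0 ≤ ρ * U) (n8' : 4 * ρ < 3) (nU : 0 < U)
    (n9 : 12 ≤ yc ^ 2 * U) (n9' : 0 ≤ yc) (n10 : γ ^ 2 ≤ gc ^ 2 * U) (n10' : 0 ≤ gc) (nγ : 0 < γ)
    (n11 : 0 ≤ 1 - γ ^ 2 * ρ / 6) (n11' : 4 / 3 ≤ (γ * (1 - γ ^ 2 * ρ / 6)) ^ 2)
    (n11'' : γ ^ 2 * ρ ≤ 1)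
    (n12 : kap * (2 * k0 * cC) ≤ 3 * Real.pi) (n14 : 3 * Real.pi ≤ Λ * (2 * k0 * cC))
    (n13 : Λ * (β - 3 * e0 - cC) + 3 * Real.pi / k0 < Real.pi) (n15 : 0 ≤ Λ) : False := by
  have hC := cC_gt
  have hCpos := cC_pos
  have hV := c.V_gt
  have hβ : 0 < β := n1.trans n2
  -- cells
  set R : ι → ℝ := fun i => ‖c.z i‖ ^ 2 with hR
  have hcell : ∀ i, Cell η (c.p i) (R i) := fun i => c.cell_facts hk hη i
  obtain ⟨j, l, m, hjl, hmj, hml, tj, tl, tm⟩ := top3 (by omega) c.p
  have hmbig : Phi (-0.915) < c.p m := by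
    obtain ⟨m', h1, h2, h3⟩ := three_big hη0 hcell c.sum_p (by rw [hR, c.sumsq]; exact hV.le) j l
    exact h3.trans_le (tm m' h1 h2)
  have hlbig : Phi (-0.915) < c.p l := hmbig.trans_le (tl m hmj)
  have hjbig : Phi (-0.915) < c.p j := hmbig.trans_le (tj m)
  set S := ((Finset.univ.erase j).erase l).erase m with hSdef
  have hSmem : ∀ i ∈ S, i ≠ j ∧ i ≠ l ∧ i ≠ m := by
    intro i hi
    simp only [hSdef, Finset.mem_erase] at hi
    exact ⟨hi.2.2.1, hi.2.1, hi.1⟩
  have sp := sum_three c.p hjl hmj hml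
  have sR := sum_three R hjl hmj hml
  rw [c.sum_p, ← hSdef] at sp
  rw [← hSdef, show ∑ i, R i = c.V from c.sumsq] at sR
  set pS := ∑ i ∈ S, c.p i with hpS
  set σ := ∑ i ∈ S, R i with hσ
  have bj := hB _ _ (hcell j) hjbig
  have bl := hB _ _ (hcell l) hlbig
  have bm := hB _ _ (hcell m) hmbig
  -- budget
  have hbud : ∑ i ∈ S, (β * c.p i - R i) ≤ β - 3 * e0 - c.V := by
    rw [Finset.sum_sub_distrib, ← Finset.mul_sum, ← hpS, ← hσ]
    have h1 : β * (c.p j + (c.p l + (c.p m + pS))) = β := by rw [sp, mul_one]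
    linarith
  -- `p i ≤ 1/4` for `i ∈ S`
  have hq : ∀ i ∈ S, c.p i ≤ 1 / 4 := by
    intro i hi
    obtain ⟨h1, h2, h3⟩ := hSmem i hi
    have h4 : c.p i ≤ pS := Finset.single_le_sum (f := c.p) (fun a _ => c.p_nonneg a) hi
    have h5 := tm i h1 h2
    have h6 := tl i h1
    have h7 := tj i
    linarith
  have hcost : ∀ i ∈ S, 0 ≤ β * c.p i - R i := by
    intro i hi
    rcases le_total (c.p i) P with h | h
    · have := hτ _ _ (hcell i) h
      have h2 := mul_nonneg (sub_nonneg.2 n2.le) (c.p_nonneg i)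
      linarith
    · have := hM _ _ (hcell i) h (hq i hi)
      linarith
  have hP : ∀ i ∈ S, c.p i ≤ P := by
    intro i hi
    by_contra hcon
    push Not at hcon
    have h1 := hM _ _ (hcell i) hcon.le (hq i hi)
    have h2 : β * c.p i - R i ≤ ∑ i ∈ S, (β * c.p i - R i) :=
      Finset.single_le_sum (f := fun i => β * c.p i - R i) hcost hi
    linarith
  have hστ : σ ≤ τ * pS := by
    rw [hσ, hpS, Finset.mul_sum]
    exact Finset.sum_le_sum fun i hi => hτ _ _ (hcell i) (hP i hi)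
  have hbud2 : β * pS - σ ≤ β - 3 * e0 - c.V := by
    rw [Finset.sum_sub_distrib, ← Finset.mul_sum, ← hpS, ← hσ] at hbud
    exact hbud
  have hσ0' : 0 ≤ σ := Finset.sum_nonneg fun i _ => (hcell i).nonneg
  have hσσ : σ ≤ σ0 := by
    have h1 : (β - τ) * σ ≤ τ * (β - 3 * e0 - cC) := by
      have g1 := mul_le_mul_of_nonneg_left hbud2 n1.le
      have g2 := mul_le_mul_of_nonneg_left hστ hβ.le
      have g3 := mul_le_mul_of_nonneg_left hV.le n1.le
      linarith
    have h2 : (β - τ) * σ ≤ (β - τ) * σ0 := by linarith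
    exact le_of_mul_le_mul_left h2 (by linarith)
  have h4σ : 4 * σ < 3 * U := by
    have h1 : 4 * σ ≤ 4 * ρ * U := by linarith
    have h2 : 4 * ρ * U < 3 * U := mul_lt_mul_of_pos_right n8' nU
    linarith
  -- the energy of the big cells
  set e := R j + R l + R m with he
  have heV : e = c.V - σ := by linarith
  have heU : U ≤ e := by linarith
  -- two of the three big cells
  have key2 : ∀ a b d : ℝ, ∀ pa pb pd : ℝ, pa + pb + pd + pS = 1 → a + b + d = e →
      a ≤ A + τ * pa → b ≤ β * pb - e0 → d ≤ β * pd - e0 → U ≤ 3 / 2 * (e - a) := by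
    intro a b d pa pb pd h1 h2 h3 h4 h5
    have h6 : cC ≤ A + τ * pa + (b + d) + τ * pS := by linarith
    have h7 : b + d + 2 * e0 ≤ β * (pb + pd) := by linarith
    have h8 : pa + pS = 1 - (pb + pd) := by linarith
    have h9 : cC ≤ A + τ * (1 - (pb + pd)) + (b + d) := by
      rw [← h8]; linarith
    have h10 : τ * (b + d + 2 * e0) ≤ τ * (β * (pb + pd)) := mul_le_mul_of_nonneg_left h7 n1.le
    have h11 : β * cC ≤ β * (A + τ * (1 - (pb + pd)) + (b + d)) := mul_le_mul_of_nonneg_left h9 hβ.le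
    have h12 : β * (cC - A - τ) + 2 * τ * e0 ≤ (β - τ) * (b + d) := by linarith
    have h13 : (β - τ) * (2 / 3 * U) ≤ (β - τ) * (b + d) := by linarith
    have h14 := le_of_mul_le_mul_left h13 (by linarith)
    linarith
  have aj := hA _ _ (hcell j)
  have al := hA _ _ (hcell l)
  have am := hA _ _ (hcell m)
  have Uj : U ≤ 3 / 2 * (e - R j) := key2 (R j) (R l) (R m) (c.p j) (c.p l) (c.p m) (by linarith) (by linarith) aj bl bm
  have Ul : U ≤ 3 / 2 * (e - R l) := key2 (R l) (R j) (R m) (c.p l) (c.p j) (c.p m) (by linarith) (by linarith) al bj bm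
  have Um : U ≤ 3 / 2 * (e - R m) := key2 (R m) (R j) (R l) (c.p m) (c.p j) (c.p l) (by linarith) (by linarith) am bj bl
  -- lower bound for each
  have g1 := Num.Phi_lo_0_915
  have low : ∀ a b d : ℝ, ∀ pa pb pd : ℝ, pa + pb + pd + pS = 1 → a + b + d = e →
      a ≤ A + τ * pa → b ≤ A + τ * pb → 0.18 ≤ pd → 0.15916 ≤ 4 * d := by
    intro a b d pa pb pd h1 h2 h3 h4 h5
    have h6 := mul_le_mul_of_nonneg_left h5 n1.le
    have h7 : τ * (pa + pb + pd + pS) = τ := by rw [h1, mul_one]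
    linarith
  have lj : 0.15916 ≤ 4 * R j := low (R l) (R m) (R j) (c.p l) (c.p m) (c.p j) (by linarith) (by linarith) al am
    (by linarith)
  have ll : 0.15916 ≤ 4 * R l := low (R j) (R m) (R l) (c.p j) (c.p m) (c.p l) (by linarith) (by linarith) aj am
    (by linarith)
  have lm : 0.15916 ≤ 4 * R m := low (R j) (R l) (R m) (c.p j) (c.p l) (c.p m) (by linarith) (by linarith) aj al
    (by linarith)
  have uj := (hcell j).e1'
  have ul := (hcell l).e1'
  have um := (hcell m).e1'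
  obtain ⟨a, ha, u, hu0, hu2, hmain⟩ := BBGeo.bb_geo c hjl hmj hml (e := e) (σ := σ) he
    (by
      intro a ha b hb
      simp only [Finset.mem_insert, Finset.mem_singleton] at ha hb
      have h1 : R a ≤ 0.15916 := by rcases ha with rfl | rfl | rfl <;> assumption
      have h2 : 0.15916 ≤ 4 * R b := by rcases hb with rfl | rfl | rfl <;> assumption
      exact h1.trans h2) hSdef hσ
    (by
      intro a ha
      simp only [Finset.mem_insert, Finset.mem_singleton] at ha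
      have h1 : U ≤ 3 / 2 * (e - R a) := by rcases ha with rfl | rfl | rfl <;> assumption
      have h2 : R a = ‖c.z a‖ ^ 2 := rfl
      rw [← h2]
      linarith)
    (by linarith)
  have hUa : U ≤ u ^ 2 := by
    rw [hu2]
    refine le_min heU ?_
    simp only [Finset.mem_insert, Finset.mem_singleton] at ha
    have h1 : U ≤ 3 / 2 * (e - R a) := by rcases ha with rfl | rfl | rfl <;> assumption
    exact h1
  have hue : u ^ 2 ≤ e := by rw [hu2]; exact min_le_left _ _
  -- bounds for the arctan terms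
  have hz : ∀ i, ‖c.z i‖ = √(R i) := fun i => (Real.sqrt_sq (norm_nonneg _)).symm
  have hyu : √12 / u ≤ yc := by
    rw [div_le_iff₀ hu0]
    refine Real.sqrt_le_iff.2 ⟨by positivity, ?_⟩
    rw [mul_pow]
    have := mul_le_mul_of_nonneg_left hUa (sq_nonneg yc)
    linarith
  have hgu : γ / u ≤ gc := by
    rw [div_le_iff₀ hu0]
    refine le_of_sq_le_sq ?_ (by positivity)
    rw [mul_pow]
    have := mul_le_mul_of_nonneg_left hUa (sq_nonneg gc)
    linarith
  set s := ‖∑ i ∈ S, c.z i‖ with hs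
  have hs1 : s ≤ ∑ i ∈ S, √(R i) := by
    refine (norm_sum_le _ _).trans (le_of_eq ?_)
    exact Finset.sum_congr rfl fun i _ => hz i
  have hs2 : s ^ 2 ≤ ρ * u ^ 2 := by
    have h1 : s ^ 2 ≤ σ := BBGeo.norm_sum_sq_le c S
    have hρ : 0 ≤ ρ := by
      by_contra hcon
      push Not at hcon
      have := mul_neg_of_neg_of_pos hcon nU
      linarith
    have := mul_le_mul_of_nonneg_left hUa hρ
    linarith
  have t2 : Real.arctan (2 * s / √(3 * u ^ 2 - 4 * s ^ 2)) ≤ gc * ∑ i ∈ S, √(R i) := by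
    refine (arc_aux hu0 (norm_nonneg _) nγ hs2 n8' n11 n11' n11'').trans ?_
    have h1 : γ * (s / u) = γ / u * s := by ring
    rw [h1]
    exact mul_le_mul hgu hs1 (norm_nonneg _) n10'
  have t1 : ∑ i ∈ S, Real.arctan (√12 * ‖c.z i‖ / u) ≤ ∑ i ∈ S, Real.arctan (yc * √(R i)) := by
    refine Finset.sum_le_sum fun i _ => Real.arctan_strictMono.monotone ?_
    rw [hz i]
    have : √12 * √(R i) / u = √12 / u * √(R i) := by ring
    rw [this]
    exact mul_le_mul_of_nonneg_right hyu (Real.sqrt_nonneg _)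
  have hsum : ∑ i ∈ S, (Real.arctan (yc * √(R i)) + gc * √(R i) + (Λ - kap) * R i)
      ≤ ∑ i ∈ S, Λ * (β * c.p i) :=
    Finset.sum_le_sum fun i hi => hS _ _ (hcell i) (hP i hi)
  rw [Finset.sum_add_distrib, Finset.sum_add_distrib, ← Finset.mul_sum, ← Finset.mul_sum, ← hσ,
    ← Finset.mul_sum, ← Finset.mul_sum, ← hpS] at hsum
  -- the last term
  have hpi := Real.pi_pos
  have hsC : √(2 * Real.pi) * √cC = 3 / 2 := by
    rw [← Real.sqrt_mul (by positivity)]
    have : 2 * Real.pi * cC = (3 / 2) ^ 2 := by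
      unfold cC; field_simp; norm_num
    rw [this, Real.sqrt_sq (by norm_num)]
  have hsCpos : 0 < √cC := Real.sqrt_pos.2 hCpos
  have t3 : 2 * Real.pi * √(2 * Real.pi) / Fintype.card ι * u ≤
      3 * Real.pi / (2 * k0) * (1 + e / cC) := by
    have h1 : 2 * Real.pi * √(2 * Real.pi) / Fintype.card ι * u ≤
        2 * Real.pi * √(2 * Real.pi) / k0 * u := by gcongr
    refine h1.trans ?_
    have h2 : √(2 * Real.pi) = 3 / 2 / √cC := by rw [← hsC]; field_simp
    have h3 : u / √cC ≤ (1 + e / cC) / 2 := by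
      have h4 : (u / √cC) ^ 2 ≤ e / cC := by
        rw [div_pow, Real.sq_sqrt hCpos.le]; gcongr
      have h5 := sq_nonneg (u / √cC - 1)
      have h6 : (u / √cC - 1) ^ 2 = (u / √cC) ^ 2 - 2 * (u / √cC) + 1 := by ring
      linarith
    rw [h2]
    calc 2 * Real.pi * (3 / 2 / √cC) / k0 * u = 3 * Real.pi / k0 * (u / √cC) := by ring
      _ ≤ 3 * Real.pi / k0 * ((1 + e / cC) / 2) := by gcongr
      _ = _ := by field_simp
  set W := 3 * Real.pi / (2 * k0) with hW
  have hW2 : W * (1 + e / cC) = W + W / cC * c.V - W / cC * σ := by rw [heV]; ring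
  have hWk : kap ≤ W / cC := by
    rw [hW, div_div, le_div_iff₀ (by positivity)]; linarith
  have hWΛ : W / cC ≤ Λ := by
    rw [hW, div_div, div_le_iff₀ (by positivity)]; linarith
  have hWW : W + W / cC * cC = 3 * Real.pi / k0 := by rw [hW]; field_simp; norm_num
  rw [hW2] at t3
  have f1 : Real.pi ≤ Λ * (β * pS) - (Λ - kap) * σ + (W + W / cC * c.V - W / cC * σ) := by
    linarith
  have f2 : kap * σ ≤ W / cC * σ := mul_le_mul_of_nonneg_right hWk hσ0'
  have f3 : Λ * (β * pS - σ) ≤ Λ * (β - 3 * e0 - c.V) := mul_le_mul_of_nonneg_left hbud2 n15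
  have f4 : 0 ≤ (Λ - W / cC) * (c.V - cC) := mul_nonneg (by linarith) (by linarith)
  linarith

end crit

end Crest.Agent.R215
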