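import Crest.Agent.R215.TieIneq

/-!
# Row 215: two-dimensional small ball estimate

`√(2π) E (⟪h,x⟫ - max_a ⟪y_a,x⟫)₊ ≤ ‖h‖³ / (6 π ω λ₁ λ₂)` where `Σ λ_a y_a = 0`, `Σ λ_a = 1`, `h ⊥ y_a`
and `ω = |y₁ ∧ y₂|`.
-/

set_option autoImplicit false
set_option linter.unusedSectionVars false
set_option linter.style.haveILetI false

open MeasureTheory ProbabilityTheory Set Filter Topology
open scoped NNReal ENNReal RealInnerProductSpace

namespace Crest.Agent.R215.SmallBall

open Crest.Agent.Lib.Ehrhard Crest.Agent.R215 Crest.Agent.R215.Tie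

variable {E : Type*} [NormedAddCommGroup E] [InnerProductSpace ℝ E] [FiniteDimensional ℝ E]
  [MeasurableSpace E] [BorelSpace E]

/-- Gram determinant -/
noncomputable def W (y1 y2 : E) : ℝ := ‖y1‖ ^ 2 * ‖y2‖ ^ 2 - ⟪y1, y2⟫ ^ 2

/-- integral of a nonnegative function of a linear form against Lebesgue -/
lemma integral_form_le {q : E} (hq : q ≠ 0) {h : ℝ → ℝ} (hh : Integrable h) (hm : Measurable h)
    (h0 : ∀ y, 0 ≤ h y) :
    Integrable (fun x : E => h ⟪q, x⟫) (stdGaussian E) ∧
    ∫ x, h ⟪q, x⟫ ∂stdGaussian E ≤ (∫ y, h y) / (√(2 * Real.pi) * ‖q‖) := by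
  have hqn : 0 < ‖q‖ := norm_pos_iff.2 hq
  have hv : Real.toNNReal (‖q‖ ^ 2) ≠ 0 := by
    rw [ne_eq, Real.toNNReal_eq_zero, not_le]; positivity
  have hbd : ∀ y, gaussianPDFReal 0 (Real.toNNReal (‖q‖ ^ 2)) y ≤ (√(2 * Real.pi) * ‖q‖)⁻¹ := by
    intro y
    rw [← sqrt_two_pi_mul, gaussianPDFReal]
    refine mul_le_of_le_one_right (by positivity) ?_
    rw [Real.exp_le_one_iff, neg_div, neg_nonpos]
    positivity
  have hint : Integrable (fun y => gaussianPDFReal 0 (Real.toNNReal (‖q‖ ^ 2)) y * h y) := by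
    refine Integrable.mono' (hh.const_mul (√(2 * Real.pi) * ‖q‖)⁻¹) ?_ ?_
    · exact ((measurable_gaussianPDFReal _ _).mul hm).aestronglyMeasurable
    · refine Eventually.of_forall fun y => ?_
      rw [norm_mul, Real.norm_of_nonneg (gaussianPDFReal_nonneg _ _ _), Real.norm_of_nonneg (h0 y)]
      exact mul_le_mul_of_nonneg_right (hbd y) (h0 y)
  have hmap : (stdGaussian E).map (fun x => ⟪q, x⟫) = gaussianReal 0 (Real.toNNReal (‖q‖ ^ 2)) :=
    CM.map_inner q
  constructor
  · have h1 : Integrable h (gaussianReal 0 (Real.toNNReal (‖q‖ ^ 2))) := by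
      rw [gaussianReal_of_var_ne_zero _ hv]
      have h2 : (gaussianPDF 0 (Real.toNNReal (‖q‖ ^ 2)))
          = fun x => ENNReal.ofReal (gaussianPDFReal 0 (Real.toNNReal (‖q‖ ^ 2)) x) := rfl
      rw [h2, integrable_withDensity_iff_integrable_smul' (by fun_prop)
        (Eventually.of_forall fun x => ENNReal.ofReal_lt_top)]
      refine hint.congr (Eventually.of_forall fun x => ?_)
      simp only [smul_eq_mul]
      rw [ENNReal.toReal_ofReal (gaussianPDFReal_nonneg _ _ _)]
    rw [← hmap] at h1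
    exact h1.comp_aemeasurable (by fun_prop)
  · have e1 : ∫ x, h ⟪q, x⟫ ∂stdGaussian E
        = ∫ y, h y ∂((stdGaussian E).map (fun x => ⟪q, x⟫)) := by
      rw [integral_map (by fun_prop) hm.aestronglyMeasurable]
    rw [e1, hmap, integral_gaussianReal_eq_integral_smul hv]
    simp only [smul_eq_mul]
    rw [div_eq_inv_mul, ← integral_const_mul]
    exact integral_mono hint (hh.const_mul _) fun y => mul_le_mul_of_nonneg_right (hbd y) (h0 y)

/-- triangle estimate -/
lemma tri_le {y1 y2 : E} {l1 l2 l3 : ℝ} (h1 : 0 < l1) (h2 : 0 < l2) (h3 : 0 < l3)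
    (hsum : l1 + l2 + l3 = 1) (hw : 0 < W y1 y2) {s : ℝ} (hs : 0 ≤ s) :
    (stdGaussian E).real {x | ⟪y1, x⟫ < s ∧ ⟪y2, x⟫ < s ∧ -(l3 * s) < l1 * ⟪y1, x⟫ + l2 * ⟪y2, x⟫}
      ≤ s ^ 2 / (4 * Real.pi * √(W y1 y2) * l1 * l2) := by
  have hy1 : y1 ≠ 0 := by
    rintro rfl
    simp [W] at hw
  have hn1 : 0 < ‖y1‖ := norm_pos_iff.2 hy1
  set β : ℝ := ⟪y1, y2⟫ / ‖y1‖ ^ 2 with hβ
  set p : E := y2 - β • y1 with hp
  have hy2 : ∀ x, ⟪y2, x⟫ = ⟪p, x⟫ + β * ⟪y1, x⟫ := by
    intro x; rw [hp, inner_sub_left, real_inner_smul_left]; ring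
  have horth : ⟪p, y1⟫ = 0 := by
    rw [hp, inner_sub_left, real_inner_smul_left, real_inner_self_eq_norm_sq, hβ,
      div_mul_cancel₀ _ (by positivity), real_inner_comm, sub_self]
  have hpW : ‖p‖ ^ 2 * ‖y1‖ ^ 2 = W y1 y2 := by
    have : ‖p‖ ^ 2 = ‖y2‖ ^ 2 - ⟪y1, y2⟫ ^ 2 / ‖y1‖ ^ 2 := by
      rw [hp, norm_sub_sq_real, inner_smul_right, norm_smul, mul_pow, Real.norm_eq_abs, sq_abs,
        hβ, real_inner_comm]
      field_simp
      ring
    rw [this, W]
    field_simp
  have hpn : 0 < ‖p‖ := by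
    rw [norm_pos_iff]
    rintro h0
    rw [h0] at hpW
    simp at hpW
    exact hw.ne hpW
  have hp0 : p ≠ 0 := norm_pos_iff.1 hpn
  have hsq : √(W y1 y2) = ‖p‖ * ‖y1‖ := by
    rw [← hpW, ← mul_pow, Real.sqrt_sq (by positivity)]
  set a : ℝ := s - s / l1 with ha
  have has : a ≤ s := by rw [ha]; have : 0 ≤ s / l1 := by positivity
                         linarith
  set hfun : ℝ → ℝ := (Icc a s).indicator (fun y => l1 * (y - a) / l2) with hhf
  set f : ℝ → ℝ := fun y => (-(l3 * s) - l1 * y) / l2 - β * y with hf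
  set g : ℝ → ℝ := fun y => if y ≤ s then s - β * y else f y - 1 with hg
  have hfm : Measurable f := by fun_prop
  have hgm : Measurable g := Measurable.ite measurableSet_Iic (by fun_prop) (by fun_prop)
  have hhm : Measurable hfun := Measurable.indicator (by fun_prop) measurableSet_Icc
  have hh0 : ∀ y, 0 ≤ hfun y := by
    intro y
    refine Set.indicator_nonneg (fun y hy => ?_) y
    have : 0 ≤ y - a := by linarith [hy.1]
    positivity
  have hfg : ∀ y, g y - f y ≤ hfun y := by
    intro y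
    by_cases hy : y ≤ s
    · have e1 : g y - f y = l1 * (y - a) / l2 := by
        simp only [hg, hf, hy, if_true]
        rw [ha]
        field_simp
        linear_combination s * hsum
      rw [e1]
      by_cases hya : a ≤ y
      · rw [hhf, Set.indicator_of_mem (show y ∈ Icc a s from ⟨hya, hy⟩)]
      · push Not at hya
        rw [hhf, Set.indicator_of_notMem (fun h => absurd h.1 (not_le.2 hya))]
        have : l1 * (y - a) ≤ 0 := mul_nonpos_of_nonneg_of_nonpos h1.le (by linarith)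
        exact div_nonpos_of_nonpos_of_nonneg this h2.le
    · have e1 : g y - f y = -1 := by simp only [hg, hy, if_false]; ring
      rw [e1]
      linarith [hh0 y]
  have hcont : Continuous (fun y : ℝ => l1 * (y - a) / l2) := by fun_prop
  have hint : Integrable hfun := by
    rw [hhf, integrable_indicator_iff measurableSet_Icc]
    exact hcont.continuousOn.integrableOn_Icc
  have hval : ∫ y, hfun y = s ^ 2 / (2 * l1 * l2) := by
    rw [hhf, integral_indicator measurableSet_Icc, integral_Icc_eq_integral_Ioc,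
      ← intervalIntegral.integral_of_le has]
    have e1 : ∀ y : ℝ, l1 * (y - a) / l2 = (l1 / l2) * (y - a) := fun y => by ring
    simp_rw [e1]
    rw [intervalIntegral.integral_const_mul]
    rw [intervalIntegral.integral_comp_sub_right (fun y => y) a]
    rw [integral_id, ha]
    field_simp
    ring
  obtain ⟨hI, hle⟩ := integral_form_le hy1 hint hhm hh0
  have key := measure_between_le horth hp0 hfm hgm hhm hh0 hfg hI
  have hsub : {x : E | ⟪y1, x⟫ < s ∧ ⟪y2, x⟫ < s ∧ -(l3 * s) < l1 * ⟪y1, x⟫ + l2 * ⟪y2, x⟫}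
      ⊆ {x | f ⟪y1, x⟫ ≤ ⟪p, x⟫ ∧ ⟪p, x⟫ ≤ g ⟪y1, x⟫} := by
    rintro x ⟨ha1, ha2, ha3⟩
    rw [hy2] at ha2 ha3
    constructor
    · simp only [hf]
      rw [sub_le_iff_le_add, div_le_iff₀ h2]
      linarith
    · simp only [hg, ha1.le, if_true]
      linarith
  refine (measureReal_mono hsub).trans (key.trans ?_)
  have hpos : 0 < √(2 * Real.pi) := by positivity
  have hsq2 : √(2 * Real.pi) * √(2 * Real.pi) = 2 * Real.pi := Real.mul_self_sqrt (by positivity)
  calc (∫ x, hfun ⟪y1, x⟫ ∂stdGaussian E) / (√(2 * Real.pi) * ‖p‖)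
      ≤ ((∫ y, hfun y) / (√(2 * Real.pi) * ‖y1‖)) / (√(2 * Real.pi) * ‖p‖) := by gcongr
    _ = s ^ 2 / (4 * Real.pi * √(W y1 y2) * l1 * l2) := by
        rw [hval, hsq]
        have : 4 * Real.pi = 2 * (√(2 * Real.pi) * √(2 * Real.pi)) := by rw [hsq2]; ring
        rw [this]
        field_simp

lemma third_moment_std : ∫ y, (max y 0) ^ 3 ∂gaussianReal 0 1 = 2 / √(2 * Real.pi) := by
  rw [integral_gaussianReal_eq_integral_smul (by norm_num)]
  simp only [gaussianPDFReal, NNReal.coe_one, mul_one, sub_zero, smul_eq_mul]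
  have h1 : ∀ y : ℝ, (√(2 * Real.pi))⁻¹ * Real.exp (-y ^ 2 / 2) * (max y 0) ^ 3
      = (Ioi (0:ℝ)).indicator (fun y : ℝ => (√(2 * Real.pi))⁻¹ *
        (y ^ (3:ℝ) * Real.exp (-(1/2) * y ^ (2:ℝ)))) y := by
    intro y
    by_cases hy : 0 < y
    · rw [Set.indicator_of_mem (show y ∈ Ioi (0:ℝ) from hy), max_eq_left hy.le, Real.rpow_two,
        show (y:ℝ) ^ (3:ℝ) = y ^ 3 by exact_mod_cast Real.rpow_natCast y 3,
        show -y ^ 2 / 2 = -(1/2) * y ^ 2 by ring]
      ring
    · rw [Set.indicator_of_notMem (show y ∉ Ioi (0:ℝ) from hy), max_eq_right (not_lt.1 hy)]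
      simp
  simp_rw [h1]
  rw [integral_indicator measurableSet_Ioi, integral_const_mul,
    _root_.integral_rpow_mul_exp_neg_mul_rpow (by norm_num) (by norm_num) (by norm_num)]
  have hG : Real.Gamma ((3 + 1) / 2) = 1 := by norm_num
  rw [hG]
  have h2 : ((1:ℝ) / 2) ^ (-(3 + 1) / 2 : ℝ) = 4 := by
    rw [show (-(3 + 1) / 2 : ℝ) = ((-2 : ℤ) : ℝ) by norm_num, Real.rpow_intCast]
    norm_num
  rw [h2]
  ring

lemma third_moment_int : Integrable (fun y : ℝ => (max y 0) ^ 3) (gaussianReal 0 1) := by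
  by_contra h
  have h1 := integral_undef h
  rw [third_moment_std] at h1
  have : 0 < 2 / √(2 * Real.pi) := by positivity
  exact this.ne' h1

lemma third_moment (h : E) :
    Integrable (fun x : E => (max ⟪h, x⟫ 0) ^ 3) (stdGaussian E) ∧
    ∫ x, (max ⟪h, x⟫ 0) ^ 3 ∂stdGaussian E = ‖h‖ ^ 3 * (2 / √(2 * Real.pi)) := by
  have h2 : gaussianReal 0 (‖h‖₊ ^ 2) = (gaussianReal 0 1).map (fun y => ‖h‖ * y) := by
    rw [gaussianReal_map_const_mul]
    congr 1
    · simp
    · ext; simp
  have h3 : ∀ y : ℝ, (max (‖h‖ * y) 0) ^ 3 = ‖h‖ ^ 3 * (max y 0) ^ 3 := by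
    intro y
    rw [← mul_pow]
    congr 1
    rw [mul_max_of_nonneg _ _ (norm_nonneg h), mul_zero]
  constructor
  · have h4 : Integrable (fun y : ℝ => (max y 0) ^ 3) ((stdGaussian E).map (fun x => ⟪h, x⟫)) := by
      rw [R215.map_inner, h2, integrable_map_measure (by fun_prop) (by fun_prop)]
      refine (third_moment_int.const_mul (‖h‖ ^ 3)).congr (Eventually.of_forall fun y => ?_)
      simp only [Function.comp]
      rw [h3]
    exact h4.comp_aemeasurable (by fun_prop)
  · have h1 : ∫ x, (max ⟪h, x⟫ 0) ^ 3 ∂stdGaussian E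
        = ∫ y, (max y 0) ^ 3 ∂((stdGaussian E).map (fun x => ⟪h, x⟫)) := by
      rw [integral_map (by fun_prop) (by fun_prop)]
    rw [h1, R215.map_inner, h2, integral_map (by fun_prop) (by fun_prop)]
    simp_rw [h3]
    rw [integral_const_mul, third_moment_std]

/-- **small ball gain estimate** -/
theorem small_ball {h y1 y2 y3 : E} {l1 l2 l3 : ℝ} (h1 : 0 < l1) (h2 : 0 < l2) (h3 : 0 < l3)
    (hsum : l1 + l2 + l3 = 1) (hrel : l1 • y1 + l2 • y2 + l3 • y3 = 0)
    (ho1 : ⟪h, y1⟫ = 0) (ho2 : ⟪h, y2⟫ = 0) (hw : 0 < W y1 y2) :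
    ∫ x, max (⟪h, x⟫ - max (max ⟪y1, x⟫ ⟪y2, x⟫) ⟪y3, x⟫) 0 ∂stdGaussian E
      ≤ ‖h‖ ^ 3 / (6 * Real.pi * √(2 * Real.pi) * √(W y1 y2) * l1 * l2) := by
  have hpi := Real.pi_pos
  have hWs : 0 < √(W y1 y2) := Real.sqrt_pos.2 hw
  set c : ℝ := 1 / (4 * Real.pi * √(W y1 y2) * l1 * l2) with hc
  have hc0 : 0 < c := by positivity
  let u : Fin 2 → E := ![y1, y2]
  let m : (Fin 2 → ℝ) → ℝ := fun v => max (max (v 0) (v 1)) (-(l1 * v 0 + l2 * v 1) / l3)
  have hmm : Measurable m := by fun_prop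
  have hy3 : ∀ x, ⟪y3, x⟫ = -(l1 * ⟪y1, x⟫ + l2 * ⟪y2, x⟫) / l3 := by
    intro x
    have := congrArg (fun w => ⟪w, x⟫) hrel
    simp only [inner_add_left, real_inner_smul_left, inner_zero_left] at this
    rw [eq_div_iff h3.ne']
    linarith
  have hm0 : ∀ v, 0 ≤ m v := by
    intro v
    by_contra hneg
    push Not at hneg
    have a1 : v 0 < 0 := lt_of_le_of_lt (le_max_of_le_left (le_max_left _ _)) hneg
    have a2 : v 1 < 0 := lt_of_le_of_lt (le_max_of_le_left (le_max_right _ _)) hneg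
    have a3 : -(l1 * v 0 + l2 * v 1) / l3 < 0 := lt_of_le_of_lt (le_max_right _ _) hneg
    have a4 : 0 < -(l1 * v 0 + l2 * v 1) / l3 := by
      apply div_pos _ h3
      nlinarith
    linarith
  have hind : IndepFun (fun x : E => ⟪h, x⟫) (fun (x : E) (i : Fin 2) => ⟪u i, x⟫)
      (stdGaussian E) := by
    apply indep_forms
    intro i
    fin_cases i
    · exact ho1
    · exact ho2
  have hprod := (indepFun_iff_map_prod_eq_prod_map_map (by fun_prop) (by fun_prop)).1 hind
  set μH := (stdGaussian E).map (fun x => ⟪h, x⟫) with hμH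
  set μY := (stdGaussian E).map (fun (x : E) (i : Fin 2) => ⟪u i, x⟫) with hμY
  have hGm : Measurable (fun z : ℝ × (Fin 2 → ℝ) => ENNReal.ofReal (max (z.1 - m z.2) 0)) := by
    fun_prop
  -- inner estimate
  have hball : ∀ s : ℝ, 0 ≤ s → μY {v | m v < s} ≤ ENNReal.ofReal (c * s ^ 2) := by
    intro s hs
    have e0 : MeasurableSet {v : Fin 2 → ℝ | m v < s} := measurableSet_lt hmm measurable_const
    have e1 : μY {v | m v < s} = (stdGaussian E) {x | ⟪y1, x⟫ < s ∧ ⟪y2, x⟫ < s ∧
        -(l3 * s) < l1 * ⟪y1, x⟫ + l2 * ⟪y2, x⟫} := by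
      rw [hμY, Measure.map_apply (by fun_prop) e0]
      congr 1
      ext x
      simp only [mem_preimage, mem_ofPred_eq, m, u, max_lt_iff, Matrix.cons_val_zero,
        Matrix.cons_val_one, and_assoc]
      refine and_congr_right fun _ => and_congr_right fun _ => ?_
      rw [div_lt_iff₀ h3]
      constructor <;> intro h <;> linarith
    rw [e1, ← ENNReal.ofReal_toReal (measure_ne_top _ _)]
    refine ENNReal.ofReal_le_ofReal ?_
    have := tri_le h1 h2 h3 hsum hw hs
    rw [measureReal_def] at this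
    refine this.trans (le_of_eq ?_)
    rw [hc]; ring
  have hinner : ∀ η : ℝ, ∫⁻ v, ENNReal.ofReal (max (η - m v) 0) ∂μY
      ≤ ENNReal.ofReal (c / 3 * (max η 0) ^ 3) := by
    intro η
    rcases le_or_gt η 0 with hη | hη
    · have : ∀ v, ENNReal.ofReal (max (η - m v) 0) = 0 := by
        intro v
        rw [ENNReal.ofReal_eq_zero, max_le_iff]
        exact ⟨by linarith [hm0 v], le_rfl⟩
      simp [this]
    · have hnn : 0 ≤ᵐ[μY] fun v => max (η - m v) 0 :=
        Eventually.of_forall fun v => le_max_right (η - m v) 0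
      have hmeas : AEMeasurable (fun v => max (η - m v) 0) μY := by fun_prop
      rw [lintegral_eq_lintegral_meas_lt μY hnn hmeas]
      have hcont : Continuous (fun t : ℝ => c * (η - t) ^ 2) := by fun_prop
      calc ∫⁻ t in Ioi 0, μY {v | t < max (η - m v) 0}
          ≤ ∫⁻ t in Ioi 0, (Ioc 0 η).indicator (fun t => ENNReal.ofReal (c * (η - t) ^ 2)) t := by
            refine setLIntegral_mono (by fun_prop (disch := measurability)) fun t ht => ?_
            have ht0 : 0 < t := ht
            have hset : {v | t < max (η - m v) 0} = {v | m v < η - t} := by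
              ext v
              simp only [mem_ofPred_eq, lt_max_iff]
              constructor
              · rintro (h | h)
                · linarith
                · linarith
              · intro h; left; linarith
            rw [hset]
            by_cases htη : t ≤ η
            · rw [Set.indicator_of_mem (show t ∈ Ioc 0 η from ⟨ht0, htη⟩)]
              exact hball (η - t) (by linarith)
            · have hemp : {v | m v < η - t} = ∅ := by
                ext v
                simp only [mem_ofPred_eq, mem_empty_iff_false, iff_false, not_lt]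
                push Not at htη
                linarith [hm0 v]
              rw [hemp, measure_empty]
              exact zero_le
        _ ≤ ∫⁻ t, (Ioc 0 η).indicator (fun t => ENNReal.ofReal (c * (η - t) ^ 2)) t :=
            setLIntegral_le_lintegral _ _
        _ = ∫⁻ t in Ioc 0 η, ENNReal.ofReal (c * (η - t) ^ 2) :=
            lintegral_indicator measurableSet_Ioc _
        _ = ENNReal.ofReal (∫ t in Ioc 0 η, c * (η - t) ^ 2) := by
            rw [ofReal_integral_eq_lintegral_ofReal]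
            · exact (hcont.integrableOn_Icc (a := 0) (b := η)).mono_set Ioc_subset_Icc_self
            · exact Eventually.of_forall fun t => by positivity
        _ = ENNReal.ofReal (c / 3 * (max η 0) ^ 3) := by
            congr 1
            rw [← intervalIntegral.integral_of_le hη.le, intervalIntegral.integral_const_mul,
              intervalIntegral.integral_comp_sub_left (fun t => t ^ 2) η, integral_pow,
              max_eq_left hη.le]
            ring
  have hlint : ∫⁻ x, ENNReal.ofReal (max (⟪h, x⟫ - max (max ⟪y1, x⟫ ⟪y2, x⟫) ⟪y3, x⟫) 0)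
      ∂stdGaussian E ≤ ENNReal.ofReal (c / 3 * (‖h‖ ^ 3 * (2 / √(2 * Real.pi)))) := by
    calc ∫⁻ x, ENNReal.ofReal (max (⟪h, x⟫ - max (max ⟪y1, x⟫ ⟪y2, x⟫) ⟪y3, x⟫) 0) ∂stdGaussian E
        = ∫⁻ z, ENNReal.ofReal (max (z.1 - m z.2) 0)
            ∂((stdGaussian E).map (fun x => ((⟪h, x⟫ : ℝ), fun i : Fin 2 => ⟪u i, x⟫))) := by
          rw [lintegral_map hGm (by fun_prop)]
          refine lintegral_congr fun x => ?_
          simp only [m, u, Matrix.cons_val_zero, Matrix.cons_val_one]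
          rw [← hy3]
      _ = ∫⁻ η, ∫⁻ v, ENNReal.ofReal (max (η - m v) 0) ∂μY ∂μH := by
          rw [hprod, lintegral_prod _ hGm.aemeasurable]
      _ ≤ ∫⁻ η, ENNReal.ofReal (c / 3 * (max η 0) ^ 3) ∂μH := lintegral_mono hinner
      _ = ∫⁻ x, ENNReal.ofReal (c / 3 * (max ⟪h, x⟫ 0) ^ 3) ∂stdGaussian E := by
          rw [hμH, lintegral_map (by fun_prop) (by fun_prop)]
      _ = ENNReal.ofReal (∫ x, c / 3 * (max ⟪h, x⟫ 0) ^ 3 ∂stdGaussian E) := by
          rw [ofReal_integral_eq_lintegral_ofReal ((third_moment h).1.const_mul _)]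
          exact Eventually.of_forall fun x => by positivity
      _ = _ := by rw [integral_const_mul, (third_moment h).2]
  have hfin : ∫ x, max (⟪h, x⟫ - max (max ⟪y1, x⟫ ⟪y2, x⟫) ⟪y3, x⟫) 0 ∂stdGaussian E
      ≤ c / 3 * (‖h‖ ^ 3 * (2 / √(2 * Real.pi))) := by
    rw [integral_eq_lintegral_of_nonneg_ae
      (f := fun x : E => max (⟪h, x⟫ - max (max ⟪y1, x⟫ ⟪y2, x⟫) ⟪y3, x⟫) 0)
      (Eventually.of_forall fun x => le_max_right _ _) (by fun_prop)]
    exact ENNReal.toReal_le_of_le_ofReal (by positivity) hlint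
  refine hfin.trans (le_of_eq ?_)
  rw [hc]
  field_simp
  ring

end Crest.Agent.R215.SmallBall
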