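import Crest.Agent.R215.Crit

/-!
# Row 215: open cells, dual vectors, deletion inequality
-/

set_option autoImplicit false
set_option linter.unusedSectionVars false
set_option linter.style.haveILetI false

open MeasureTheory ProbabilityTheory Set Filter Topology
open scoped RealInnerProductSpace

namespace Crest.Agent.R215

variable {E : Type*} [NormedAddCommGroup E] [InnerProductSpace ℝ E] [FiniteDimensional ℝ E]
  [MeasurableSpace E] [BorelSpace E]

/-- law of a linear functional -/
lemma map_inner (w : E) :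
    (stdGaussian E).map (fun x => ⟪w, x⟫) = gaussianReal 0 (‖w‖₊ ^ 2) := by
  have h := IsGaussian.map_eq_gaussianReal (μ := stdGaussian E) (innerSL ℝ w)
  rw [integral_strongDual_stdGaussian, variance_dual_stdGaussian] at h
  have h1 : (fun x => ⟪w, x⟫) = ⇑(innerSL ℝ w) := by
    funext x; simp
  rw [h1, h]
  congr 1
  rw [innerSL_apply_norm]
  ext
  simp

lemma measure_inner_eq {w : E} (hw : w ≠ 0) (t : ℝ) :
    stdGaussian E {x | ⟪w, x⟫ = t} = 0 := by
  have h : {x : E | ⟪w, x⟫ = t} = (fun x => ⟪w, x⟫) ⁻¹' {t} := by ext; simp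
  rw [h, ← Measure.map_apply (by fun_prop) (measurableSet_singleton t), map_inner]
  haveI : NullSingletonClass (gaussianReal 0 (‖w‖₊ ^ 2)) := by
    apply nullSingletonClass_gaussianReal
    simpa using hw
  exact measure_singleton t

/-- open cell -/
def openCell {ι : Type*} (z : ι → E) (i : ι) : Set E := {x | ∀ j, j ≠ i → ⟪z j, x⟫ < ⟪z i, x⟫}

section cells

variable {ι : Type*} [Fintype ι]

lemma measurableSet_openCell (z : ι → E) (i : ι) : MeasurableSet (openCell z i) := by
  classical
  unfold openCell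
  rw [Set.ofPred_forall]
  refine MeasurableSet.iInter fun j => ?_
  by_cases h : j ≠ i
  · simp only [h, ne_eq, not_false_eq_true, forall_const]
    exact measurableSet_lt (by fun_prop) (by fun_prop)
  · simp [h]

lemma disjoint_openCell (z : ι → E) {i j : ι} (hij : i ≠ j) :
    Disjoint (openCell z i) (openCell z j) := by
  rw [Set.disjoint_left]
  intro x hi hj
  exact absurd (hi j hij.symm) (not_lt.2 (hj i hij).le)

lemma isOpen_openCell (z : ι → E) (i : ι) : IsOpen (openCell z i) := by
  classical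
  unfold openCell
  rw [Set.ofPred_forall]
  refine isOpen_iInter_of_finite fun j => ?_
  by_cases h : j ≠ i
  · simp only [h, ne_eq, not_false_eq_true, forall_const]
    exact isOpen_lt (by fun_prop) (by fun_prop)
  · simp [h]

/-- a.e. no ties -/
lemma ae_no_ties {z : ι → E} (hz : Function.Injective z) :
    ∀ᵐ x ∂stdGaussian E, ∀ i j, i ≠ j → ⟪z i, x⟫ ≠ ⟪z j, x⟫ := by
  rw [ae_all_iff]; intro i
  rw [ae_all_iff]; intro j
  by_cases hij : i = j
  · exact Eventually.of_forall fun x h => absurd hij h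
  · have h0 := measure_inner_eq (w := z i - z j) (sub_ne_zero.2 fun h => hij (hz h)) 0
    have h1 : ∀ᵐ x ∂stdGaussian E, ¬ (⟪z i - z j, x⟫ = 0) := by
      rw [ae_iff]
      simpa using h0
    filter_upwards [h1] with x hx _ h
    apply hx
    rw [inner_sub_left, h, sub_self]

/-- a.e. argmax cells are the open cells -/
lemma openCell_ae_eq {z : ι → E} (hz : Function.Injective z) {A : ι → Set E} (hA : IsPart A)
    (hzA : IsArgmax z A) (i : ι) : A i =ᵐ[stdGaussian E] openCell z i := by
  filter_upwards [ae_no_ties hz] with x hx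
  apply propext
  show x ∈ A i ↔ x ∈ openCell z i
  constructor
  · intro h j hj
    exact lt_of_le_of_ne (hzA i x h j) (hx j i hj)
  · intro h
    have : x ∈ ⋃ i, A i := by rw [hA.cov]; trivial
    obtain ⟨l, hl⟩ := Set.mem_iUnion.1 this
    by_cases hli : l = i
    · rw [← hli]; exact hl
    · exact absurd (h l hli) (not_lt.2 (hzA l x hl i))

lemma sum_setIntegral_openCell [Nonempty ι] {z : ι → E} (hz : Function.Injective z)
    {G : Type*} [NormedAddCommGroup G]
    [NormedSpace ℝ G] {f : E → G} (hf : Integrable f (stdGaussian E)) :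
    ∑ i, ∫ x in openCell z i, f x ∂stdGaussian E = ∫ x, f x ∂stdGaussian E := by
  obtain ⟨A, hA, hzA⟩ := exists_argmax z
  rw [← hA.sum_setIntegral hf]
  refine Finset.sum_congr rfl fun i _ => ?_
  exact (setIntegral_congr_set (openCell_ae_eq hz hA hzA i)).symm

lemma sum_measure_openCell [Nonempty ι] {z : ι → E} (hz : Function.Injective z) :
    ∑ i, (stdGaussian E).real (openCell z i) = 1 := by
  have := sum_setIntegral_openCell hz (f := fun _ : E => (1:ℝ)) (integrable_const _)
  simpa using this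

lemma supI_eq_of_mem_openCell {z : ι → E} {i : ι} {x : E} (hx : x ∈ openCell z i) :
    supI z x = ⟪z i, x⟫ := by
  haveI : Nonempty ι := ⟨i⟩
  refine le_antisymm (supI_le z x fun j => ?_) (le_supI z x i)
  by_cases h : j = i
  · rw [h]
  · exact (hx j h).le

end cells

/-- if the `z i` are pairwise obtuse with zero sum, every linear relation is constant -/
lemma const_of_relation {ι : Type*} [Fintype ι] [Nonempty ι] {z : ι → E}
    (hsum : ∑ i, z i = 0) (hneg : ∀ i j, i ≠ j → ⟪z i, z j⟫ < 0) {a : ι → ℝ}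
    (ha : ∑ i, a i • z i = 0) : ∀ i j, a i = a j := by
  obtain ⟨i0, hi0⟩ := Finite.exists_min a
  have hb : ∑ i, (a i - a i0) • z i = 0 := by
    simp_rw [sub_smul]
    rw [Finset.sum_sub_distrib, ha, ← Finset.smul_sum, hsum, smul_zero, sub_zero]
  have h0 : ∑ i, (a i - a i0) * ⟪z i0, z i⟫ = 0 := by
    have : ⟪z i0, ∑ i, (a i - a i0) • z i⟫ = 0 := by rw [hb, inner_zero_right]
    rw [inner_sum] at this
    simpa [inner_smul_right] using this
  have hle : ∀ i ∈ (Finset.univ : Finset ι), (a i - a i0) * ⟪z i0, z i⟫ ≤ 0 := by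
    intro i _
    by_cases h : i = i0
    · rw [h]; simp
    · exact mul_nonpos_of_nonneg_of_nonpos (sub_nonneg.2 (hi0 i)) (hneg i0 i (Ne.symm h)).le
  have heq : ∀ i, a i = a i0 := by
    intro i
    by_cases h : i = i0
    · rw [h]
    · have h1 := (Finset.sum_eq_zero_iff_of_nonpos hle).1 h0 i (Finset.mem_univ i)
      rcases mul_eq_zero.1 h1 with h2 | h2
      · linarith
      · exact absurd h2 (hneg i0 i (Ne.symm h)).ne
  intro i j
  rw [heq i, heq j]

/-- any target vector with zero sum is realised as the vector of inner products -/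
lemma exists_inner_eq {ι : Type*} [Fintype ι] [Nonempty ι] {z : ι → E}
    (hsum : ∑ i, z i = 0) (hneg : ∀ i j, i ≠ j → ⟪z i, z j⟫ < 0) (t : ι → ℝ)
    (ht : ∑ i, t i = 0) : ∃ v ∈ Submodule.span ℝ (Set.range z), ∀ i, ⟪z i, v⟫ = t i := by
  classical
  -- work in EuclideanSpace
  let T : (ι → ℝ) →ₗ[ℝ] E := Fintype.linearCombination ℝ z
  have hT : ∀ a, T a = ∑ i, a i • z i := fun a => Fintype.linearCombination_apply ℝ z a
  let G : (ι → ℝ) →ₗ[ℝ] (ι → ℝ) := LinearMap.pi fun i => (innerₛₗ ℝ (z i)).comp T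
  have hG : ∀ a i, G a i = ⟪z i, T a⟫ := fun a i => by simp [G]
  -- on the zero-sum hyperplane `H`, `G` is injective with values in `H`
  let H : Submodule ℝ (ι → ℝ) := LinearMap.ker (∑ i, LinearMap.proj i : (ι → ℝ) →ₗ[ℝ] ℝ)
  have hH : ∀ a, a ∈ H ↔ ∑ i, a i = 0 := fun a => by
    simp [H, LinearMap.mem_ker]
  have hGH : ∀ a ∈ H, G a ∈ H := by
    intro a _
    rw [hH]
    simp_rw [hG]
    rw [← sum_inner, hsum, inner_zero_left]
  have hker : ∀ a ∈ H, G a = 0 → a = 0 := by
    intro a ha h0
    have h1 : ⟪T a, T a⟫ = 0 := by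
      conv_lhs => rw [hT a, sum_inner]
      refine Finset.sum_eq_zero fun i _ => ?_
      rw [real_inner_smul_left, ← hT a, ← hG, h0]
      simp
    have h2 : T a = 0 := inner_self_eq_zero.1 h1
    rw [hT] at h2
    have h3 := const_of_relation hsum hneg h2
    have h4 := (hH a).1 ha
    funext i
    have h5 : ∑ j, a j = Fintype.card ι * a i := by
      rw [Finset.sum_congr rfl fun j _ => h3 j i]
      simp
    rw [h5] at h4
    rcases mul_eq_zero.1 h4 with h6 | h6
    · have := Fintype.card_pos (α := ι)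
      exact absurd h6 (by positivity)
    · simpa using h6
  let GH : H →ₗ[ℝ] H := G.restrict hGH
  have hinj : Function.Injective GH := by
    rw [← LinearMap.ker_eq_bot, LinearMap.ker_eq_bot']
    intro a ha
    have : G a = 0 := by
      have := congrArg Subtype.val ha
      simpa [GH] using this
    exact Subtype.ext (hker a a.2 this)
  have hsurj : Function.Surjective GH := LinearMap.injective_iff_surjective.1 hinj
  obtain ⟨a, ha⟩ := hsurj ⟨t, (hH t).2 ht⟩
  refine ⟨T a, ?_, fun i => ?_⟩
  · rw [hT]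
    exact Submodule.sum_mem _ fun i _ => Submodule.smul_mem _ _ (Submodule.subset_span ⟨i, rfl⟩)
  · rw [← hG]
    have := congrArg Subtype.val ha
    have h2 : G a = t := by simpa [GH] using this
    rw [h2]

namespace Crit

variable {ι : Type*} [Fintype ι] [DecidableEq ι] (c : Crit E ι)

/-- cells -/
def A (i : ι) : Set E := openCell c.z i

/-- mass of cells -/
noncomputable def p (i : ι) : ℝ := (stdGaussian E).real (c.A i)

lemma measurableSet_A (i : ι) : MeasurableSet (c.A i) := measurableSet_openCell _ _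

lemma mom_A (i : ι) : mom (c.A i) = c.z i := by
  haveI := c.nonempty
  obtain ⟨B, hB, hz⟩ := exists_argmax c.z
  rw [← c.cell B hB hz i]
  exact (setIntegral_congr_set (openCell_ae_eq c.z_injective hB hz i)).symm

lemma integral_inner_A (w : E) (i : ι) :
    ∫ x in c.A i, ⟪w, x⟫ ∂stdGaussian E = ⟪w, c.z i⟫ := by
  rw [← inner_mom, c.mom_A]

lemma sum_p : ∑ i, c.p i = 1 := by
  haveI := c.nonempty
  exact sum_measure_openCell c.z_injective

lemma p_nonneg (i : ι) : 0 ≤ c.p i := measureReal_nonneg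

lemma sum_integral_A {G : Type*} [NormedAddCommGroup G]
    [NormedSpace ℝ G] {f : E → G} (hf : Integrable f (stdGaussian E)) :
    ∑ i, ∫ x in c.A i, f x ∂stdGaussian E = ∫ x, f x ∂stdGaussian E := by
  haveI := c.nonempty
  exact sum_setIntegral_openCell c.z_injective hf

lemma exists_dual (j : ι) : ∃ v ∈ Submodule.span ℝ (Set.range c.z),
    ∀ i, ⟪c.z i, v⟫ = (if i = j then 1 else 0) - (Fintype.card ι : ℝ)⁻¹ := by
  haveI := c.nonempty
  refine exists_inner_eq c.sum_z (fun i j hij => c.inner_lt hij) _ ?_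
  rw [Finset.sum_sub_distrib]
  have := Fintype.card_pos (α := ι)
  have h : (Fintype.card ι : ℝ) ≠ 0 := by positivity
  simp [h]

/-- dual vectors -/
noncomputable def v (j : ι) : E := (c.exists_dual j).choose

lemma v_mem (j : ι) : c.v j ∈ Submodule.span ℝ (Set.range c.z) := (c.exists_dual j).choose_spec.1

lemma inner_v (i j : ι) : ⟪c.z i, c.v j⟫ = (if i = j then 1 else 0) - (Fintype.card ι : ℝ)⁻¹ :=
  (c.exists_dual j).choose_spec.2 i

/-- `∫_{A_i} ⟪v_j, x⟫ = δ_ij - 1/k`. -/
lemma integral_v_A (i j : ι) : ∫ x in c.A i, ⟪c.v j, x⟫ ∂stdGaussian E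
    = (if i = j then 1 else 0) - (Fintype.card ι : ℝ)⁻¹ := by
  rw [c.integral_inner_A, real_inner_comm, c.inner_v]

/-- translated cell `A_i + t v_i` -/
lemma sub_smul_v_mem_A (i : ι) (t : ℝ) (x : E) :
    x - t • c.v i ∈ c.A i ↔ ∀ j, j ≠ i → ⟪c.z j, x⟫ + t < ⟪c.z i, x⟫ := by
  unfold A openCell
  simp only [mem_ofPred_eq]
  refine forall_congr' fun j => forall_congr' fun hj => ?_
  rw [inner_sub_right, inner_sub_right, inner_smul_right, inner_smul_right, c.inner_v, c.inner_v]
  simp only [hj, if_false, if_true]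
  constructor <;> intro h <;> linarith

include c in
lemma small_of_subset {κ : Type*} [Fintype κ] (f : κ → ι) (hf : Function.Injective f) (j : ι)
    (hj : j ∉ Set.range f) : Good E κ :=
  (c.small j).of_injective (fun l => ⟨f l, fun h => hj ⟨l, h⟩⟩)
    (fun a b hab => hf (by simpa using hab))

/-- deletion bound for an arbitrary proper nonempty subfamily -/
lemma F_subfamily_le (s : Finset ι) (hs : s.Nonempty) (hs' : s ≠ Finset.univ) :
    F (fun i : s => c.z i) ≤
      √cC * √(∑ i ∈ s, ‖c.z i‖ ^ 2 - ‖∑ i ∈ s, c.z i‖ ^ 2 / s.card) := by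
  haveI : Nonempty s := hs.to_subtype
  obtain ⟨j, hj⟩ : ∃ j, j ∉ s := by
    by_contra h
    push Not at h
    exact hs' (Finset.eq_univ_iff_forall.2 h)
  have hG : Good E s := c.small_of_subset (fun i : s => (i : ι)) Subtype.val_injective j
    (by rintro ⟨l, hl⟩; exact hj (hl ▸ l.2))
  have := hG.dual.sub_mean (fun i : s => c.z i)
  rw [Finset.sum_coe_sort s (fun i => ‖c.z i‖ ^ 2), Finset.sum_coe_sort s (fun i => c.z i),
    Fintype.card_coe] at this
  exact this

/-- in terms of the deleted set -/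
lemma F_compl_le (s : Finset ι) (hs : s.Nonempty) (hs' : s ≠ Finset.univ) :
    F (fun i : s => c.z i) ≤
      √cC * √(c.V - ∑ i ∈ sᶜ, ‖c.z i‖ ^ 2 - ‖∑ i ∈ sᶜ, c.z i‖ ^ 2 / s.card) := by
  have h := c.F_subfamily_le s hs hs'
  have e1 : ∑ i ∈ s, ‖c.z i‖ ^ 2 = c.V - ∑ i ∈ sᶜ, ‖c.z i‖ ^ 2 := by
    rw [← c.sumsq, ← Finset.sum_add_sum_compl s]; ring
  have e2 : ∑ i ∈ s, c.z i = - ∑ i ∈ sᶜ, c.z i := by
    rw [eq_neg_iff_add_eq_zero, Finset.sum_add_sum_compl, c.sum_z]
  rw [e1, e2, norm_neg] at h
  exact h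

/-- joint deletion gain as an integral -/
lemma V_sub_F (s : Finset ι) :
    c.V - F (fun i : s => c.z i) = ∫ x, (supI c.z x - supI (fun i : s => c.z i) x) ∂stdGaussian E := by
  rw [← c.F_eq, F, F, integral_sub (integrable_supI _) (integrable_supI _)]

end Crit

end Crest.Agent.R215
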