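import Crest.Agent.R215.TieIneq

/-!
# Row 215: tie inequalities with exact angles (arctan)
-/

set_option autoImplicit false
open MeasureTheory ProbabilityTheory Set Filter Topology
open scoped NNReal ENNReal RealInnerProductSpace

namespace Crest.Agent.R215.Tie

open Crest.Agent.Lib.Ehrhard

/-- the wedge function -/
noncomputable def G (x : ℝ) : ℝ := ∫ w in Ioi (0:ℝ), phi w * (Phi (x * w) - Phi 0)

lemma abs_Phi_sub_le (y : ℝ) : |Phi y - Phi 0| ≤ 1 := by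
  have h1 := Phi_nonneg y
  have h2 := (Phi_lt_one y).le
  have h3 := Phi_nonneg 0
  have h4 := (Phi_lt_one 0).le
  rw [abs_le]; constructor <;> linarith

lemma integral_mul_exp {b : ℝ} (hb : 0 < b) :
    ∫ w in Ioi (0:ℝ), w * Real.exp (-b * w ^ 2) = 1 / (2 * b) := by
  have h1 : ∀ x ∈ Ioi (0:ℝ), HasDerivAt (fun w : ℝ => -(1 / (2 * b)) * Real.exp (-b * w ^ 2))
      (x * Real.exp (-b * x ^ 2)) x := by
    intro x _
    have h2 : HasDerivAt (fun w : ℝ => -b * w ^ 2) (-b * (2 * x)) x := by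
      have := (hasDerivAt_pow 2 x).const_mul (-b)
      simpa using this
    refine ((h2.exp).const_mul (-(1 / (2 * b)))).congr_deriv ?_
    field_simp
  have hint : IntegrableOn (fun w : ℝ => w * Real.exp (-b * w ^ 2)) (Ioi 0) :=
    (integrable_mul_exp_neg_mul_sq hb).integrableOn
  have hlim : Tendsto (fun w : ℝ => -(1 / (2 * b)) * Real.exp (-b * w ^ 2)) atTop (𝓝 (-(1 / (2 * b)) * 0)) := by
    refine Tendsto.const_mul _ ?_
    refine Real.tendsto_exp_atBot.comp ?_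
    refine Tendsto.const_mul_atTop_of_neg (by linarith) ?_
    exact tendsto_pow_atTop two_ne_zero
  have h3 := integral_Ioi_of_hasDerivAt_of_tendsto (a := (0:ℝ))
    (f := fun w : ℝ => -(1 / (2 * b)) * Real.exp (-b * w ^ 2))
    (by fun_prop) h1 hint hlim
  rw [h3]
  simp

lemma hasDerivAt_G (x : ℝ) : HasDerivAt G (1 / (2 * Real.pi) * (1 / (1 + x ^ 2))) x := by
  have key := hasDerivAt_integral_of_dominated_loc_of_deriv_le (s := univ)
    (μ := volume.restrict (Ioi (0:ℝ))) (x₀ := x)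
    (F := fun (x : ℝ) (w : ℝ) => phi w * (Phi (x * w) - Phi 0))
    (F' := fun (x : ℝ) (w : ℝ) => phi w * (phi (x * w) * w))
    (bound := fun w => |w * phi w|) Filter.univ_mem ?_ ?_ ?_ ?_ ?_ ?_
  · refine key.2.congr_deriv ?_
    have e1 : ∀ w : ℝ, phi w * (phi (x * w) * w)
        = (1 / (2 * Real.pi)) * (w * Real.exp (-((1 + x ^ 2) / 2) * w ^ 2)) := by
      intro w
      have hs : √(2 * Real.pi) * √(2 * Real.pi) = 2 * Real.pi := Real.mul_self_sqrt (by positivity)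
      have hs' : (√(2 * Real.pi))⁻¹ * (√(2 * Real.pi))⁻¹ = 1 / (2 * Real.pi) := by
        rw [← mul_inv, hs, one_div]
      unfold phi
      calc (√(2 * Real.pi))⁻¹ * Real.exp (-w ^ 2 / 2) * ((√(2 * Real.pi))⁻¹ * Real.exp (-(x * w) ^ 2 / 2) * w)
          = ((√(2 * Real.pi))⁻¹ * (√(2 * Real.pi))⁻¹)
            * (w * (Real.exp (-w ^ 2 / 2) * Real.exp (-(x * w) ^ 2 / 2))) := by ring
        _ = _ := by
            rw [hs', ← Real.exp_add]
            congr 3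
            ring
    simp_rw [e1]
    rw [integral_const_mul, integral_mul_exp (by positivity)]
    congr 1
    field_simp
  · exact Eventually.of_forall fun y => by
      have : Continuous fun w : ℝ => phi w * (Phi (y * w) - Phi 0) := by
        have h1 := continuous_phi
        have h2 := continuous_Phi
        fun_prop
      exact this.aestronglyMeasurable
  · refine (integrable_phi.restrict (s := Ioi 0)).mono' ?_ ?_
    · have : Continuous fun w : ℝ => phi w * (Phi (x * w) - Phi 0) := by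
        have h1 := continuous_phi
        have h2 := continuous_Phi
        fun_prop
      exact this.aestronglyMeasurable
    · refine Eventually.of_forall fun w => ?_
      rw [norm_mul, Real.norm_of_nonneg (phi_nonneg w), Real.norm_eq_abs]
      calc phi w * |Phi (x * w) - Phi 0| ≤ phi w * 1 :=
            mul_le_mul_of_nonneg_left (abs_Phi_sub_le _) (phi_nonneg w)
        _ = phi w := mul_one _
  · have : Continuous fun w : ℝ => phi w * (phi (x * w) * w) := by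
      have h1 := continuous_phi
      fun_prop
    exact this.aestronglyMeasurable
  · refine Eventually.of_forall fun w y _ => ?_
    rw [norm_mul, norm_mul, Real.norm_of_nonneg (phi_nonneg w), Real.norm_of_nonneg (phi_nonneg _),
      Real.norm_eq_abs, abs_mul, abs_of_nonneg (phi_nonneg w)]
    have h1 := phi_le_one (y * w)
    have h2 := phi_nonneg w
    have h3 := abs_nonneg w
    calc phi w * (phi (y * w) * |w|) ≤ phi w * (1 * |w|) := by gcongr
      _ = |w| * phi w := by ring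
  · exact (integrable_mul_phi.abs).restrict
  · refine Eventually.of_forall fun w y _ => ?_
    have h2 : HasDerivAt (fun y : ℝ => y * w) w y := by
      simpa using (hasDerivAt_id y).mul_const w
    have h3 := (HasDerivAt.comp y (hasDerivAt_Phi (y * w)) h2).sub_const (Phi 0)
    exact h3.const_mul (phi w)

lemma G_eq (x : ℝ) : G x = Real.arctan x / (2 * Real.pi) := by
  have h0 : G 0 = 0 := by simp [G]
  have hd : ∀ y, HasDerivAt (fun y => G y - Real.arctan y / (2 * Real.pi)) 0 y := by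
    intro y
    refine ((hasDerivAt_G y).sub ((Real.hasDerivAt_arctan y).div_const _)).congr_deriv ?_
    ring
  have hc := is_const_of_deriv_eq_zero (fun y => (hd y).differentiableAt) (fun y => (hd y).deriv) x 0
  simp only [h0, Real.arctan_zero, zero_div, sub_self] at hc
  linarith

variable {E : Type*} [NormedAddCommGroup E] [InnerProductSpace ℝ E] [FiniteDimensional ℝ E]
  [MeasurableSpace E] [BorelSpace E]

lemma gamma_Ioc (s : ℝ) (hs : 0 ≤ s) : γ (Ioc 0 s) = ENNReal.ofReal (Phi s - Phi 0) := by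
  rw [← gamma_real_Ioc hs, measureReal_def, ENNReal.ofReal_toReal (by finiteness)]

lemma prod_wedge {x : ℝ} (hx : 0 ≤ x) :
    (γ.prod γ) {y : ℝ × ℝ | y.2 ∈ Ioc 0 (x * y.1)} = ENNReal.ofReal (G x) := by
  have hm : MeasurableSet {y : ℝ × ℝ | y.2 ∈ Ioc 0 (x * y.1)} := by
    have h1 : MeasurableSet {y : ℝ × ℝ | 0 < y.2} := measurableSet_lt (by fun_prop) (by fun_prop)
    have h2 : MeasurableSet {y : ℝ × ℝ | y.2 ≤ x * y.1} := measurableSet_le (by fun_prop) (by fun_prop)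
    exact h1.inter h2
  rw [Measure.prod_apply hm]
  have h1 : ∀ w : ℝ, γ (Prod.mk w ⁻¹' {y : ℝ × ℝ | y.2 ∈ Ioc 0 (x * y.1)})
      = ENNReal.ofReal ((Ioi (0:ℝ)).indicator (fun w => Phi (x * w) - Phi 0) w) := by
    intro w
    have e : Prod.mk w ⁻¹' {y : ℝ × ℝ | y.2 ∈ Ioc 0 (x * y.1)} = Ioc 0 (x * w) := by
      ext t; simp
    rw [e]
    by_cases hw : 0 < w
    · rw [gamma_Ioc _ (by positivity), indicator_of_mem (by exact hw)]
    · rw [indicator_of_notMem (by exact hw), Ioc_eq_empty (by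
        rw [not_lt]; exact mul_nonpos_of_nonneg_of_nonpos hx (not_lt.1 hw))]
      simp
  simp_rw [h1]
  have hnn : ∀ w : ℝ, 0 ≤ (Ioi (0:ℝ)).indicator (fun w => Phi (x * w) - Phi 0) w := by
    intro w
    refine indicator_nonneg (fun w hw => ?_) w
    have : Phi 0 ≤ Phi (x * w) := strictMono_Phi.monotone (mul_nonneg hx (le_of_lt hw))
    linarith
  have hmeas : Measurable ((Ioi (0:ℝ)).indicator (fun w => Phi (x * w) - Phi 0)) := by
    refine Measurable.indicator ?_ measurableSet_Ioi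
    exact ((continuous_Phi.measurable.comp (by fun_prop)).sub_const _)
  have hint : Integrable ((Ioi (0:ℝ)).indicator (fun w => Phi (x * w) - Phi 0)) γ := by
    refine Integrable.mono' (integrable_const (1:ℝ)) hmeas.aestronglyMeasurable ?_
    refine Eventually.of_forall fun w => ?_
    rw [Real.norm_eq_abs]
    by_cases hw : w ∈ Ioi (0:ℝ)
    · rw [indicator_of_mem hw]; exact abs_Phi_sub_le _
    · rw [indicator_of_notMem hw]; simp
  rw [← ofReal_integral_eq_lintegral_ofReal hint (Eventually.of_forall hnn)]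
  congr 1
  rw [integral_gaussianReal_eq_integral_smul (by norm_num : (1:ℝ≥0) ≠ 0), ← phi_eq]
  simp_rw [smul_eq_mul]
  have h2 : ∀ w : ℝ, phi w * (Ioi (0:ℝ)).indicator (fun w => Phi (x * w) - Phi 0) w
      = (Ioi (0:ℝ)).indicator (fun w => phi w * (Phi (x * w) - Phi 0)) w := by
    intro w
    by_cases hw : w ∈ Ioi (0:ℝ)
    · rw [indicator_of_mem hw, indicator_of_mem hw]
    · rw [indicator_of_notMem hw, indicator_of_notMem hw, mul_zero]
  simp_rw [h2]
  rw [integral_indicator measurableSet_Ioi]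
  rfl

lemma arctan_nonneg' {x : ℝ} (hx : 0 ≤ x) : 0 ≤ Real.arctan x := Real.arctan_nonneg.2 hx

/-- exact wedge probability (as an upper bound) -/
lemma wedge_arctan {a w : E} (ha : a ≠ 0) (haw : ⟪a, w⟫ = 0) {c : ℝ} (hc : 0 < c) :
    (stdGaussian E).real {x | 0 < ⟪a, x⟫ ∧ c * ⟪a, x⟫ ≤ ⟪w, x⟫}
      ≤ Real.arctan (‖w‖ / (c * ‖a‖)) / (2 * Real.pi) := by
  have han : 0 < ‖a‖ := norm_pos_iff.2 ha
  rcases eq_or_ne w 0 with hw | hw
  · have : {x : E | 0 < ⟪a, x⟫ ∧ c * ⟪a, x⟫ ≤ ⟪w, x⟫} = ∅ := by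
      ext x
      simp only [hw, inner_zero_left, mem_ofPred_eq, mem_empty_iff_false, iff_false, not_and, not_le]
      intro h; positivity
    rw [this]
    simp only [measureReal_empty]
    exact div_nonneg (arctan_nonneg' (by positivity)) (by positivity)
  · have hwn : 0 < ‖w‖ := norm_pos_iff.2 hw
    set a' := ‖a‖⁻¹ • a with ha'
    set w' := ‖w‖⁻¹ • w with hw'
    have hua : ‖a'‖ = 1 := by rw [ha', norm_smul, norm_inv, norm_norm, inv_mul_cancel₀ han.ne']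
    have huw : ‖w'‖ = 1 := by rw [hw', norm_smul, norm_inv, norm_norm, inv_mul_cancel₀ hwn.ne']
    have horth : ⟪w', a'⟫ = 0 := by
      rw [ha', hw', real_inner_smul_left, real_inner_smul_right, real_inner_comm, haw]; simp
    have hind : IndepFun (fun x : E => ⟪w', x⟫) (fun x : E => ⟪a', x⟫) (stdGaussian E) := by
      have h1 := indep_forms (E := E) (κ := Unit) (e := w') (u := fun _ => a') (fun _ => horth)
      exact h1.comp (φ := id) (ψ := fun f : Unit → ℝ => f ()) measurable_id (by fun_prop)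
    have hprod := (indepFun_iff_map_prod_eq_prod_map_map (by fun_prop) (by fun_prop)).1 hind
    rw [CM.map_inner_unit hua, CM.map_inner_unit huw] at hprod
    have hx : 0 ≤ ‖w‖ / (c * ‖a‖) := by positivity
    have hm : MeasurableSet {y : ℝ × ℝ | y.2 ∈ Ioc 0 (‖w‖ / (c * ‖a‖) * y.1)} := by
      have h1 : MeasurableSet {y : ℝ × ℝ | 0 < y.2} := measurableSet_lt (by fun_prop) (by fun_prop)
      have h2 : MeasurableSet {y : ℝ × ℝ | y.2 ≤ ‖w‖ / (c * ‖a‖) * y.1} :=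
        measurableSet_le (by fun_prop) (by fun_prop)
      exact h1.inter h2
    have e1 : (stdGaussian E) {x | 0 < ⟪a, x⟫ ∧ c * ⟪a, x⟫ ≤ ⟪w, x⟫}
        = (γ.prod γ) {y : ℝ × ℝ | y.2 ∈ Ioc 0 (‖w‖ / (c * ‖a‖) * y.1)} := by
      rw [← hprod, Measure.map_apply (by fun_prop) hm]
      congr 1
      ext x
      simp only [mem_ofPred_eq, mem_preimage, mem_Ioc, ha', hw', real_inner_smul_left]
      have e2 : ‖w‖ / (c * ‖a‖) * (‖w‖⁻¹ * ⟪w, x⟫) = ‖a‖⁻¹ * (⟪w, x⟫ / c) := by field_simp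
      rw [e2]
      have hinv : 0 < ‖a‖⁻¹ := by positivity
      rw [mul_le_mul_iff_right₀ hinv, le_div_iff₀ hc, mul_comm ⟪a, x⟫ c]
      constructor
      · rintro ⟨h1, h2⟩; exact ⟨by positivity, h2⟩
      · rintro ⟨h1, h2⟩; exact ⟨(mul_pos_iff_of_pos_left hinv).1 h1, h2⟩
    rw [measureReal_def, e1, prod_wedge hx, G_eq, ENNReal.toReal_ofReal]
    exact div_nonneg (arctan_nonneg' hx) (by positivity)

section crit

variable {ι : Type*} [Fintype ι] [DecidableEq ι] (c : Crit E ι)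

/-- bound for a single term, exact angle -/
lemma term_arctan {j l i : ι} (hjl : j ≠ l) (h3 : ∃ i, i ≠ j ∧ i ≠ l)
    (hpos : ⟪foot c.z j l, c.z i⟫ < ‖foot c.z j l‖ ^ 2) :
    (stdGaussian E).real {x | 0 < ⟪foot c.z j l, x⟫ ∧ 0 ≤ ⟪perp c.z j l i, x⟫}
      ≤ Real.arctan (√(‖perp c.z j l i‖ ^ 2 * ‖foot c.z j l‖ ^ 2
          - ⟪perp c.z j l i, foot c.z j l⟫ ^ 2) /
        (‖foot c.z j l‖ ^ 2 - ⟪foot c.z j l, c.z i⟫)) / (2 * Real.pi) := by
  set a := foot c.z j l with ha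
  set u := perp c.z j l i with hu
  have ha0 : a ≠ 0 := foot_ne_zero c hjl h3
  have han : 0 < ‖a‖ := norm_pos_iff.2 ha0
  have hua : ⟪u, a⟫ = ⟪a, c.z i⟫ - ‖a‖ ^ 2 := inner_perp_foot c hjl
  set w := u - (⟪u, a⟫ / ‖a‖ ^ 2) • a with hw
  have haw : ⟪a, w⟫ = 0 := by
    rw [hw, inner_sub_right, real_inner_smul_right, real_inner_self_eq_norm_sq,
      div_mul_cancel₀ _ (by positivity), real_inner_comm, sub_self]
  have hc : 0 < (‖a‖ ^ 2 - ⟪a, c.z i⟫) / ‖a‖ ^ 2 := div_pos (by linarith) (by positivity)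
  have h := wedge_arctan ha0 haw hc
  have hset : {x | 0 < ⟪a, x⟫ ∧ 0 ≤ ⟪u, x⟫}
      = {x | 0 < ⟪a, x⟫ ∧ (‖a‖ ^ 2 - ⟪a, c.z i⟫) / ‖a‖ ^ 2 * ⟪a, x⟫ ≤ ⟪w, x⟫} := by
    ext x
    simp only [mem_ofPred_eq]
    have : ⟪w, x⟫ = ⟪u, x⟫ + (‖a‖ ^ 2 - ⟪a, c.z i⟫) / ‖a‖ ^ 2 * ⟪a, x⟫ := by
      rw [hw, inner_sub_left, real_inner_smul_left, hua]; ring
    rw [this]
    constructor <;> rintro ⟨h1, h2⟩ <;> exact ⟨h1, by linarith⟩
  rw [hset]
  refine h.trans (le_of_eq ?_)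
  have hwn : ‖w‖ = √(‖u‖ ^ 2 * ‖a‖ ^ 2 - ⟪u, a⟫ ^ 2) / ‖a‖ := by
    rw [eq_div_iff han.ne', ← Real.sqrt_sq (by positivity : 0 ≤ ‖w‖ * ‖a‖), mul_pow]
    congr 1
    rw [hw, norm_sub_sq_real, real_inner_smul_right, norm_smul, mul_pow, Real.norm_eq_abs, sq_abs]
    field_simp
    ring
  rw [hwn]
  congr 2
  field_simp

/-- small cells -/
lemma term_small_arctan {j l i : ι} (hjl : j ≠ l) (hij : i ≠ j) (hil : i ≠ l) :
    (stdGaussian E).real {x | 0 < ⟪foot c.z j l, x⟫ ∧ 0 ≤ ⟪perp c.z j l i, x⟫}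
      ≤ Real.arctan (‖c.z i‖ / ‖foot c.z j l‖) / (2 * Real.pi) := by
  have h3 : ∃ i, i ≠ j ∧ i ≠ l := ⟨i, hij, hil⟩
  have hneg := inner_foot_neg c hjl hij hil
  have ha0 : foot c.z j l ≠ 0 := foot_ne_zero c hjl h3
  have han : 0 < ‖foot c.z j l‖ := norm_pos_iff.2 ha0
  refine (term_arctan c hjl h3 (by nlinarith [sq_nonneg ‖foot c.z j l‖])).trans ?_
  have hperp : perp c.z j l i = (-1 : ℝ) • foot c.z j l + (c.z i -
      (⟪c.z j - c.z l, c.z i⟫ / ‖c.z j - c.z l‖ ^ 2) • (c.z j - c.z l)) := by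
    rw [perp, foot, inner_sub_right, sub_div, sub_smul, neg_one_smul]; abel
  have hg := gram_le (-1) _ (inner_foot c hjl) (proj_orth c hjl (c.z i))
  rw [← hperp] at hg
  have h4 : √(‖perp c.z j l i‖ ^ 2 * ‖foot c.z j l‖ ^ 2 - ⟪perp c.z j l i, foot c.z j l⟫ ^ 2)
      ≤ ‖c.z i‖ * ‖foot c.z j l‖ := by
    rw [Real.sqrt_le_left (by positivity)]
    nlinarith [sq_nonneg ⟪c.z i, foot c.z j l⟫]
  have hpi := Real.pi_pos
  refine div_le_div_of_nonneg_right (Real.arctan_strictMono.monotone ?_) (by positivity)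
  rw [div_le_div_iff₀ (by nlinarith [pow_pos han 2]) han]
  calc √(‖perp c.z j l i‖ ^ 2 * ‖foot c.z j l‖ ^ 2 - ⟪perp c.z j l i, foot c.z j l⟫ ^ 2)
        * ‖foot c.z j l‖
      ≤ (‖c.z i‖ * ‖foot c.z j l‖) * ‖foot c.z j l‖ :=
        mul_le_mul_of_nonneg_right h4 (by positivity)
    _ = ‖c.z i‖ * ‖foot c.z j l‖ ^ 2 := by ring
    _ ≤ ‖c.z i‖ * (‖foot c.z j l‖ ^ 2 - ⟪foot c.z j l, c.z i⟫) := by
        refine mul_le_mul_of_nonneg_left ?_ (norm_nonneg _)
        linarith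

/-- the third big cell; `s` is the sum of the remaining vectors -/
lemma term_third_arctan {j l m : ι} (hjl : j ≠ l) (hmj : m ≠ j) (hml : m ≠ l) {s : E}
    (hs : c.z m = -(c.z j + c.z l + s)) (hsn : ‖s‖ < 3 * ‖foot c.z j l‖) :
    (stdGaussian E).real {x | 0 < ⟪foot c.z j l, x⟫ ∧ 0 ≤ ⟪perp c.z j l m, x⟫}
      ≤ Real.arctan (‖s‖ / √(9 * ‖foot c.z j l‖ ^ 2 - ‖s‖ ^ 2)) / (2 * Real.pi) := by
  have h3 : ∃ i, i ≠ j ∧ i ≠ l := ⟨m, hmj, hml⟩
  have hneg := inner_foot_neg c hjl hmj hml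
  have ha0 : foot c.z j l ≠ 0 := foot_ne_zero c hjl h3
  have han : 0 < ‖foot c.z j l‖ := norm_pos_iff.2 ha0
  refine (term_arctan c hjl h3 (by nlinarith [sq_nonneg ‖foot c.z j l‖])).trans ?_
  have hperp : perp c.z j l m = (-3 : ℝ) • foot c.z j l + ((-s) -
      (⟪c.z j - c.z l, -s⟫ / ‖c.z j - c.z l‖ ^ 2) • (c.z j - c.z l)) := by
    have e1 : ⟪c.z j - c.z l, c.z m - c.z j⟫ = ⟪c.z j - c.z l, -s⟫ - 3 * ⟪c.z j - c.z l, c.z j⟫
        + ‖c.z j - c.z l‖ ^ 2 := by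
      rw [hs]
      have e2 : -(c.z j + c.z l + s) - c.z j = -s - (3:ℝ) • c.z j + (c.z j - c.z l) := by
        module
      rw [e2, inner_add_right, inner_sub_right, real_inner_smul_right, real_inner_self_eq_norm_sq]
    have hn := norm_sub_pos c hjl
    have e3 : (⟪c.z j - c.z l, -s⟫ - 3 * ⟪c.z j - c.z l, c.z j⟫ + ‖c.z j - c.z l‖ ^ 2)
        / ‖c.z j - c.z l‖ ^ 2 = ⟪c.z j - c.z l, -s⟫ / ‖c.z j - c.z l‖ ^ 2
          - 3 * (⟪c.z j - c.z l, c.z j⟫ / ‖c.z j - c.z l‖ ^ 2) + 1 := by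
      field_simp
    rw [perp, foot, e1, e3, hs]
    module
  have hg := gram_le (-3) _ (inner_foot c hjl) (proj_orth c hjl (-s))
  rw [← hperp, norm_neg, inner_neg_left, neg_sq] at hg
  set a := foot c.z j l with ha
  have hma : ⟪a, c.z m⟫ = -(2 * ‖a‖ ^ 2 + ⟪s, a⟫) := by
    rw [hs, inner_neg_right, inner_add_right, inner_add_right, inner_foot_left c hjl,
      inner_foot_right c hjl, real_inner_comm s]
    ring
  rw [hma]
  set t := ⟪s, a⟫ with ht
  have hts : t ^ 2 ≤ ‖s‖ ^ 2 * ‖a‖ ^ 2 := by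
    have := abs_real_inner_le_norm s a
    rw [← mul_pow, ← sq_abs]
    exact pow_le_pow_left₀ (abs_nonneg _) this 2
  have hpi := Real.pi_pos
  have htl : -(‖s‖ * ‖a‖) ≤ t := by
    have := abs_real_inner_le_norm s a
    exact (abs_le.1 this).1
  have hden : 0 < 3 * ‖a‖ ^ 2 + t := by nlinarith
  have hR : 0 < 9 * ‖a‖ ^ 2 - ‖s‖ ^ 2 := by nlinarith [norm_nonneg s]
  have hRs : 0 < √(9 * ‖a‖ ^ 2 - ‖s‖ ^ 2) := Real.sqrt_pos.2 hR
  have h5 : √(‖perp c.z j l m‖ ^ 2 * ‖a‖ ^ 2 - ⟪perp c.z j l m, a⟫ ^ 2)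
      * √(9 * ‖a‖ ^ 2 - ‖s‖ ^ 2) ≤ ‖s‖ * (3 * ‖a‖ ^ 2 + t) := by
    rw [← Real.sqrt_mul' _ hR.le, Real.sqrt_le_left (by positivity)]
    calc (‖perp c.z j l m‖ ^ 2 * ‖a‖ ^ 2 - ⟪perp c.z j l m, a⟫ ^ 2) * (9 * ‖a‖ ^ 2 - ‖s‖ ^ 2)
        ≤ (‖s‖ ^ 2 * ‖a‖ ^ 2 - t ^ 2) * (9 * ‖a‖ ^ 2 - ‖s‖ ^ 2) :=
          mul_le_mul_of_nonneg_right hg hR.le
      _ ≤ (‖s‖ * (3 * ‖a‖ ^ 2 + t)) ^ 2 := by nlinarith [sq_nonneg (‖s‖ ^ 2 + 3 * t)]
  have e4 : ‖a‖ ^ 2 - -(2 * ‖a‖ ^ 2 + t) = 3 * ‖a‖ ^ 2 + t := by ring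
  rw [e4]
  refine div_le_div_of_nonneg_right (Real.arctan_strictMono.monotone ?_) (by positivity)
  rw [div_le_div_iff₀ hden hRs]
  exact h5

/-- **B-B tie inequality**, exact angles -/
theorem bb_tie_arctan {j l m : ι} (hjl : j ≠ l) (hmj : m ≠ j) (hml : m ≠ l)
    (hsn : ‖∑ i ∈ ((Finset.univ.erase j).erase l).erase m, c.z i‖ < 3 * ‖foot c.z j l‖) :
    1 / 2 - √(2 * Real.pi) * ‖c.z j - c.z l‖ / Fintype.card ι ≤
      (∑ i ∈ ((Finset.univ.erase j).erase l).erase m, Real.arctan (‖c.z i‖ / ‖foot c.z j l‖)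
        + Real.arctan (‖∑ i ∈ ((Finset.univ.erase j).erase l).erase m, c.z i‖ /
          √(9 * ‖foot c.z j l‖ ^ 2 - ‖∑ i ∈ ((Finset.univ.erase j).erase l).erase m, c.z i‖ ^ 2)))
        / (2 * Real.pi) := by
  have h := tieSet_ge c hjl ⟨m, hmj, hml⟩
  rw [tie_crit c hjl] at h
  set S := ((Finset.univ.erase j).erase l).erase m with hS
  set s := ∑ i ∈ S, c.z i with hs
  have hmem : m ∈ (Finset.univ.erase j).erase l := by simp [hmj, hml]
  have hlmem : l ∈ Finset.univ.erase j := by simp [hjl.symm]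
  have hsum : c.z m = -(c.z j + c.z l + s) := by
    have h1 := c.sum_z
    rw [← Finset.add_sum_erase _ _ (Finset.mem_univ j), ← Finset.add_sum_erase _ _ hlmem,
      ← Finset.add_sum_erase _ _ hmem, ← hS, ← hs] at h1
    rw [eq_neg_iff_add_eq_zero, ← h1]; abel
  rw [← Finset.add_sum_erase _ _ hmem, ← hS] at h
  have h1 := term_third_arctan c hjl hmj hml hsum hsn
  have h2 : ∑ i ∈ S, (stdGaussian E).real {x | 0 < ⟪foot c.z j l, x⟫ ∧ 0 ≤ ⟪perp c.z j l i, x⟫}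
      ≤ ∑ i ∈ S, Real.arctan (‖c.z i‖ / ‖foot c.z j l‖) / (2 * Real.pi) := by
    refine Finset.sum_le_sum fun i hi => ?_
    simp only [hS, Finset.mem_erase] at hi
    exact term_small_arctan c hjl hi.2.2.1 hi.2.1
  rw [← Finset.sum_div] at h2
  rw [add_div]
  linarith

end crit

end Crest.Agent.R215.Tie
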