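import Crest.Agent.R215.CM
import Crest.Agent.R215.GainCell
import Crest.Agent.R215.Struct

/-!
# Row 215: tie densities

Independence of orthogonal linear forms of a standard Gaussian vector, small strips, and the limit
`P(0 < ⟪e, x⟫ ≤ t, ⟪w i, x⟫ < 0 ∀ i) / t → P(⟪u i, x⟫ < 0 ∀ i) / (√(2π) ‖e‖)`,
`u i` the component of `w i` orthogonal to `e`.
-/

set_option autoImplicit false
open MeasureTheory ProbabilityTheory Set Filter Topology
open scoped NNReal ENNReal RealInnerProductSpace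

namespace Crest.Agent.R215.Tie

open Crest.Agent.Lib.Ehrhard

variable {E : Type*} [NormedAddCommGroup E] [InnerProductSpace ℝ E] [FiniteDimensional ℝ E]
  [MeasurableSpace E] [BorelSpace E]

lemma cov_inner (p q : E) : cov[fun x : E => ⟪p, x⟫, fun x => ⟪q, x⟫; stdGaussian E] = ⟪p, q⟫ := by
  rw [← covarianceBilin_apply_eq_cov, covarianceBilin_stdGaussian]
  · rfl
  · exact IsGaussian.memLp_two_id

/-- independence of the component along `e` and a family of forms orthogonal to `e` -/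
lemma indep_forms {κ : Type*} [Fintype κ] {e : E} {u : κ → E} (hu : ∀ i, ⟪e, u i⟫ = 0) :
    IndepFun (fun x : E => ⟪e, x⟫) (fun (x : E) (i : κ) => ⟪u i, x⟫) (stdGaussian E) := by
  have hL : HasGaussianLaw (fun x : E => ((fun (_ : Unit) => ⟪e, x⟫), (fun (i : κ) => ⟪u i, x⟫)))
      (stdGaussian E) := by
    have h := (IsGaussian.hasGaussianLaw_id (μ := stdGaussian E)).map_fun
      ((ContinuousLinearMap.pi (fun (_ : Unit) => innerSL ℝ e)).prod
        (ContinuousLinearMap.pi (fun i : κ => innerSL ℝ (u i))))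
    exact h
  have h2 := HasGaussianLaw.indepFun_of_covariance_eval (X := fun (_ : Unit) (x : E) => ⟪e, x⟫)
    (Y := fun (i : κ) (x : E) => ⟪u i, x⟫) hL (fun _ i => by rw [cov_inner, hu])
  exact h2.comp (φ := fun f : Unit → ℝ => f ()) (ψ := id) (by fun_prop) measurable_id

/-- product formula -/
lemma measure_strip_inter {κ : Type*} [Fintype κ] {e : E} {u : κ → E} (hu : ∀ i, ⟪e, u i⟫ = 0)
    {I : Set ℝ} (hI : MeasurableSet I) {B : Set (κ → ℝ)} (hB : MeasurableSet B) :
    (stdGaussian E).real {x | ⟪e, x⟫ ∈ I ∧ (fun i => ⟪u i, x⟫) ∈ B}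
      = (stdGaussian E).real {x | ⟪e, x⟫ ∈ I} * (stdGaussian E).real {x | (fun i => ⟪u i, x⟫) ∈ B} := by
  have h := (indep_forms hu).measure_inter_preimage_eq_mul I B hI hB
  rw [measureReal_def, measureReal_def, measureReal_def, ← ENNReal.toReal_mul]
  exact congrArg ENNReal.toReal h

lemma gamma_real_Ioc {s : ℝ} (hs : 0 ≤ s) : (γ).real (Ioc 0 s) = Phi s - Phi 0 := by
  rw [measureReal_def, gaussianReal_apply_eq_integral 0 one_ne_zero, ← phi_eq,
    ENNReal.toReal_ofReal (integral_nonneg fun x => phi_nonneg x), Phi_eq_add s,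
    intervalIntegral.integral_of_le hs]
  ring

lemma measurable_inner' (e : E) : Measurable fun x : E => ⟪e, x⟫ := by fun_prop

lemma strip_eq {e : E} (he : e ≠ 0) {t : ℝ} (ht : 0 ≤ t) :
    (stdGaussian E).real {x | ⟪e, x⟫ ∈ Ioc 0 t} = Phi (t / ‖e‖) - Phi 0 := by
  have hn : 0 < ‖e‖ := norm_pos_iff.2 he
  have hu : ‖(‖e‖⁻¹ • e)‖ = 1 := by
    rw [norm_smul, norm_inv, norm_norm, inv_mul_cancel₀ hn.ne']
  rw [← gamma_real_Ioc (by positivity : 0 ≤ t / ‖e‖), ← CM.map_inner_unit hu,
    map_measureReal_apply (by fun_prop) measurableSet_Ioc]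
  congr 1
  ext x
  simp only [mem_ofPred_eq, mem_preimage, mem_Ioc, real_inner_smul_left]
  rw [le_div_iff₀ hn, inv_mul_eq_div, div_mul_cancel₀ _ hn.ne']
  constructor
  · rintro ⟨h1, h2⟩; exact ⟨by positivity, h2⟩
  · rintro ⟨h1, h2⟩
    refine ⟨?_, h2⟩
    by_contra hc
    push Not at hc
    have := div_nonpos_of_nonpos_of_nonneg hc hn.le
    linarith

lemma tendsto_strip {e : E} (he : e ≠ 0) :
    Tendsto (fun t : ℝ => (stdGaussian E).real {x | ⟪e, x⟫ ∈ Ioc 0 t} / t) (𝓝[>] 0)
      (𝓝 (1 / (√(2 * Real.pi) * ‖e‖))) := by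
  have hn : 0 < ‖e‖ := norm_pos_iff.2 he
  have h1 : HasDerivAt (fun t : ℝ => Phi (t / ‖e‖)) (phi 0 * (1 / ‖e‖)) 0 := by
    have h2 : HasDerivAt (fun t : ℝ => t / ‖e‖) (1 / ‖e‖) 0 := (hasDerivAt_id (0:ℝ)).div_const _
    have h3 := hasDerivAt_Phi (0 / ‖e‖)
    rw [zero_div] at h3
    exact HasDerivAt.comp (0:ℝ) (by simpa using h3) h2
  have h4 := (hasDerivAt_iff_tendsto_slope_zero.1 h1).mono_left (nhdsGT_le_nhdsNE 0)
  have e1 : phi 0 * (1 / ‖e‖) = 1 / (√(2 * Real.pi) * ‖e‖) := by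
    simp [phi]; ring
  rw [← e1]
  refine h4.congr' ?_
  filter_upwards [self_mem_nhdsWithin] with t ht
  rw [strip_eq he (le_of_lt ht)]
  simp only [zero_add, zero_div, smul_eq_mul]
  rw [inv_mul_eq_div]

lemma hyperplane_null {u : E} (hu : u ≠ 0) : stdGaussian E {x | ⟪u, x⟫ = 0} = 0 := by
  have hn : 0 < ‖u‖ ^ 2 := by have := norm_pos_iff.2 hu; positivity
  refine GainCell.no_atoms (D := fun x => ⟪u, x⟫) (by fun_prop) (v := (‖u‖ ^ 2)⁻¹ • u)
    (fun x t => ?_) 0
  rw [inner_add_right, real_inner_smul_right, real_inner_smul_right, real_inner_self_eq_norm_sq]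
  field_simp

lemma measurableSet_forall_lt {κ : Type*} [Fintype κ] (u : κ → E) (s : ℝ) :
    MeasurableSet {x : E | ∀ i, ⟪u i, x⟫ < s} := by
  rw [Set.ofPred_forall]
  exact MeasurableSet.iInter fun i => measurableSet_lt (by fun_prop) (by fun_prop)

/-- continuity at `0` of the distribution function of the maximum -/
lemma tendsto_max_lt {κ : Type*} [Fintype κ] {u : κ → E} (hu : ∀ i, u i ≠ 0) :
    Tendsto (fun s : ℝ => (stdGaussian E).real {x | ∀ i, ⟪u i, x⟫ < s}) (𝓝 0)
      (𝓝 ((stdGaussian E).real {x | ∀ i, ⟪u i, x⟫ < 0})) := by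
  have h : Tendsto (fun s : ℝ => (stdGaussian E) {x | ∀ i, ⟪u i, x⟫ < s}) (𝓝 0)
      (𝓝 ((stdGaussian E) {x | ∀ i, ⟪u i, x⟫ < 0})) := by
    refine tendsto_measure_of_ae_tendsto_indicator_of_isFiniteMeasure _
      (measurableSet_forall_lt u 0) (fun s => measurableSet_forall_lt u s) ?_
    have hae : ∀ᵐ x ∂stdGaussian E, ∀ i, ⟪u i, x⟫ ≠ 0 := by
      rw [ae_all_iff]
      intro i
      exact measure_eq_zero_iff_ae_notMem.1 (hyperplane_null (hu i))
    filter_upwards [hae] with x hx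
    have h1 : ∀ i, ∀ᶠ s : ℝ in 𝓝 0, (⟪u i, x⟫ < s ↔ ⟪u i, x⟫ < 0) := by
      intro i
      rcases lt_or_gt_of_ne (hx i) with h | h
      · filter_upwards [lt_mem_nhds h] with s hs
        exact ⟨fun _ => h, fun _ => hs⟩
      · filter_upwards [gt_mem_nhds h] with s hs
        exact ⟨fun h' => absurd (h'.trans hs) (lt_irrefl _), fun h' => absurd (h'.trans h) (lt_irrefl _)⟩
    filter_upwards [eventually_all.2 h1] with s hs
    simp only [hs]
  exact (ENNReal.tendsto_toReal (by finiteness)).comp h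

/-- **limit of the strip probability** -/
theorem tendsto_tie {κ : Type*} [Fintype κ] {e : E} (he : e ≠ 0) {u : κ → E}
    (hu : ∀ i, ⟪e, u i⟫ = 0) (hu0 : ∀ i, u i ≠ 0) (β : κ → ℝ) :
    Tendsto (fun t : ℝ => (stdGaussian E).real
      {x | ⟪e, x⟫ ∈ Ioc 0 t ∧ ∀ i, ⟪u i + β i • e, x⟫ < 0} / t) (𝓝[>] 0)
      (𝓝 ((1 / (√(2 * Real.pi) * ‖e‖)) * (stdGaussian E).real {x | ∀ i, ⟪u i, x⟫ < 0})) := by
  set B : ℝ := ∑ i, |β i| with hB
  have hBi : ∀ i, |β i| ≤ B := fun i => Finset.single_le_sum (f := fun i => |β i|)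
    (fun j _ => abs_nonneg _) (Finset.mem_univ i)
  have hset : ∀ s : ℝ, MeasurableSet {f : κ → ℝ | ∀ i, f i < s} := by
    intro s
    rw [Set.ofPred_forall]
    exact MeasurableSet.iInter fun i => measurableSet_lt (by fun_prop) (by fun_prop)
  have hprod : ∀ (t s : ℝ), (stdGaussian E).real {x | ⟪e, x⟫ ∈ Ioc 0 t ∧ ∀ i, ⟪u i, x⟫ < s}
      = (stdGaussian E).real {x | ⟪e, x⟫ ∈ Ioc 0 t} * (stdGaussian E).real {x | ∀ i, ⟪u i, x⟫ < s} :=
    fun t s => measure_strip_inter hu measurableSet_Ioc (hset s)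
  have hlim : ∀ c : ℝ, Tendsto (fun t : ℝ => ((stdGaussian E).real {x | ⟪e, x⟫ ∈ Ioc 0 t} / t)
      * (stdGaussian E).real {x | ∀ i, ⟪u i, x⟫ < c * t}) (𝓝[>] 0)
      (𝓝 ((1 / (√(2 * Real.pi) * ‖e‖)) * (stdGaussian E).real {x | ∀ i, ⟪u i, x⟫ < 0})) := by
    intro c
    refine (tendsto_strip he).mul ?_
    refine (tendsto_max_lt hu0).comp ?_
    have : Tendsto (fun t : ℝ => c * t) (𝓝 0) (𝓝 (c * 0)) := by
      exact (continuous_const.mul continuous_id).tendsto 0
    rw [mul_zero] at this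
    exact this.mono_left nhdsWithin_le_nhds
  refine tendsto_of_tendsto_of_tendsto_of_le_of_le' (hlim (-B)) (hlim B) ?_ ?_
  · filter_upwards [self_mem_nhdsWithin] with t ht
    have ht' : (0:ℝ) < t := ht
    rw [div_mul_eq_mul_div, ← hprod]
    refine div_le_div_of_nonneg_right ?_ ht'.le
    refine measureReal_mono ?_ (by finiteness)
    rintro x ⟨⟨h1, h2⟩, h3⟩
    refine ⟨⟨h1, h2⟩, fun i => ?_⟩
    have h4 := h3 i
    rw [inner_add_left, real_inner_smul_left]
    have h5 : β i * ⟪e, x⟫ ≤ B * t := by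
      calc β i * ⟪e, x⟫ ≤ |β i| * ⟪e, x⟫ := mul_le_mul_of_nonneg_right (le_abs_self _) h1.le
        _ ≤ B * t := mul_le_mul (hBi i) h2 h1.le ((abs_nonneg _).trans (hBi i))
    linarith
  · filter_upwards [self_mem_nhdsWithin] with t ht
    have ht' : (0:ℝ) < t := ht
    rw [div_mul_eq_mul_div, ← hprod]
    refine div_le_div_of_nonneg_right ?_ ht'.le
    refine measureReal_mono ?_ (by finiteness)
    rintro x ⟨⟨h1, h2⟩, h3⟩
    refine ⟨⟨h1, h2⟩, fun i => ?_⟩
    have h4 := h3 i
    rw [inner_add_left, real_inner_smul_left] at h4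
    have h5 : -(β i) * ⟪e, x⟫ ≤ B * t := by
      calc -(β i) * ⟪e, x⟫ ≤ |β i| * ⟪e, x⟫ := mul_le_mul_of_nonneg_right (neg_le_abs _) h1.le
        _ ≤ B * t := mul_le_mul (hBi i) h2 h1.le ((abs_nonneg _).trans (hBi i))
    linarith

section cells

variable {ι : Type*}

/-- component of `z i - z j` orthogonal to `z j - z l` -/
noncomputable def perp (z : ι → E) (j l i : ι) : E :=
  (z i - z j) - (⟪z j - z l, z i - z j⟫ / ‖z j - z l‖ ^ 2) • (z j - z l)

omit [FiniteDimensional ℝ E] [MeasurableSpace E] [BorelSpace E] in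
lemma inner_perp {z : ι → E} {j l : ι} (h : z j ≠ z l) (i : ι) : ⟪z j - z l, perp z j l i⟫ = 0 := by
  have hn : ‖z j - z l‖ ^ 2 ≠ 0 := by
    have := norm_pos_iff.2 (sub_ne_zero.2 h); positivity
  rw [perp, inner_sub_right, real_inner_smul_right, real_inner_self_eq_norm_sq,
    div_mul_cancel₀ _ hn, sub_self]

/-- the tie event: on the hyperplane `⟪z j, x⟫ = ⟪z l, x⟫` the tie value beats all others -/
def tieSet (z : ι → E) (j l : ι) : Set E := {x | ∀ i, i ≠ j → i ≠ l → ⟪perp z j l i, x⟫ < 0}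

variable [Fintype ι]

/-- **tie identity** -/
theorem tie_identity {z : ι → E} {j l : ι} (hjl : j ≠ l) (hz : z j ≠ z l) {v : E}
    (hv : ∀ i, i ≠ l → ⟪v, z l⟫ = ⟪v, z i⟫ + 1)
    (hperp : ∀ i, i ≠ j → i ≠ l → perp z j l i ≠ 0) :
    (1 / (√(2 * Real.pi) * ‖z j - z l‖)) * (stdGaussian E).real (tieSet z j l)
      = -⟪v, mom (openCell z j)⟫ := by
  set e := z j - z l with he
  have he0 : e ≠ 0 := sub_ne_zero.2 hz
  classical
  let κ := {i : ι // i ≠ j ∧ i ≠ l}
  let u : κ → E := fun i => perp z j l i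
  let β : κ → ℝ := fun i => ⟪e, z i - z j⟫ / ‖e‖ ^ 2
  have hlim := tendsto_tie he0 (u := u) (fun i => inner_perp hz i) (fun i => hperp i i.2.1 i.2.2) β
  have hset : {x | ∀ i, ⟪u i, x⟫ < 0} = tieSet z j l := by
    ext x
    simp only [mem_ofPred_eq, tieSet, u, κ, Subtype.forall, and_imp]
  rw [hset] at hlim
  have hder := CM.hasDerivAt_translate v (measurableSet_openCell z j)
  have hslope := ((hasDerivAt_iff_tendsto_slope_zero.1 hder).mono_left (nhdsGT_le_nhdsNE 0)).neg
  have hkey : Tendsto (fun t : ℝ => (stdGaussian E).real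
      {x | ⟪e, x⟫ ∈ Ioc 0 t ∧ ∀ i, ⟪u i + β i • e, x⟫ < 0} / t) (𝓝[>] 0)
      (𝓝 (-(∫ x in openCell z j, ⟪v, x⟫ ∂stdGaussian E))) := by
    refine hslope.congr' ?_
    filter_upwards [self_mem_nhdsWithin] with t ht
    have ht' : (0:ℝ) < t := ht
    have hub : ∀ (i : κ) (x : E), ⟪u i + β i • e, x⟫ = ⟪z i, x⟫ - ⟪z j, x⟫ := by
      intro i x
      have : u i + β i • e = z i - z j := by
        simp only [u, β, perp, ← he]
        abel
      rw [this, inner_sub_left]
    have hex : ∀ x : E, ⟪e, x⟫ = ⟪z j, x⟫ - ⟪z l, x⟫ := fun x => by rw [he, inner_sub_left]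
    -- the translate
    have htr : {x | x + t • v ∈ openCell z j}
        = {x | (∀ i, i ≠ j → i ≠ l → ⟪z i, x⟫ < ⟪z j, x⟫) ∧ ⟪z l, x⟫ + t < ⟪z j, x⟫} := by
      ext x
      simp only [openCell, mem_ofPred_eq, inner_add_right, real_inner_smul_right]
      have hvj : ⟪z l, v⟫ = ⟪z j, v⟫ + 1 := by
        rw [real_inner_comm v (z l), real_inner_comm v (z j)]; exact hv j hjl
      constructor
      · intro h
        refine ⟨fun i hi hil => ?_, ?_⟩
        · have h1 := h i hi
          have h2 : ⟪z l, v⟫ = ⟪z i, v⟫ + 1 := by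
            rw [real_inner_comm v (z l), real_inner_comm v (z i)]; exact hv i hil
          have h3 : ⟪z i, v⟫ = ⟪z j, v⟫ := by linarith
          rw [h3] at h1
          linarith
        · have h1 := h l hjl.symm
          rw [hvj] at h1
          linarith
      · rintro ⟨h1, h2⟩ i hi
        by_cases hil : i = l
        · rw [hil, hvj]; linarith
        · have h3 : ⟪z l, v⟫ = ⟪z i, v⟫ + 1 := by
            rw [real_inner_comm v (z l), real_inner_comm v (z i)]; exact hv i hil
          have h4 : ⟪z i, v⟫ = ⟪z j, v⟫ := by linarith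
          rw [h4]
          linarith [h1 i hi hil]
    have hsub : {x | x + t • v ∈ openCell z j} ⊆ openCell z j := by
      rw [htr]
      rintro x ⟨h1, h2⟩ i hi
      by_cases hil : i = l
      · rw [hil]; linarith
      · exact h1 i hi hil
    have hdiff : {x | ⟪e, x⟫ ∈ Ioc 0 t ∧ ∀ i, ⟪u i + β i • e, x⟫ < 0}
        = openCell z j \ {x | x + t • v ∈ openCell z j} := by
      rw [htr]
      ext x
      simp only [mem_ofPred_eq, Set.mem_sdiff, mem_Ioc, hub, hex, κ, Subtype.forall, and_imp, openCell,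
        not_and, not_lt]
      constructor
      · rintro ⟨⟨h1, h2⟩, h3⟩
        refine ⟨fun i hi => ?_, fun _ => by linarith⟩
        by_cases hil : i = l
        · rw [hil]; linarith
        · have := h3 i hi hil; linarith
      · rintro ⟨h1, h2⟩
        refine ⟨⟨by linarith [h1 l hjl.symm], ?_⟩, fun i hi hil => by linarith [h1 i hi]⟩
        have := h2 (fun i hi _ => h1 i hi)
        linarith
    have hmeas : MeasurableSet {x | x + t • v ∈ openCell z j} :=
      (measurable_add_const (t • v)) (measurableSet_openCell z j)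
    rw [hdiff, measureReal_sdiff hsub hmeas]
    simp only [zero_add, zero_smul, add_zero, smul_eq_mul]
    have : {x : E | x ∈ openCell z j} = openCell z j := rfl
    rw [this]
    field_simp
    ring
  have h3 := tendsto_nhds_unique hlim hkey
  rw [inner_mom]
  exact h3

end cells

section crit

variable {ι : Type*} [Fintype ι] [DecidableEq ι] (c : Crit E ι)

lemma perp_ne_zero {j l i : ι} (hjl : j ≠ l) (hij : i ≠ j) (hil : i ≠ l) :
    perp c.z j l i ≠ 0 := by
  intro h
  have := c.nonempty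
  set r : ℝ := ⟪c.z j - c.z l, c.z i - c.z j⟫ / ‖c.z j - c.z l‖ ^ 2 with hr
  have h1 : c.z i - (1 + r) • c.z j + r • c.z l = 0 := by
    rw [perp, ← hr] at h
    rw [← h, smul_sub, add_smul, one_smul]; abel
  let a : ι → ℝ := fun m => if m = i then 1 else if m = j then -(1 + r) else if m = l then r else 0
  have h2 : ∑ m, a m • c.z m = 0 := by
    have e : ∀ m, a m • c.z m = (if m = i then c.z i else 0) + (if m = j then -((1 + r) • c.z j) else 0)
        + (if m = l then r • c.z l else 0) := by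
      intro m
      by_cases h3 : m = i
      · subst h3; simp [a, hij, hil]
      · by_cases h4 : m = j
        · subst h4
          simp only [a, h3, hjl, if_false, if_true, add_zero, zero_add, neg_smul]
        · by_cases h5 : m = l
          · subst h5; simp [a, h3, h4]
          · simp [a, h3, h4, h5]
    rw [Finset.sum_congr rfl fun m _ => e m, Finset.sum_add_distrib, Finset.sum_add_distrib]
    simp only [Finset.sum_ite_eq', Finset.mem_univ, if_true]
    rw [← h1]; abel
  have h3 := const_of_relation c.sum_z (fun i j hij => c.inner_lt hij) h2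
  have h4 : a i = a j := h3 i j
  have h5 : a i = a l := h3 i l
  simp only [a, if_true, hij.symm, hil.symm, hjl.symm, if_false] at h4 h5
  linarith

/-- **tie identity for a critical configuration** -/
theorem tie_crit {j l : ι} (hjl : j ≠ l) :
    (stdGaussian E).real (tieSet c.z j l)
      = √(2 * Real.pi) * ‖c.z j - c.z l‖ / Fintype.card ι := by
  have hz : c.z j ≠ c.z l := fun h => hjl (c.z_injective h)
  have h := tie_identity (z := c.z) hjl hz (v := c.v l)
    (fun i hi => by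
      rw [real_inner_comm, real_inner_comm (c.z i), c.inner_v, c.inner_v, if_pos rfl, if_neg hi]
      ring)
    (fun i hij hil => perp_ne_zero c hjl hij hil)
  rw [← show c.A j = openCell c.z j from rfl, c.mom_A, real_inner_comm, c.inner_v, if_neg hjl] at h
  have hn : 0 < ‖c.z j - c.z l‖ := norm_pos_iff.2 (sub_ne_zero.2 hz)
  have hs : 0 < √(2 * Real.pi) := by positivity
  rw [zero_sub, neg_neg, one_div, inv_mul_eq_div, div_eq_iff (by positivity)] at h
  rw [h]
  ring

end crit

end Crest.Agent.R215.Tie
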