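import Crest.Agent.R215.TieBase
import Crest.Agent.R215.Base

/-!
# Row 215: tie inequalities (linear bounds)
-/

set_option autoImplicit false
open MeasureTheory ProbabilityTheory Set Filter Topology
open scoped NNReal ENNReal RealInnerProductSpace

namespace Crest.Agent.R215.Tie

open Crest.Agent.Lib.Ehrhard

variable {E : Type*} [NormedAddCommGroup E] [InnerProductSpace ℝ E] [FiniteDimensional ℝ E]
  [MeasurableSpace E] [BorelSpace E]

/-- density bound for a one-dimensional Gaussian -/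
lemma gaussianReal_Icc_le {v : ℝ≥0} (hv : v ≠ 0) (a b : ℝ) :
    gaussianReal 0 v (Icc a b) ≤ ENNReal.ofReal ((b - a) / √(2 * Real.pi * v)) := by
  rcases le_or_gt a b with hab | hab
  · rw [gaussianReal_apply_eq_integral 0 hv]
    refine ENNReal.ofReal_le_ofReal ?_
    have h1 : ∀ x, gaussianPDFReal 0 v x ≤ (√(2 * Real.pi * v))⁻¹ := by
      intro x
      rw [gaussianPDFReal]
      have h2 : Real.exp (-(x - 0) ^ 2 / (2 * v)) ≤ 1 := by
        rw [Real.exp_le_one_iff]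
        have : 0 ≤ (x - 0) ^ 2 / (2 * (v:ℝ)) := by positivity
        rw [neg_div]
        linarith
      calc _ ≤ (√(2 * Real.pi * v))⁻¹ * 1 := mul_le_mul_of_nonneg_left h2 (by positivity)
        _ = _ := mul_one _
    calc ∫ x in Icc a b, gaussianPDFReal 0 v x
        ≤ ∫ _ in Icc a b, (√(2 * Real.pi * v))⁻¹ := by
          refine setIntegral_mono (integrable_gaussianPDFReal 0 v).integrableOn ?_ h1
          exact integrableOn_const (by simp)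
      _ = (b - a) / √(2 * Real.pi * v) := by
          rw [setIntegral_const, smul_eq_mul, Real.volume_real_Icc_of_le hab]
          ring
  · rw [Icc_eq_empty (not_le.2 hab)]
    simp

omit [InnerProductSpace ℝ E] [FiniteDimensional ℝ E] [MeasurableSpace E] [BorelSpace E] in
lemma sqrt_two_pi_mul (p : E) : √(2 * Real.pi * ((Real.toNNReal (‖p‖ ^ 2) : ℝ≥0) : ℝ))
    = √(2 * Real.pi) * ‖p‖ := by
  rw [Real.coe_toNNReal _ (sq_nonneg _), Real.sqrt_mul (by positivity), Real.sqrt_sq (norm_nonneg _)]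

/-- probability that a Gaussian lies in a window depending on an independent one -/
lemma measure_between_le {p q : E} (hpq : ⟪p, q⟫ = 0) (hp : p ≠ 0) {f g h : ℝ → ℝ}
    (hf : Measurable f) (hg : Measurable g) (hh : Measurable h) (h0 : ∀ y, 0 ≤ h y)
    (hfg : ∀ y, g y - f y ≤ h y) (hint : Integrable (fun x : E => h ⟪q, x⟫) (stdGaussian E)) :
    (stdGaussian E).real {x | f ⟪q, x⟫ ≤ ⟪p, x⟫ ∧ ⟪p, x⟫ ≤ g ⟪q, x⟫}
      ≤ (∫ x, h ⟪q, x⟫ ∂stdGaussian E) / (√(2 * Real.pi) * ‖p‖) := by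
  have hpn : 0 < ‖p‖ := norm_pos_iff.2 hp
  have hind : IndepFun (fun x : E => ⟪q, x⟫) (fun x : E => ⟪p, x⟫) (stdGaussian E) := by
    have h1 := indep_forms (E := E) (κ := Unit) (e := q) (u := fun _ => p)
      (fun _ => by rw [real_inner_comm]; exact hpq)
    exact h1.comp (φ := id) (ψ := fun f : Unit → ℝ => f ()) measurable_id (by fun_prop)
  have hprod := (indepFun_iff_map_prod_eq_prod_map_map (by fun_prop) (by fun_prop)).1 hind
  set S : Set (ℝ × ℝ) := {y | f y.1 ≤ y.2 ∧ y.2 ≤ g y.1} with hS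
  have hSm : MeasurableSet S :=
    (measurableSet_le (hf.comp measurable_fst) measurable_snd).inter
      (measurableSet_le measurable_snd (hg.comp measurable_fst))
  have e1 : (stdGaussian E) {x | f ⟪q, x⟫ ≤ ⟪p, x⟫ ∧ ⟪p, x⟫ ≤ g ⟪q, x⟫}
      = ((stdGaussian E).map (fun x => ((⟪q, x⟫ : ℝ), (⟪p, x⟫ : ℝ)))) S := by
    rw [Measure.map_apply (by fun_prop) hSm]; rfl
  have hv : Real.toNNReal (‖p‖ ^ 2) ≠ 0 := by
    rw [ne_eq, Real.toNNReal_eq_zero, not_le]; positivity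
  have hK : 0 ≤ √(2 * Real.pi) * ‖p‖ := by positivity
  have e2 : (stdGaussian E) {x | f ⟪q, x⟫ ≤ ⟪p, x⟫ ∧ ⟪p, x⟫ ≤ g ⟪q, x⟫}
      ≤ ENNReal.ofReal ((∫ x, h ⟪q, x⟫ ∂stdGaussian E) / (√(2 * Real.pi) * ‖p‖)) := by
    rw [e1, hprod, Measure.prod_apply hSm]
    calc ∫⁻ y, ((stdGaussian E).map (fun x => ⟪p, x⟫)) (Prod.mk y ⁻¹' S)
          ∂((stdGaussian E).map (fun x => ⟪q, x⟫))
        ≤ ∫⁻ y, ENNReal.ofReal (h y / (√(2 * Real.pi) * ‖p‖))
          ∂((stdGaussian E).map (fun x => ⟪q, x⟫)) := by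
          refine lintegral_mono fun y => ?_
          have hsl : Prod.mk y ⁻¹' S = Icc (f y) (g y) := by
            ext t; simp [hS]
          rw [hsl, CM.map_inner]
          refine (gaussianReal_Icc_le hv _ _).trans ?_
          rw [sqrt_two_pi_mul]
          refine ENNReal.ofReal_le_ofReal ?_
          exact div_le_div_of_nonneg_right (hfg y) hK
      _ = ∫⁻ x, ENNReal.ofReal (h ⟪q, x⟫ / (√(2 * Real.pi) * ‖p‖)) ∂stdGaussian E := by
          rw [lintegral_map (by fun_prop) (by fun_prop)]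
      _ = ENNReal.ofReal (∫ x, h ⟪q, x⟫ / (√(2 * Real.pi) * ‖p‖) ∂stdGaussian E) := by
          rw [ofReal_integral_eq_lintegral_ofReal (hint.div_const _)]
          exact Eventually.of_forall fun x => div_nonneg (h0 _) hK
      _ = _ := by rw [integral_div]
  rw [measureReal_def]
  refine (ENNReal.toReal_mono ENNReal.ofReal_ne_top e2).trans ?_
  rw [ENNReal.toReal_ofReal]
  exact div_nonneg (integral_nonneg fun x => h0 _) hK

lemma integrable_posPart (w : E) : Integrable (fun x : E => max ⟪w, x⟫ 0) (stdGaussian E) :=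
  (integrable_inner w).pos_part

lemma integral_posPart_inner (w : E) :
    ∫ x, max ⟪w, x⟫ 0 ∂stdGaussian E = ‖w‖ / √(2 * Real.pi) := by
  have h1 : ∀ x : E, max ⟪w, x⟫ 0 = (|⟪w, x⟫| + ⟪w, x⟫) / 2 := by
    intro x
    rcases le_total 0 ⟪w, x⟫ with h | h
    · rw [max_eq_left h, abs_of_nonneg h]; ring
    · rw [max_eq_right h, abs_of_nonpos h]; ring
  simp_rw [h1]
  rw [integral_div, integral_add (integrable_inner w).abs (integrable_inner w),
    integral_inner_eq_zero, integral_abs_inner, add_zero]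
  have hpi : 0 < Real.pi := Real.pi_pos
  have h2 : √(2 / Real.pi) = 2 / √(2 * Real.pi) := by
    rw [eq_div_iff (by positivity), ← Real.sqrt_mul (by positivity)]
    have : 2 / Real.pi * (2 * Real.pi) = 2 ^ 2 := by field_simp
    rw [this, Real.sqrt_sq (by norm_num)]
  rw [h2]
  ring

/-- linear bound for a wedge -/
lemma wedge_le {a w : E} (ha : a ≠ 0) (haw : ⟪a, w⟫ = 0) {c : ℝ} (hc : 0 < c) :
    (stdGaussian E).real {x | 0 < ⟪a, x⟫ ∧ c * ⟪a, x⟫ ≤ ⟪w, x⟫} ≤ ‖w‖ / (2 * Real.pi * c * ‖a‖) := by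
  have h := measure_between_le haw ha (f := fun _ => 0) (g := fun y => y / c)
    (h := fun y => max y 0 / c) (by fun_prop) (by fun_prop) (by fun_prop)
    (fun y => by positivity) (fun y => by
      rw [sub_zero]; exact div_le_div_of_nonneg_right (le_max_left _ _) hc.le)
    ((integrable_posPart w).div_const c)
  rw [integral_div, integral_posPart_inner] at h
  have hsub : (stdGaussian E).real {x | 0 < ⟪a, x⟫ ∧ c * ⟪a, x⟫ ≤ ⟪w, x⟫}
      ≤ (stdGaussian E).real {x | 0 ≤ ⟪a, x⟫ ∧ ⟪a, x⟫ ≤ ⟪w, x⟫ / c} := by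
    refine measureReal_mono ?_ (by finiteness)
    rintro x ⟨h1, h2⟩
    exact ⟨h1.le, by rw [le_div_iff₀ hc]; linarith⟩
  refine hsub.trans (h.trans (le_of_eq ?_))
  have hs : √(2 * Real.pi) * √(2 * Real.pi) = 2 * Real.pi := Real.mul_self_sqrt (by positivity)
  have hs0 : 0 < √(2 * Real.pi) := by positivity
  have ha' : 0 < ‖a‖ := norm_pos_iff.2 ha
  rw [div_div, div_div]
  congr 1
  calc √(2 * Real.pi) * (c * (√(2 * Real.pi) * ‖a‖))
      = (√(2 * Real.pi) * √(2 * Real.pi)) * c * ‖a‖ := by ring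
    _ = _ := by rw [hs]

/-- linear bound for a slab-like wedge `|Δ| ≤ Y` -/
lemma slab_le {p q : E} (hp : p ≠ 0) (hpq : ⟪p, q⟫ = 0) (β : ℝ) :
    (stdGaussian E).real {x | |⟪p, x⟫ + β * ⟪q, x⟫| ≤ ⟪q, x⟫} ≤ ‖q‖ / (Real.pi * ‖p‖) := by
  have h := measure_between_le hpq hp (f := fun y => -y - β * y) (g := fun y => y - β * y)
    (h := fun y => 2 * max y 0) (by fun_prop) (by fun_prop) (by fun_prop)
    (fun y => by positivity) (fun y => by
      have := le_max_left y 0; linarith)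
    ((integrable_posPart q).const_mul 2)
  rw [integral_const_mul, integral_posPart_inner] at h
  have hsub : {x : E | |⟪p, x⟫ + β * ⟪q, x⟫| ≤ ⟪q, x⟫}
      = {x | -⟪q, x⟫ - β * ⟪q, x⟫ ≤ ⟪p, x⟫ ∧ ⟪p, x⟫ ≤ ⟪q, x⟫ - β * ⟪q, x⟫} := by
    ext x
    simp only [mem_ofPred_eq, abs_le]
    constructor <;> rintro ⟨h1, h2⟩ <;> constructor <;> linarith
  rw [hsub]
  refine h.trans (le_of_eq ?_)
  have hs : √(2 * Real.pi) * √(2 * Real.pi) = 2 * Real.pi := Real.mul_self_sqrt (by positivity)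
  have hs0 : 0 < √(2 * Real.pi) := by positivity
  have hp' : 0 < ‖p‖ := norm_pos_iff.2 hp
  have hpi := Real.pi_pos
  rw [mul_div_assoc', div_div, div_eq_div_iff (by positivity) (by positivity)]
  calc 2 * ‖q‖ * (Real.pi * ‖p‖) = ‖q‖ * ‖p‖ * (2 * Real.pi) := by ring
    _ = ‖q‖ * ‖p‖ * (√(2 * Real.pi) * √(2 * Real.pi)) := by rw [hs]
    _ = ‖q‖ * (√(2 * Real.pi) * (√(2 * Real.pi) * ‖p‖)) := by ring

section foot

variable {ι : Type*} [Fintype ι] [DecidableEq ι] (c : Crit E ι)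

/-- foot of the perpendicular from `0` to the line through `z j, z l` -/
noncomputable def foot (z : ι → E) (j l : ι) : E :=
  z j - (⟪z j - z l, z j⟫ / ‖z j - z l‖ ^ 2) • (z j - z l)

lemma norm_sub_pos {j l : ι} (hjl : j ≠ l) : 0 < ‖c.z j - c.z l‖ :=
  norm_pos_iff.2 (sub_ne_zero.2 fun h => hjl (c.z_injective h))

/-- the foot is orthogonal to the line -/
lemma inner_foot {j l : ι} (hjl : j ≠ l) : ⟪c.z j - c.z l, foot c.z j l⟫ = 0 := by
  have hn := norm_sub_pos c hjl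
  rw [foot, inner_sub_right, real_inner_smul_right, real_inner_self_eq_norm_sq,
    div_mul_cancel₀ _ (by positivity), sub_self]

lemma foot_comb {j l : ι} : foot c.z j l =
    (1 - ⟪c.z j - c.z l, c.z j⟫ / ‖c.z j - c.z l‖ ^ 2) • c.z j
      + (⟪c.z j - c.z l, c.z j⟫ / ‖c.z j - c.z l‖ ^ 2) • c.z l := by
  rw [foot, sub_smul, smul_sub, one_smul]; abel

lemma ratio_pos {j l : ι} (hjl : j ≠ l) : 0 < ⟪c.z j - c.z l, c.z j⟫ / ‖c.z j - c.z l‖ ^ 2 := by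
  have hn := norm_sub_pos c hjl
  have h1 := c.inner_lt hjl
  refine div_pos ?_ (by positivity)
  rw [inner_sub_left, real_inner_self_eq_norm_sq]
  have := sq_nonneg ‖c.z j‖
  rw [real_inner_comm] at h1
  linarith

lemma ratio_lt_one {j l : ι} (hjl : j ≠ l) : ⟪c.z j - c.z l, c.z j⟫ / ‖c.z j - c.z l‖ ^ 2 < 1 := by
  have hn := norm_sub_pos c hjl
  have h1 := c.inner_lt hjl
  rw [div_lt_one (by positivity), norm_sub_sq_real, inner_sub_left, real_inner_self_eq_norm_sq,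
    real_inner_comm]
  have := sq_nonneg ‖c.z l‖
  linarith

/-- the foot makes obtuse angles with the other vectors -/
lemma inner_foot_neg {j l i : ι} (hjl : j ≠ l) (hij : i ≠ j) (hil : i ≠ l) :
    ⟪foot c.z j l, c.z i⟫ < 0 := by
  rw [foot_comb, inner_add_left, real_inner_smul_left, real_inner_smul_left]
  have h1 := ratio_pos c hjl
  have h2 := ratio_lt_one c hjl
  have h3 := c.inner_lt hij.symm
  have h4 := c.inner_lt hil.symm
  nlinarith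

lemma inner_foot_left {j l : ι} (hjl : j ≠ l) : ⟪foot c.z j l, c.z j⟫ = ‖foot c.z j l‖ ^ 2 := by
  have h1 := inner_foot c hjl
  have h2 : c.z j = foot c.z j l + (⟪c.z j - c.z l, c.z j⟫ / ‖c.z j - c.z l‖ ^ 2) • (c.z j - c.z l) := by
    rw [foot]; abel
  conv_lhs => rw [h2]
  rw [inner_add_right, real_inner_smul_right, real_inner_comm, real_inner_comm (c.z j - c.z l), h1]
  rw [real_inner_self_eq_norm_sq]; ring

lemma inner_foot_right {j l : ι} (hjl : j ≠ l) : ⟪foot c.z j l, c.z l⟫ = ‖foot c.z j l‖ ^ 2 := by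
  have h1 := inner_foot c hjl
  have h2 := inner_foot_left c hjl
  rw [real_inner_comm, inner_sub_right] at h1
  linarith

lemma foot_ne_zero {j l : ι} (hjl : j ≠ l) (h3 : ∃ i, i ≠ j ∧ i ≠ l) : foot c.z j l ≠ 0 := by
  obtain ⟨i, hij, hil⟩ := h3
  intro h
  have := inner_foot_neg c hjl hij hil
  rw [h, inner_zero_left] at this
  exact lt_irrefl _ this

/-- `‖foot‖² ‖z j - z l‖² = ‖z j‖²‖z l‖² - ⟪z j, z l⟫²` -/
lemma norm_foot_sq {j l : ι} (hjl : j ≠ l) : ‖foot c.z j l‖ ^ 2 * ‖c.z j - c.z l‖ ^ 2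
    = ‖c.z j‖ ^ 2 * ‖c.z l‖ ^ 2 - ⟪c.z j, c.z l⟫ ^ 2 := by
  have hn := norm_sub_pos c hjl
  rw [← inner_foot_left c hjl, foot, inner_sub_left, real_inner_smul_left,
    real_inner_self_eq_norm_sq]
  have e : (‖c.z j‖ ^ 2 - ⟪c.z j - c.z l, c.z j⟫ / ‖c.z j - c.z l‖ ^ 2 * ⟪c.z j - c.z l, c.z j⟫)
      * ‖c.z j - c.z l‖ ^ 2 = ‖c.z j‖ ^ 2 * ‖c.z j - c.z l‖ ^ 2 - ⟪c.z j - c.z l, c.z j⟫ ^ 2 := by
    field_simp
  rw [e, norm_sub_sq_real, inner_sub_left, real_inner_self_eq_norm_sq, real_inner_comm]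
  ring

/-- relation between `perp` and the foot -/
lemma inner_perp_foot {j l i : ι} (hjl : j ≠ l) : ⟪perp c.z j l i, foot c.z j l⟫
    = ⟪foot c.z j l, c.z i⟫ - ‖foot c.z j l‖ ^ 2 := by
  rw [perp, inner_sub_left, real_inner_smul_left, inner_foot c hjl, mul_zero, sub_zero,
    inner_sub_left, real_inner_comm, real_inner_comm (foot c.z j l), inner_foot_left c hjl]

/-- half of the space -/
lemma half_space {a : E} (ha : a ≠ 0) : (stdGaussian E).real {x | 0 < ⟪a, x⟫} = 1 / 2 := by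
  have hm : MeasurableSet {x : E | 0 < ⟪a, x⟫} := measurableSet_lt (by fun_prop) (by fun_prop)
  have h1 : (stdGaussian E).real {x | 0 < ⟪a, x⟫} = (stdGaussian E).real {x | 0 < ⟪a, x⟫}ᶜ := by
    have hneg : (stdGaussian E).map (fun x => -x) = stdGaussian E :=
      stdGaussian_map (LinearIsometryEquiv.neg ℝ (E := E))
    have e1 : (stdGaussian E).real {x | ⟪a, x⟫ < 0} = (stdGaussian E).real {x | 0 < ⟪a, x⟫} := by
      conv_lhs => rw [← hneg]
      rw [map_measureReal_apply (by fun_prop) (measurableSet_lt (by fun_prop) (by fun_prop))]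
      congr 1
      ext x
      simp [inner_neg_right]
    rw [← e1]
    refine measureReal_congr ?_
    have h0 := hyperplane_null (E := E) ha
    have h2 : ∀ᵐ x ∂stdGaussian E, ¬ (⟪a, x⟫ = 0) := measure_eq_zero_iff_ae_notMem.1 h0
    filter_upwards [h2] with x hx
    apply propext
    show ⟪a, x⟫ < 0 ↔ ¬ (0 < ⟪a, x⟫)
    rw [not_lt]
    exact ⟨fun h => h.le, fun h => lt_of_le_of_ne h hx⟩
  rw [probReal_compl_eq_one_sub hm] at h1
  linarith

lemma tieSet_ge {j l : ι} (hjl : j ≠ l) (h3 : ∃ i, i ≠ j ∧ i ≠ l) :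
    1 / 2 - ∑ i ∈ (Finset.univ.erase j).erase l,
        (stdGaussian E).real {x | 0 < ⟪foot c.z j l, x⟫ ∧ 0 ≤ ⟪perp c.z j l i, x⟫}
      ≤ (stdGaussian E).real (tieSet c.z j l) := by
  rw [← half_space (foot_ne_zero c hjl h3), sub_le_iff_le_add]
  have hsub : {x | 0 < ⟪foot c.z j l, x⟫} ⊆ tieSet c.z j l ∪
      ⋃ i ∈ (Finset.univ.erase j).erase l, {x | 0 < ⟪foot c.z j l, x⟫ ∧ 0 ≤ ⟪perp c.z j l i, x⟫} := by
    intro x hx
    by_cases h : x ∈ tieSet c.z j l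
    · exact Or.inl h
    · right
      simp only [tieSet, mem_ofPred_eq, not_forall, not_lt] at h
      obtain ⟨i, hij, hil, hi⟩ := h
      simp only [mem_iUnion]
      exact ⟨i, by simp [hij, hil], hx, hi⟩
  refine (measureReal_mono hsub (by finiteness)).trans ?_
  refine (measureReal_union_le _ _).trans ?_
  gcongr
  exact measureReal_biUnion_finset_le _ _

/-- bound for a single term: if `⟪foot, z i⟫ = -r ‖foot‖²`... -/
lemma term_le {j l i : ι} (hjl : j ≠ l) (h3 : ∃ i, i ≠ j ∧ i ≠ l)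
    (hpos : ⟪foot c.z j l, c.z i⟫ < ‖foot c.z j l‖ ^ 2) :
    (stdGaussian E).real {x | 0 < ⟪foot c.z j l, x⟫ ∧ 0 ≤ ⟪perp c.z j l i, x⟫}
      ≤ √(‖perp c.z j l i‖ ^ 2 * ‖foot c.z j l‖ ^ 2 - ⟪perp c.z j l i, foot c.z j l⟫ ^ 2) /
        (2 * Real.pi * (‖foot c.z j l‖ ^ 2 - ⟪foot c.z j l, c.z i⟫)) := by
  set a := foot c.z j l with ha
  set u := perp c.z j l i with hu
  have ha0 : a ≠ 0 := foot_ne_zero c hjl h3
  have han : 0 < ‖a‖ := norm_pos_iff.2 ha0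
  have hua : ⟪u, a⟫ = ⟪a, c.z i⟫ - ‖a‖ ^ 2 := inner_perp_foot c hjl
  set w := u - (⟪u, a⟫ / ‖a‖ ^ 2) • a with hw
  have haw : ⟪a, w⟫ = 0 := by
    rw [hw, inner_sub_right, real_inner_smul_right, real_inner_self_eq_norm_sq,
      div_mul_cancel₀ _ (by positivity), real_inner_comm, sub_self]
  have hc : 0 < (‖a‖ ^ 2 - ⟪a, c.z i⟫) / ‖a‖ ^ 2 := div_pos (by linarith) (by positivity)
  have h := wedge_le ha0 haw hc
  have hset : {x | 0 < ⟪a, x⟫ ∧ 0 ≤ ⟪u, x⟫}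
      = {x | 0 < ⟪a, x⟫ ∧ (‖a‖ ^ 2 - ⟪a, c.z i⟫) / ‖a‖ ^ 2 * ⟪a, x⟫ ≤ ⟪w, x⟫} := by
    ext x
    simp only [mem_ofPred_eq]
    have : ⟪w, x⟫ = ⟪u, x⟫ + (‖a‖ ^ 2 - ⟪a, c.z i⟫) / ‖a‖ ^ 2 * ⟪a, x⟫ := by
      rw [hw, inner_sub_left, real_inner_smul_left, hua]; ring
    rw [this]
    constructor <;> rintro ⟨h1, h2⟩ <;> exact ⟨h1, by linarith⟩
  rw [hset]
  refine h.trans (le_of_eq ?_)
  have hwn : ‖w‖ = √(‖u‖ ^ 2 * ‖a‖ ^ 2 - ⟪u, a⟫ ^ 2) / ‖a‖ := by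
    rw [eq_div_iff han.ne', ← Real.sqrt_sq (by positivity : 0 ≤ ‖w‖ * ‖a‖), mul_pow]
    congr 1
    rw [hw, norm_sub_sq_real, real_inner_smul_right, norm_smul, mul_pow, Real.norm_eq_abs, sq_abs]
    field_simp
    ring
  rw [hwn]
  field_simp

omit [FiniteDimensional ℝ E] [MeasurableSpace E] [BorelSpace E] in
lemma gram_le {a e y : E} (lam r : ℝ) (hea : ⟪e, a⟫ = 0) (hye : ⟪e, y - r • e⟫ = 0) :
    ‖lam • a + (y - r • e)‖ ^ 2 * ‖a‖ ^ 2 - ⟪lam • a + (y - r • e), a⟫ ^ 2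
      ≤ ‖y‖ ^ 2 * ‖a‖ ^ 2 - ⟪y, a⟫ ^ 2 := by
  set p := y - r • e with hp
  have h1 : ⟪p, a⟫ = ⟪y, a⟫ := by
    rw [hp, inner_sub_left, real_inner_smul_left, hea, mul_zero, sub_zero]
  have h2 : ‖y‖ ^ 2 = ‖p‖ ^ 2 + r ^ 2 * ‖e‖ ^ 2 := by
    have : y = p + r • e := by rw [hp]; abel
    rw [this, norm_add_sq_real, real_inner_smul_right, real_inner_comm, hye, norm_smul, mul_pow,
      Real.norm_eq_abs, sq_abs]
    ring
  rw [norm_add_sq_real, inner_add_left, real_inner_smul_left, real_inner_smul_left,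
    real_inner_self_eq_norm_sq, norm_smul, mul_pow, Real.norm_eq_abs, sq_abs, real_inner_comm p a,
    ← h1, h2]
  have h3 : 0 ≤ r ^ 2 * ‖e‖ ^ 2 * ‖a‖ ^ 2 := by positivity
  nlinarith

lemma proj_orth {j l : ι} (hjl : j ≠ l) (y : E) :
    ⟪c.z j - c.z l, y - (⟪c.z j - c.z l, y⟫ / ‖c.z j - c.z l‖ ^ 2) • (c.z j - c.z l)⟫ = 0 := by
  have hn := norm_sub_pos c hjl
  rw [inner_sub_right, real_inner_smul_right, real_inner_self_eq_norm_sq,
    div_mul_cancel₀ _ (by positivity), sub_self]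

/-- small cells -/
lemma term_small {j l i : ι} (hjl : j ≠ l) (hij : i ≠ j) (hil : i ≠ l) :
    (stdGaussian E).real {x | 0 < ⟪foot c.z j l, x⟫ ∧ 0 ≤ ⟪perp c.z j l i, x⟫}
      ≤ ‖c.z i‖ / ‖foot c.z j l‖ / (2 * Real.pi) := by
  have h3 : ∃ i, i ≠ j ∧ i ≠ l := ⟨i, hij, hil⟩
  have hneg := inner_foot_neg c hjl hij hil
  have ha0 : foot c.z j l ≠ 0 := foot_ne_zero c hjl h3
  have han : 0 < ‖foot c.z j l‖ := norm_pos_iff.2 ha0
  refine (term_le c hjl h3 (by nlinarith [sq_nonneg ‖foot c.z j l‖])).trans ?_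
  have hperp : perp c.z j l i = (-1 : ℝ) • foot c.z j l + (c.z i -
      (⟪c.z j - c.z l, c.z i⟫ / ‖c.z j - c.z l‖ ^ 2) • (c.z j - c.z l)) := by
    rw [perp, foot, inner_sub_right, sub_div, sub_smul, neg_one_smul]; abel
  have hg := gram_le (-1) _ (inner_foot c hjl) (proj_orth c hjl (c.z i))
  rw [← hperp] at hg
  have h4 : √(‖perp c.z j l i‖ ^ 2 * ‖foot c.z j l‖ ^ 2 - ⟪perp c.z j l i, foot c.z j l⟫ ^ 2)
      ≤ ‖c.z i‖ * ‖foot c.z j l‖ := by
    rw [Real.sqrt_le_left (by positivity)]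
    nlinarith [sq_nonneg ⟪c.z i, foot c.z j l⟫]
  have hpi := Real.pi_pos
  rw [div_div, div_le_div_iff₀ (by nlinarith [sq_nonneg ‖foot c.z j l‖, mul_pos hpi (neg_pos.2 hneg), mul_pos hpi (pow_pos han 2)]) (by positivity)]
  calc √(‖perp c.z j l i‖ ^ 2 * ‖foot c.z j l‖ ^ 2 - ⟪perp c.z j l i, foot c.z j l⟫ ^ 2)
        * (‖foot c.z j l‖ * (2 * Real.pi))
      ≤ (‖c.z i‖ * ‖foot c.z j l‖) * (‖foot c.z j l‖ * (2 * Real.pi)) :=
        mul_le_mul_of_nonneg_right h4 (by positivity)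
    _ = ‖c.z i‖ * (2 * Real.pi * ‖foot c.z j l‖ ^ 2) := by ring
    _ ≤ ‖c.z i‖ * (2 * Real.pi * (‖foot c.z j l‖ ^ 2 - ⟪foot c.z j l, c.z i⟫)) := by
        refine mul_le_mul_of_nonneg_left ?_ (norm_nonneg _)
        refine mul_le_mul_of_nonneg_left ?_ (by positivity)
        linarith

/-- the third big cell; `s` is the sum of the remaining vectors -/
lemma term_third {j l m : ι} (hjl : j ≠ l) (hmj : m ≠ j) (hml : m ≠ l) {s : E}
    (hs : c.z m = -(c.z j + c.z l + s)) (hsn : ‖s‖ < 3 * ‖foot c.z j l‖) :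
    (stdGaussian E).real {x | 0 < ⟪foot c.z j l, x⟫ ∧ 0 ≤ ⟪perp c.z j l m, x⟫}
      ≤ ‖s‖ / √(9 * ‖foot c.z j l‖ ^ 2 - ‖s‖ ^ 2) / (2 * Real.pi) := by
  have h3 : ∃ i, i ≠ j ∧ i ≠ l := ⟨m, hmj, hml⟩
  have hneg := inner_foot_neg c hjl hmj hml
  have ha0 : foot c.z j l ≠ 0 := foot_ne_zero c hjl h3
  have han : 0 < ‖foot c.z j l‖ := norm_pos_iff.2 ha0
  refine (term_le c hjl h3 (by nlinarith [sq_nonneg ‖foot c.z j l‖])).trans ?_
  have hperp : perp c.z j l m = (-3 : ℝ) • foot c.z j l + ((-s) -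
      (⟪c.z j - c.z l, -s⟫ / ‖c.z j - c.z l‖ ^ 2) • (c.z j - c.z l)) := by
    have e1 : ⟪c.z j - c.z l, c.z m - c.z j⟫ = ⟪c.z j - c.z l, -s⟫ - 3 * ⟪c.z j - c.z l, c.z j⟫
        + ‖c.z j - c.z l‖ ^ 2 := by
      rw [hs]
      have e2 : -(c.z j + c.z l + s) - c.z j = -s - (3:ℝ) • c.z j + (c.z j - c.z l) := by
        module
      rw [e2, inner_add_right, inner_sub_right, real_inner_smul_right, real_inner_self_eq_norm_sq]
    have hn := norm_sub_pos c hjl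
    have e3 : (⟪c.z j - c.z l, -s⟫ - 3 * ⟪c.z j - c.z l, c.z j⟫ + ‖c.z j - c.z l‖ ^ 2)
        / ‖c.z j - c.z l‖ ^ 2 = ⟪c.z j - c.z l, -s⟫ / ‖c.z j - c.z l‖ ^ 2
          - 3 * (⟪c.z j - c.z l, c.z j⟫ / ‖c.z j - c.z l‖ ^ 2) + 1 := by
      field_simp
    rw [perp, foot, e1, e3, hs]
    module
  have hg := gram_le (-3) _ (inner_foot c hjl) (proj_orth c hjl (-s))
  rw [← hperp, norm_neg, inner_neg_left, neg_sq] at hg
  set a := foot c.z j l with ha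
  have hma : ⟪a, c.z m⟫ = -(2 * ‖a‖ ^ 2 + ⟪s, a⟫) := by
    rw [hs, inner_neg_right, inner_add_right, inner_add_right, inner_foot_left c hjl,
      inner_foot_right c hjl, real_inner_comm s]
    ring
  rw [hma]
  set t := ⟪s, a⟫ with ht
  have hts : t ^ 2 ≤ ‖s‖ ^ 2 * ‖a‖ ^ 2 := by
    have := abs_real_inner_le_norm s a
    rw [← mul_pow, ← sq_abs]
    exact pow_le_pow_left₀ (abs_nonneg _) this 2
  have hpi := Real.pi_pos
  have htl : -(‖s‖ * ‖a‖) ≤ t := by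
    have := abs_real_inner_le_norm s a
    exact (abs_le.1 this).1
  have hden : 0 < 3 * ‖a‖ ^ 2 + t := by nlinarith
  have hR : 0 < 9 * ‖a‖ ^ 2 - ‖s‖ ^ 2 := by nlinarith [norm_nonneg s]
  have hRs : 0 < √(9 * ‖a‖ ^ 2 - ‖s‖ ^ 2) := Real.sqrt_pos.2 hR
  have h5 : √(‖perp c.z j l m‖ ^ 2 * ‖a‖ ^ 2 - ⟪perp c.z j l m, a⟫ ^ 2)
      * √(9 * ‖a‖ ^ 2 - ‖s‖ ^ 2) ≤ ‖s‖ * (3 * ‖a‖ ^ 2 + t) := by
    rw [← Real.sqrt_mul' _ hR.le, Real.sqrt_le_left (by positivity)]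
    calc (‖perp c.z j l m‖ ^ 2 * ‖a‖ ^ 2 - ⟪perp c.z j l m, a⟫ ^ 2) * (9 * ‖a‖ ^ 2 - ‖s‖ ^ 2)
        ≤ (‖s‖ ^ 2 * ‖a‖ ^ 2 - t ^ 2) * (9 * ‖a‖ ^ 2 - ‖s‖ ^ 2) :=
          mul_le_mul_of_nonneg_right hg hR.le
      _ ≤ (‖s‖ * (3 * ‖a‖ ^ 2 + t)) ^ 2 := by nlinarith [sq_nonneg (‖s‖ ^ 2 + 3 * t)]
  have e4 : ‖a‖ ^ 2 - -(2 * ‖a‖ ^ 2 + t) = 3 * ‖a‖ ^ 2 + t := by ring
  rw [e4, div_div, div_le_div_iff₀ (by positivity) (by positivity)]
  calc √(‖perp c.z j l m‖ ^ 2 * ‖a‖ ^ 2 - ⟪perp c.z j l m, a⟫ ^ 2)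
        * (√(9 * ‖a‖ ^ 2 - ‖s‖ ^ 2) * (2 * Real.pi))
      = (√(‖perp c.z j l m‖ ^ 2 * ‖a‖ ^ 2 - ⟪perp c.z j l m, a⟫ ^ 2)
        * √(9 * ‖a‖ ^ 2 - ‖s‖ ^ 2)) * (2 * Real.pi) := by ring
    _ ≤ (‖s‖ * (3 * ‖a‖ ^ 2 + t)) * (2 * Real.pi) := mul_le_mul_of_nonneg_right h5 (by positivity)
    _ = _ := by ring

/-- **B-B tie inequality** (linear form) -/
theorem bb_tie {j l m : ι} (hjl : j ≠ l) (hmj : m ≠ j) (hml : m ≠ l)
    (hsn : ‖∑ i ∈ ((Finset.univ.erase j).erase l).erase m, c.z i‖ < 3 * ‖foot c.z j l‖) :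
    1 / 2 - √(2 * Real.pi) * ‖c.z j - c.z l‖ / Fintype.card ι ≤
      ((∑ i ∈ ((Finset.univ.erase j).erase l).erase m, ‖c.z i‖) / ‖foot c.z j l‖
        + ‖∑ i ∈ ((Finset.univ.erase j).erase l).erase m, c.z i‖ /
          √(9 * ‖foot c.z j l‖ ^ 2 - ‖∑ i ∈ ((Finset.univ.erase j).erase l).erase m, c.z i‖ ^ 2))
        / (2 * Real.pi) := by
  have h := tieSet_ge c hjl ⟨m, hmj, hml⟩
  rw [tie_crit c hjl] at h
  set S := ((Finset.univ.erase j).erase l).erase m with hS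
  set s := ∑ i ∈ S, c.z i with hs
  have hmem : m ∈ (Finset.univ.erase j).erase l := by simp [hmj, hml]
  have hlmem : l ∈ Finset.univ.erase j := by simp [hjl.symm]
  have hsum : c.z m = -(c.z j + c.z l + s) := by
    have h1 := c.sum_z
    rw [← Finset.add_sum_erase _ _ (Finset.mem_univ j), ← Finset.add_sum_erase _ _ hlmem,
      ← Finset.add_sum_erase _ _ hmem, ← hS, ← hs] at h1
    rw [eq_neg_iff_add_eq_zero, ← h1]; abel
  rw [← Finset.add_sum_erase _ _ hmem, ← hS] at h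
  have h1 := term_third c hjl hmj hml hsum hsn
  have h2 : ∑ i ∈ S, (stdGaussian E).real {x | 0 < ⟪foot c.z j l, x⟫ ∧ 0 ≤ ⟪perp c.z j l i, x⟫}
      ≤ ∑ i ∈ S, ‖c.z i‖ / ‖foot c.z j l‖ / (2 * Real.pi) := by
    refine Finset.sum_le_sum fun i hi => ?_
    simp only [hS, Finset.mem_erase] at hi
    exact term_small c hjl hi.2.2.1 hi.2.1
  rw [← Finset.sum_div, ← Finset.sum_div] at h2
  rw [add_div]
  linarith

end foot

end Crest.Agent.R215.Tie
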