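import Crest.Agent.R215.TieIneq

/-!
# Row 215: the S-B tie inequality (small cell against big cell)
-/

set_option autoImplicit false
open MeasureTheory ProbabilityTheory Set Filter Topology
open scoped NNReal ENNReal RealInnerProductSpace

namespace Crest.Agent.R215.Tie

open Crest.Agent.Lib.Ehrhard

variable {E : Type*} [NormedAddCommGroup E] [InnerProductSpace ℝ E] [FiniteDimensional ℝ E]
  [MeasurableSpace E] [BorelSpace E]

/-- closed wedge version of `wedge_le` -/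
lemma wedge_le' {a w : E} (ha : a ≠ 0) (haw : ⟪a, w⟫ = 0) {c : ℝ} (hc : 0 < c) :
    (stdGaussian E).real {x | 0 ≤ ⟪a, x⟫ ∧ c * ⟪a, x⟫ ≤ ⟪w, x⟫} ≤ ‖w‖ / (2 * Real.pi * c * ‖a‖) := by
  refine le_trans (le_of_eq ?_) (wedge_le ha haw hc)
  refine measureReal_congr ?_
  have h2 : ∀ᵐ x ∂stdGaussian E, ¬ (⟪a, x⟫ = 0) :=
    measure_eq_zero_iff_ae_notMem.1 (hyperplane_null ha)
  filter_upwards [h2] with x hx
  apply propext
  show (0 ≤ ⟪a, x⟫ ∧ c * ⟪a, x⟫ ≤ ⟪w, x⟫) ↔ (0 < ⟪a, x⟫ ∧ c * ⟪a, x⟫ ≤ ⟪w, x⟫)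
  constructor
  · rintro ⟨h3, h4⟩; exact ⟨lt_of_le_of_ne h3 (Ne.symm hx), h4⟩
  · rintro ⟨h3, h4⟩; exact ⟨h3.le, h4⟩

/-- `P(|Δ| ≤ Y) ≤ ‖Y‖ / (π ‖Δ‖)` when `2‖Y‖² ≤ ‖Δ‖²` (no independence needed) -/
lemma slab_general {p q : E} (hp : p ≠ 0) (h2 : 2 * ‖q‖ ^ 2 ≤ ‖p‖ ^ 2) :
    (stdGaussian E).real {x | |⟪p, x⟫| ≤ ⟪q, x⟫} ≤ ‖q‖ / (Real.pi * ‖p‖) := by
  have hpn : 0 < ‖p‖ := norm_pos_iff.2 hp
  have hpi := Real.pi_pos
  set g : ℝ := ⟪p, q⟫ / ‖p‖ ^ 2 with hg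
  set q' := q - g • p with hq'
  have horth : ⟪p, q'⟫ = 0 := by
    rw [hq', inner_sub_right, real_inner_smul_right, real_inner_self_eq_norm_sq, hg,
      div_mul_cancel₀ _ (by positivity), sub_self]
  have hqn : ‖q‖ ^ 2 = ‖q'‖ ^ 2 + g ^ 2 * ‖p‖ ^ 2 := by
    have : q = q' + g • p := by rw [hq']; abel
    rw [this, norm_add_sq_real, real_inner_smul_right, real_inner_comm, horth, norm_smul, mul_pow,
      Real.norm_eq_abs, sq_abs]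
    ring
  have hg2 : g ^ 2 ≤ 1 / 2 := by
    have h3 : g ^ 2 * ‖p‖ ^ 2 ≤ (1 / 2) * ‖p‖ ^ 2 := by nlinarith [sq_nonneg ‖q'‖]
    exact le_of_mul_le_mul_right h3 (by positivity)
  have hg1 : |g| < 1 := by
    rw [← sq_lt_one_iff_abs_lt_one]; linarith
  obtain ⟨hga, hgb⟩ := abs_lt.1 hg1
  have hsub : {x : E | |⟪p, x⟫| ≤ ⟪q, x⟫} ⊆
      {x | 0 ≤ ⟪p, x⟫ ∧ (1 - g) * ⟪p, x⟫ ≤ ⟪q', x⟫} ∪
      {x | 0 ≤ ⟪-p, x⟫ ∧ (1 + g) * ⟪-p, x⟫ ≤ ⟪q', x⟫} := by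
    intro x hx
    have hx' : |⟪p, x⟫| ≤ ⟪q, x⟫ := hx
    have e1 : ⟪q', x⟫ = ⟪q, x⟫ - g * ⟪p, x⟫ := by
      rw [hq', inner_sub_left, real_inner_smul_left]
    rcases le_total 0 ⟪p, x⟫ with h | h
    · left
      rw [abs_of_nonneg h] at hx'
      refine ⟨h, ?_⟩
      rw [e1]; linarith
    · right
      rw [abs_of_nonpos h] at hx'
      refine ⟨by rw [inner_neg_left]; linarith, ?_⟩
      rw [e1, inner_neg_left]; linarith
  have h3 := wedge_le' hp horth (c := 1 - g) (by linarith)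
  have h4 := wedge_le' (a := -p) (w := q') (neg_ne_zero.2 hp) (by rw [inner_neg_left, horth, neg_zero])
    (c := 1 + g) (by linarith)
  rw [norm_neg] at h4
  have h5 : (stdGaussian E).real {x | |⟪p, x⟫| ≤ ⟪q, x⟫}
      ≤ ‖q'‖ / (2 * Real.pi * (1 - g) * ‖p‖) + ‖q'‖ / (2 * Real.pi * (1 + g) * ‖p‖) :=
    (measureReal_mono hsub (by finiteness)).trans
      ((measureReal_union_le _ _).trans (add_le_add h3 h4))
  refine h5.trans ?_
  have hgg : 0 < 1 - g ^ 2 := by linarith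
  have e2 : ‖q'‖ / (2 * Real.pi * (1 - g) * ‖p‖) + ‖q'‖ / (2 * Real.pi * (1 + g) * ‖p‖)
      = ‖q'‖ / (1 - g ^ 2) / (Real.pi * ‖p‖) := by
    have h6 : (1 - g) ≠ 0 := by linarith
    have h7 : (1 + g) ≠ 0 := by linarith
    have h8 : (1 - g ^ 2) ≠ 0 := hgg.ne'
    have h9 : 1 - g ^ 2 = (1 - g) * (1 + g) := by ring
    rw [h9]
    field_simp
    ring
  rw [e2]
  refine div_le_div_of_nonneg_right ?_ (by positivity)
  rw [div_le_iff₀ hgg]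
  -- ‖q'‖ ≤ ‖q‖ (1 - g²)
  refine abs_le_of_sq_le_sq' ?_ (by positivity) |>.2
  rw [mul_pow]
  -- ‖q'‖² = ‖q‖² - g²‖p‖² ≤ ‖q‖² (1-g²)²
  nlinarith [sq_nonneg (g ^ 2 * ‖q‖), sq_nonneg g, mul_nonneg (sq_nonneg g) (by linarith : 0 ≤ ‖p‖ ^ 2 - 2 * ‖q‖ ^ 2)]

section crit

variable {ι : Type*} [Fintype ι] [DecidableEq ι] (c : Crit E ι)

/-- obtuse families: `‖Σ z‖² ≤ Σ ‖z‖²` -/
lemma norm_sum_sq_le (T : Finset ι) : ‖∑ i ∈ T, c.z i‖ ^ 2 ≤ ∑ i ∈ T, ‖c.z i‖ ^ 2 := by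
  induction T using Finset.induction_on with
  | empty => simp
  | insert a T ha ih =>
    rw [Finset.sum_insert ha, Finset.sum_insert ha, norm_add_sq_real, inner_sum]
    have : ∑ i ∈ T, ⟪c.z a, c.z i⟫ ≤ 0 :=
      Finset.sum_nonpos fun i hi => (c.inner_lt (fun h : a = i => ha (by rw [h]; exact hi))).le
    linarith

/-- **S-B tie inequality** (linear form): tie between `i` and `j`; `l, m` two further cells,
the remaining ones are bounded by their squared norms. -/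
theorem sb_tie {i j l m : ι} (hij : i ≠ j) (hli : l ≠ i) (hlj : l ≠ j) (hmi : m ≠ i) (hmj : m ≠ j)
    (hlm : l ≠ m) {Y D : ℝ}
    (hY : 16 * ‖foot c.z i j‖ ^ 2 + ∑ n ∈ (((Finset.univ.erase i).erase j).erase l).erase m, ‖c.z n‖ ^ 2
      ≤ Y ^ 2)
    (hD : D ^ 2 ≤ ‖c.z l - c.z m‖ ^ 2 - ⟪c.z i - c.z j, c.z l - c.z m⟫ ^ 2 / ‖c.z i - c.z j‖ ^ 2)
    (hD0 : 0 < D) (hY0 : 0 ≤ Y) (hYD : 2 * Y ^ 2 ≤ D ^ 2) :
    √(2 * Real.pi) * ‖c.z i - c.z j‖ / Fintype.card ι ≤ Y / (Real.pi * D) := by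
  rw [← tie_crit c hij]
  have hn := norm_sub_pos c hij
  set e := c.z i - c.z j with he
  set a := foot c.z i j with ha
  set p := perp c.z i j l - perp c.z i j m with hp
  set q := -(perp c.z i j l + perp c.z i j m) with hq
  set S := (((Finset.univ.erase i).erase j).erase l).erase m with hS
  set s := ∑ n ∈ S, c.z n with hs
  have hjmem : j ∈ Finset.univ.erase i := by simp [hij.symm]
  have hlmem : l ∈ (Finset.univ.erase i).erase j := by simp [hli, hlj]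
  have hmmem : m ∈ ((Finset.univ.erase i).erase j).erase l := by simp [hmi, hmj, hlm.symm]
  have hsum : c.z l + c.z m = -(c.z i + c.z j + s) := by
    have h1 := c.sum_z
    rw [← Finset.add_sum_erase _ _ (Finset.mem_univ i), ← Finset.add_sum_erase _ _ hjmem,
      ← Finset.add_sum_erase _ _ hlmem, ← Finset.add_sum_erase _ _ hmmem, ← hS, ← hs] at h1
    rw [eq_neg_iff_add_eq_zero, ← h1]; abel
  have hpe : p = (c.z l - c.z m) - (⟪e, c.z l - c.z m⟫ / ‖e‖ ^ 2) • e := by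
    rw [hp, perp, perp, ← he]
    have : ⟪e, c.z l - c.z m⟫ = ⟪e, c.z l - c.z i⟫ - ⟪e, c.z m - c.z i⟫ := by
      rw [← inner_sub_right]; congr 1; abel
    rw [this, sub_div, sub_smul]; abel
  have hqe : q = (4:ℝ) • a + (s - (⟪e, s⟫ / ‖e‖ ^ 2) • e) := by
    have e1 : ⟪e, c.z l - c.z i⟫ + ⟪e, c.z m - c.z i⟫ = -⟪e, s⟫ - 4 * ⟪e, c.z i⟫ + ‖e‖ ^ 2 := by
      rw [← inner_add_right]
      have e2 : c.z l - c.z i + (c.z m - c.z i) = -s - (4:ℝ) • c.z i + e := by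
        have : c.z l - c.z i + (c.z m - c.z i) = (c.z l + c.z m) - (2:ℝ) • c.z i := by module
        rw [this, hsum, he]; module
      rw [e2, inner_add_right, inner_sub_right, inner_neg_right, real_inner_smul_right,
        real_inner_self_eq_norm_sq]
    have e3 : ⟪e, c.z l - c.z i⟫ / ‖e‖ ^ 2 + ⟪e, c.z m - c.z i⟫ / ‖e‖ ^ 2
        = -(⟪e, s⟫ / ‖e‖ ^ 2) - 4 * (⟪e, c.z i⟫ / ‖e‖ ^ 2) + 1 := by
      rw [← add_div, e1]; field_simp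
    have e4 : q = -((c.z l + c.z m) - (2:ℝ) • c.z i)
        + (⟪e, c.z l - c.z i⟫ / ‖e‖ ^ 2 + ⟪e, c.z m - c.z i⟫ / ‖e‖ ^ 2) • e := by
      rw [hq, perp, perp, ← he]; module
    rw [e4, e3, hsum, ha, foot, ← he]
    rw [he]
    module
  have hproj : ∀ y : E, ⟪e, y - (⟪e, y⟫ / ‖e‖ ^ 2) • e⟫ = 0 := fun y => proj_orth c hij y
  have hpn : ‖p‖ ^ 2 = ‖c.z l - c.z m‖ ^ 2 - ⟪e, c.z l - c.z m⟫ ^ 2 / ‖e‖ ^ 2 := by
    rw [hpe, norm_sub_sq_real, real_inner_smul_right, norm_smul, mul_pow, Real.norm_eq_abs, sq_abs,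
      real_inner_comm e]
    field_simp
    ring
  have hqn : ‖q‖ ^ 2 ≤ Y ^ 2 := by
    refine le_trans ?_ hY
    rw [hqe, norm_add_sq_real, norm_smul, mul_pow, real_inner_smul_left]
    have h1 : ⟪a, s - (⟪e, s⟫ / ‖e‖ ^ 2) • e⟫ ≤ 0 := by
      have h2 : ⟪a, e⟫ = 0 := by rw [real_inner_comm]; exact inner_foot c hij
      rw [inner_sub_right, real_inner_smul_right, h2, mul_zero, sub_zero, hs, inner_sum]
      refine Finset.sum_nonpos fun n hn' => ?_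
      simp only [hS, Finset.mem_erase] at hn'
      exact (inner_foot_neg c hij hn'.2.2.2.1 hn'.2.2.1).le
    have h3 : ‖s - (⟪e, s⟫ / ‖e‖ ^ 2) • e‖ ^ 2 ≤ ‖s‖ ^ 2 := by
      have h4 : ‖s‖ ^ 2 = ‖s - (⟪e, s⟫ / ‖e‖ ^ 2) • e‖ ^ 2 + ‖(⟪e, s⟫ / ‖e‖ ^ 2) • e‖ ^ 2 := by
        have h5 : s = (s - (⟪e, s⟫ / ‖e‖ ^ 2) • e) + (⟪e, s⟫ / ‖e‖ ^ 2) • e := by abel
        have h6 : ⟪s - (⟪e, s⟫ / ‖e‖ ^ 2) • e, (⟪e, s⟫ / ‖e‖ ^ 2) • e⟫ = 0 := by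
          rw [real_inner_smul_right, real_inner_comm e, hproj, mul_zero]
        conv_lhs => rw [h5]
        rw [norm_add_sq_real, h6]; ring
      rw [h4]; nlinarith [sq_nonneg ‖(⟪e, s⟫ / ‖e‖ ^ 2) • e‖]
    have h7 := norm_sum_sq_le c S
    have h8 : ‖(4:ℝ)‖ ^ 2 = 16 := by norm_num
    rw [h8]
    linarith
  have hpD : D ^ 2 ≤ ‖p‖ ^ 2 := by rw [hpn]; exact hD
  have hDp : D ≤ ‖p‖ := le_of_sq_le_sq' hpD (norm_nonneg _)
  have hp0 : p ≠ 0 := norm_pos_iff.1 (hD0.trans_le hDp)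
  have hqY : ‖q‖ ≤ Y := le_of_sq_le_sq' hqn hY0
  have hsub : tieSet c.z i j ⊆ {x | |⟪p, x⟫| ≤ ⟪q, x⟫} := by
    intro x hx
    have h1 := hx l hli hlj
    have h2 := hx m hmi hmj
    show |⟪p, x⟫| ≤ ⟪q, x⟫
    rw [hp, hq, inner_neg_left, inner_add_left, inner_sub_left, abs_le]
    constructor <;> linarith
  refine (measureReal_mono hsub (by finiteness)).trans ?_
  refine (slab_general hp0 (by nlinarith)).trans ?_
  have hpi := Real.pi_pos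
  exact div_le_div₀ hY0 hqY (by positivity) (by gcongr)
where
  le_of_sq_le_sq' {a b : ℝ} (h : a ^ 2 ≤ b ^ 2) (hb : 0 ≤ b) : a ≤ b := by
    by_contra hc
    push Not at hc
    nlinarith

end crit

end Crest.Agent.R215.Tie
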